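import Vale.Agent.P348.Inv

/-! Soundness of orbit counting. Let `S mask = ∑ c ∈ range (3 ^ L), if mask.testBit c then f c else 0`.
`visit x k mask cnt = true` with `x < 3 ^ L`, `f x = a` gives `mask', cnt'` with `k mask' cnt' = true` and
`S mask' - cnt' * a = S mask - cnt * a`; iterate through `visRot` and `orbRun`. -/

namespace Vale.Agent.P348

namespace OrbAux

/-- the sum over the marked codes -/
def S (L : ℕ) (f : ℕ → ℤ) (mask : ℕ) : ℤ :=
  ∑ c ∈ Finset.range (3 ^ L), if mask.testBit c then f c else 0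

theorem beq_bit (mask x : ℕ) :
    Nat.beq (Nat.land (Nat.shiftRight mask x) 1) 0 = !mask.testBit x := by
  have e : Nat.land (Nat.shiftRight mask x) 1 = (mask >>> x) % 2 := Nat.and_one_is_mod _
  rw [e, Nat.testBit_eq_decide_div_mod_eq, Nat.shiftRight_eq_div_pow]
  rcases Nat.mod_two_eq_zero_or_one (mask / 2 ^ x) with h | h <;> rw [h] <;> rfl

theorem visit_sound {L : ℕ} {f : ℕ → ℤ} {x : ℕ} (hx : x < 3 ^ L) {a : ℤ} (ha : f x = a)
    {k : ℕ → ℕ → Bool} {mask cnt : ℕ} (h : visit x k mask cnt = true) :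
    ∃ mask' cnt', k mask' cnt' = true ∧ S L f mask' - cnt' * a = S L f mask - cnt * a := by
  unfold visit at h
  rw [beq_bit] at h
  cases hb : mask.testBit x
  · rw [hb] at h
    refine ⟨_, _, h, ?_⟩
    have e : S L f (Nat.lor mask (Nat.shiftLeft 1 x)) = S L f mask + f x := by
      unfold S
      have e1 : f x = ∑ c ∈ Finset.range (3 ^ L), if c = x then f c else 0 := by
        rw [Finset.sum_ite_eq' _ x f, if_pos (Finset.mem_range.2 hx)]
      rw [e1, ← Finset.sum_add_distrib]
      refine Finset.sum_congr rfl fun c _ => ?_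
      have e2 : (Nat.lor mask (Nat.shiftLeft 1 x)).testBit c =
          (mask.testBit c || decide (x = c)) := by
        change (mask ||| 1 <<< x).testBit c = _
        rw [Nat.testBit_or, Nat.one_shiftLeft, Nat.testBit_two_pow]
      rw [e2]
      by_cases hc : c = x
      · subst hc; simp [hb]
      · simp [hc, Ne.symm hc]
    rw [e, ha]
    push_cast
    ring
  · rw [hb] at h
    exact ⟨_, _, h, rfl⟩

theorem visRot_sound {L : ℕ} (hL : 1 ≤ L) {f : ℕ → ℤ}
    (hrot : ∀ c, c < 3 ^ L → f (rotC L c) = f c) (hflip : ∀ c, c < 3 ^ L → f (flipC L c) = f c)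
    {a : ℤ} {k : ℕ → ℕ → Bool} (n : ℕ) : ∀ (c mask cnt : ℕ), c < 3 ^ L → f c = a →
      visRot L k n c mask cnt = true →
      ∃ mask' cnt', k mask' cnt' = true ∧ S L f mask' - cnt' * a = S L f mask - cnt * a := by
  induction n with
  | zero => exact fun c mask cnt _ _ h => ⟨mask, cnt, h, rfl⟩
  | succ n ih =>
    intro c mask cnt hc ha h
    change visit c (visit (flipC L c) (visRot L k n (rotC L c))) mask cnt = true at h
    obtain ⟨m1, c1, h1, e1⟩ := visit_sound hc ha h
    obtain ⟨m2, c2, h2, e2⟩ := visit_sound (flipC_lt L c) ((hflip c hc).trans ha) h1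
    obtain ⟨m3, c3, h3, e3⟩ := ih _ _ _ (rotC_lt hL hc) ((hrot c hc).trans ha) h2
    exact ⟨m3, c3, h3, e3.trans (e2.trans e1)⟩

theorem rec_true {b c : Bool} (h : Bool.rec (motive := fun _ => Bool) false c b = true) :
    b = true ∧ c = true := by
  cases b
  · exact absurd h (by simp)
  · exact ⟨rfl, h⟩

end OrbAux

open OrbAux

theorem orbRun_sound (L : ℕ) (hL : 1 ≤ L) (f : ℕ → ℤ)
    (hrot : ∀ c, c < 3 ^ L → f (rotC L c) = f c) (hrev : ∀ c, c < 3 ^ L → f (revC L c) = f c)
    (hflip : ∀ c, c < 3 ^ L → f (flipC L c) = f c) (fin : ℕ) (reps : List (ℕ × ℕ)) (mask : ℕ)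
    (h : orbRun L fin reps mask = true) :
    (∑ c ∈ Finset.range (3 ^ L), if fin.testBit c then f c else 0) =
      (∑ c ∈ Finset.range (3 ^ L), if mask.testBit c then f c else 0) +
        (reps.map fun x => (x.2 : ℤ) * f x.1).sum := by
  change S L f fin = S L f mask + _
  induction reps generalizing mask with
  | nil =>
    have : mask = fin := Nat.eq_of_beq_eq_true h
    simp [this]
  | cons x reps ih =>
    change Bool.rec (motive := fun _ => Bool) false
      (visRot L (visRot L (fun mask' cnt => Bool.rec (motive := fun _ => Bool) false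
        (orbRun L fin reps mask') (Nat.beq cnt x.2)) L (revC L x.1)) L x.1 mask 0)
      (Nat.ble (Nat.succ x.1) (Nat.pow 3 L)) = true at h
    obtain ⟨h0, h1⟩ := rec_true h
    have hx : x.1 < 3 ^ L := Nat.le_of_ble_eq_true h0
    obtain ⟨m1, c1, h2, e1⟩ := visRot_sound hL hrot hflip L _ _ _ hx rfl h1
    obtain ⟨m2, c2, h3, e2⟩ := visRot_sound hL hrot hflip L _ _ _ (revC_lt L x.1) (hrev _ hx) h2
    obtain ⟨h4, h5⟩ := rec_true h3
    have hc : c2 = x.2 := Nat.eq_of_beq_eq_true h4
    rw [ih m2 h5, List.map_cons, List.sum_cons, ← hc]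
    push_cast at e1
    linarith

theorem mom_reps (L : ℕ) (hL : 2 ≤ L) (e : ℤ) (he : e * e = 1) (reps : List (ℕ × ℕ))
    (h : ∀ f : ℕ → ℤ, (∀ c, c < 3 ^ L → f (rotC L c) = f c) → (∀ c, c < 3 ^ L → f (revC L c) = f c) →
      (∀ c, c < 3 ^ L → f (flipC L c) = f c) →
      ∑ c ∈ Finset.range (3 ^ L), f c = (reps.map fun x => (x.2 : ℤ) * f x.1).sum)
    (A : ℕ → Bool) (k : ℕ) :
    mom L e A k = (reps.map fun x => (x.2 : ℤ) *
      if A (Nat.dist (dsC L x.1) L) then dgP L e k x.1 else 0).sum ∧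
    momF L e k = (reps.map fun x => (x.2 : ℤ) * if dsC L x.1 = L then dgF L e k x.1 else 0).sum := by
  constructor
  · rw [← h (fun c => if A (Nat.dist (dsC L c) L) then dgP L e k c else 0)]
    · unfold mom
      rw [sum_cfg]
      simp only [ds_dec, dgP]
    · intro c hc
      obtain ⟨h1, -, h3⟩ := inv_rot hL hc he k
      simp only [h1, h3]
    · intro c hc
      obtain ⟨h1, -, h3⟩ := inv_rev hL hc e k
      simp only [h1, h3]
    · intro c hc
      obtain ⟨h1, -, h3⟩ := inv_flip hL hc e k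
      have : Nat.dist (dsC L (flipC L c)) L = Nat.dist (dsC L c) L := by
        unfold Nat.dist; omega
      simp only [h1, this]
  · rw [← h (fun c => if dsC L c = L then dgF L e k c else 0)]
    · unfold momF
      rw [sum_cfg]
      simp only [ds_dec, dgF]
    · intro c hc
      obtain ⟨-, h1, h3⟩ := inv_rot hL hc he k
      simp only [h1, h3]
    · intro c hc
      obtain ⟨-, h1, h3⟩ := inv_rev hL hc e k
      simp only [h1, h3]
    · intro c hc
      obtain ⟨-, h1, h3⟩ := inv_flip hL hc e k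
      have : dsC L (flipC L c) = L ↔ dsC L c = L := by omega
      simp only [h1, this]

end Vale.Agent.P348
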