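import Vale.Agent.P348.Code

/-! Invariance of the diagonal data under rotation, reflection and flip.
General lemma `pow_conj`. Rotation: `dec L (rotC L c) = dec L c ∘ finRotate L`; the entries satisfy
`yB (s ∘ r) (t ∘ r) = φ s * φ t * yB s t` with `φ s = e ^ (s 0).val` (the sign moves from the bond
`(L-1, 0)` to the bond `(0, 1)` of the old labelling and back: a hop changes `s 0` by one exactly on these two bonds).
One way: `tens O (s ∘ r) (t ∘ r) = tens (O ∘ r.symm) s t` (`Equiv.prod_comp`), so reindexing moves `st j` to `st (r j)`,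
and conjugation by the diagonal matrix `st 0 (diagonal fun a => e ^ a.val)` multiplies `Um, Dm` on site `0` by `e` (`tens_st`).
Reflection: `dec L (revC L c) = dec L c ∘ Fin.rev`, bonds are permuted and the last bond is fixed. Flip: conjugation by
`tens fun _ => J` exchanges `Um` and `Dm` and negates `Zm`. For `dgF`: `flp` commutes with the three maps,
`φ (flp s) * φ s = e ^ 2 = 1`, and `yB` is symmetric. -/

namespace Vale.Agent.P348

open Matrix

theorem pow_conj {ι : Type} [Fintype ι] [DecidableEq ι] (A : Matrix ι ι ℤ) (σ : ι ≃ ι) (φ : ι → ℤ)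
    (hφ : ∀ i, φ i * φ i = 1) (h : ∀ i j, A (σ i) (σ j) = φ i * φ j * A i j) (k : ℕ) (i j : ι) :
    (A ^ k) (σ i) (σ j) = φ i * φ j * (A ^ k) i j := by
  induction k generalizing i j with
  | zero =>
    by_cases e : i = j
    · subst e; simp [hφ]
    · simp [one_apply_ne e, one_apply_ne (σ.injective.ne e)]
  | succ k ih =>
    rw [pow_succ, Matrix.mul_apply, Matrix.mul_apply, ← σ.sum_comp, Finset.mul_sum]
    refine Finset.sum_congr rfl fun l _ => ?_
    rw [ih, h]
    linear_combination (φ i * φ j * (A ^ k) i l * A l j) * hφ l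

theorem rotC_eq {L c : ℕ} (hL : 1 ≤ L) (hc : c < 3 ^ L) :
    rotC L c = enc (dec L c ∘ finRotate L) := by
  obtain ⟨n, rfl⟩ : ∃ n, L = n + 1 := ⟨L - 1, by omega⟩
  have h1 : c / 3 < 3 ^ n := Nat.div_lt_of_lt_mul (by rwa [← pow_succ'])
  have hr : ∀ j : Fin n, finRotate (n + 1) j.castSucc = j.succ := fun j => by simp
  show c / 3 + c % 3 * 3 ^ n = _
  rw [enc, Fin.sum_univ_castSucc]
  simp only [Function.comp_apply, hr, finRotate_last, dec_val, Fin.val_succ, Fin.val_castSucc,
    Fin.val_last, Fin.val_zero, dg_succ, dg_zero]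
  congr 1
  exact (enc_dec h1).symm

theorem revA_eq (n c a : ℕ) :
    revA n c a = a * 3 ^ n + ∑ i : Fin n, dg c i * 3 ^ (Fin.rev i).val := by
  induction n generalizing c a with
  | zero => simp [revA]
  | succ n ih =>
    show revA n (c / 3) (a * 3 + c % 3) = _
    rw [ih, Fin.sum_univ_succ]
    simp only [Fin.rev_zero, Fin.val_last, Fin.rev_succ, Fin.val_castSucc, Fin.val_succ,
      Fin.val_zero, dg_succ, dg_zero]
    ring

theorem revC_eq (L c : ℕ) : revC L c = enc (dec L c ∘ Fin.revPerm) := by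
  rw [revC, revA_eq, zero_mul, zero_add, enc, ← Equiv.sum_comp Fin.revPerm]
  simp only [Fin.revPerm_apply, Fin.rev_rev, Function.comp_apply, dec_val]

theorem rotC_lt {L c : ℕ} (hL : 1 ≤ L) (hc : c < 3 ^ L) : rotC L c < 3 ^ L := by
  rw [rotC_eq hL hc]; exact enc_lt _

theorem revC_lt (L c : ℕ) : revC L c < 3 ^ L := by
  rw [revC_eq]; exact enc_lt _

theorem flipC_lt (L c : ℕ) : flipC L c < 3 ^ L := by
  show 3 ^ L - 1 - c < 3 ^ L
  have : 0 < 3 ^ L := by positivity
  omega

section
variable {L : ℕ}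

/-- one bond of `yB` -/
def bond (j k : Fin L) (η : ℤ) : MC L ℤ :=
  1 - st j Zm * st k Zm + η • (st j Um * st k Dm + st j Dm * st k Um)

theorem yB_eq (e : ℤ) : (yB L e : MC L ℤ) =
    ∑ j : Fin L, bond j (finRotate L j) (if j.val + 1 = L then e else 1) := rfl

theorem bond_comm {j k : Fin L} (h : j ≠ k) (η : ℤ) : bond j k η = bond k j η := by
  rw [bond, bond, st_comm h Zm Zm, st_comm h Um Dm, st_comm h Dm Um, add_comm (st k Dm * _)]

/-- relabelling the sites -/
def siteE (σ : Equiv.Perm (Fin L)) : Cfg L ≃ Cfg L where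
  toFun s := s ∘ σ
  invFun s := s ∘ σ.symm
  left_inv s := by funext i; simp
  right_inv s := by funext i; simp

/-- the flip as an equivalence -/
def flpE (L : ℕ) : Cfg L ≃ Cfg L where
  toFun := flp
  invFun := flp
  left_inv s := by funext i; simp [flp]
  right_inv s := by funext i; simp [flp]

theorem bond_sub (E : Cfg L ≃ Cfg L) (j k : Fin L) (η : ℤ) : (bond j k η).submatrix E E =
    1 - (st j Zm).submatrix E E * (st k Zm).submatrix E E +
      η • ((st j Um).submatrix E E * (st k Dm).submatrix E E +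
        (st j Dm).submatrix E E * (st k Um).submatrix E E) := by
  simp only [submatrix_mul_equiv]
  rw [← submatrix_one_equiv (α := ℤ) E]
  rfl

theorem st_site (σ : Equiv.Perm (Fin L)) (j : Fin L) (A : M3 ℤ) :
    (st j A).submatrix (siteE σ) (siteE σ) = st (σ j) A := by
  ext s t
  show ∏ i, (if i = j then A else 1) (s (σ i)) (t (σ i)) = ∏ i, (if i = σ j then A else 1) (s i) (t i)
  rw [← Equiv.prod_comp σ fun i => (if i = σ j then A else 1) (s i) (t i)]
  simp only [σ.injective.eq_iff]

theorem bond_site (σ : Equiv.Perm (Fin L)) (j k : Fin L) (η : ℤ) :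
    (bond j k η).submatrix (siteE σ) (siteE σ) = bond (σ j) (σ k) η := by
  rw [bond_sub]
  simp only [st_site, bond]

theorem st_flp (j : Fin L) (A : M3 ℤ) :
    (st j A).submatrix (flpE L) (flpE L) = st j (A.submatrix Fin.rev Fin.rev) := by
  ext s t
  show ∏ i, (if i = j then A else 1) (s i).rev (t i).rev =
    ∏ i, (if i = j then A.submatrix Fin.rev Fin.rev else 1) (s i) (t i)
  refine Finset.prod_congr rfl fun i _ => ?_
  split_ifs
  · rfl
  · simp [one_apply, Fin.rev_inj]

theorem bond_flp (j k : Fin L) (η : ℤ) :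
    (bond j k η).submatrix (flpE L) (flpE L) = bond j k η := by
  have hU : (Um : M3 ℤ).submatrix Fin.rev Fin.rev = Dm := by decide
  have hD : (Dm : M3 ℤ).submatrix Fin.rev Fin.rev = Um := by decide
  have hZ : (Zm : M3 ℤ).submatrix Fin.rev Fin.rev = -Zm := by decide
  rw [bond_sub]
  simp only [st_flp, hU, hD, hZ, st_neg, neg_mul_neg, bond]
  rw [add_comm (st j Dm * _)]

theorem sum_sub (E : Cfg L ≃ Cfg L) (M : Fin L → MC L ℤ) :
    (∑ j, M j).submatrix E E = ∑ j, (M j).submatrix E E := by
  ext s t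
  simp only [submatrix_apply, Matrix.sum_apply]

theorem yB_flp (e : ℤ) (s t : Cfg L) : yB L e (flp s) (flp t) = yB L e s t := by
  have : (yB L e : MC L ℤ).submatrix (flpE L) (flpE L) = yB L e := by
    rw [yB_eq, sum_sub]
    simp only [bond_flp]
  exact congrFun (congrFun this s) t

theorem yB_rev (hL : 2 ≤ L) (e : ℤ) (s t : Cfg L) :
    yB L e (s ∘ Fin.revPerm) (t ∘ Fin.revPerm) = yB L e s t := by
  have : (yB L e : MC L ℤ).submatrix (siteE Fin.revPerm) (siteE Fin.revPerm) = yB L e := by
    rw [yB_eq, sum_sub]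
    refine Fintype.sum_equiv ((finRotate L).trans Fin.revPerm) _ _ fun j => ?_
    have hj := j.2
    have h1 : ((finRotate L j).rev).val = if j.val + 1 = L then j.val else L - 2 - j.val := by
      rw [Fin.val_rev, finRotate_val]
      split_ifs <;> omega
    have h2 : finRotate L (finRotate L j).rev = j.rev := by
      apply Fin.ext
      rw [finRotate_val, h1, Fin.val_rev]
      split_ifs <;> omega
    rw [bond_site, bond_comm (Fin.revPerm.injective.ne (finRotate_ne hL j))]
    simp only [Equiv.trans_apply, Fin.revPerm_apply, h2, h1]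
    congr 1
    split_ifs <;> first | rfl | omega
  exact congrFun (congrFun this s) t

theorem gauge_st {e : ℤ} (z j : Fin L) (A : M3 ℤ) (c : ℤ)
    (h : (diagonal fun a : Fin 3 => e ^ a.val) * A = (c • A) * diagonal fun a : Fin 3 => e ^ a.val) :
    st z (diagonal fun a : Fin 3 => e ^ a.val) * st j A =
      (if j = z then c else 1) • (st j A * st z (diagonal fun a : Fin 3 => e ^ a.val)) := by
  by_cases hj : j = z
  · subst hj
    rw [if_pos rfl, st_mul, st_mul, h, smul_mul_assoc, st_smul]
  · rw [if_neg hj, one_smul, st_comm hj]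

theorem gauge_bond {e : ℤ} (he : e * e = 1) (z j k : Fin L) (η : ℤ) :
    st z (diagonal fun a : Fin 3 => e ^ a.val) * bond j k η =
      bond j k (η * ((if j = z then e else 1) * if k = z then e else 1)) *
        st z (diagonal fun a : Fin 3 => e ^ a.val) := by
  have he2 : e ^ 2 = 1 := by rw [sq, he]
  have hU := fun j => gauge_st (e := e) z j Um e (by
    ext a b
    rw [diagonal_mul, mul_diagonal]
    fin_cases a <;> fin_cases b <;> simp [Um, he, he2])
  have hD := fun j => gauge_st (e := e) z j Dm e (by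
    ext a b
    rw [diagonal_mul, mul_diagonal]
    fin_cases a <;> fin_cases b <;> simp [Dm, he, he2])
  have hZ := fun j => gauge_st (e := e) z j Zm 1 (by
    ext a b
    rw [diagonal_mul, mul_diagonal]
    fin_cases a <;> fin_cases b <;> simp [Zm])
  simp only [ite_self, one_smul] at hZ
  generalize st z (diagonal fun a : Fin 3 => e ^ a.val) = Φ at hU hD hZ ⊢
  have key : ∀ (A B : MC L ℤ) (a b : ℤ), Φ * A = a • (A * Φ) → Φ * B = b • (B * Φ) →
      Φ * (A * B) = (a * b) • (A * B * Φ) := by
    intro A B a b h1 h2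
    rw [← Matrix.mul_assoc, h1, smul_mul_assoc, Matrix.mul_assoc, h2, mul_smul_comm, smul_smul,
      Matrix.mul_assoc]
  have hZZ : Φ * (st j Zm * st k Zm) = st j Zm * st k Zm * Φ := by
    rw [← Matrix.mul_assoc, hZ, Matrix.mul_assoc, hZ, Matrix.mul_assoc]
  simp only [bond, mul_add, add_mul, mul_sub, sub_mul, mul_smul_comm, smul_mul_assoc, mul_one,
    one_mul, hZZ, key _ _ _ _ (hU j) (hD k), key _ _ _ _ (hD j) (hU k), ← smul_add, smul_smul]

theorem yB_rot (hL : 2 ≤ L) {e : ℤ} (he : e * e = 1) (s t : Cfg L) :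
    yB L e (s ∘ finRotate L) (t ∘ finRotate L) =
      e ^ (s ⟨0, by omega⟩).val * e ^ (t ⟨0, by omega⟩).val * yB L e s t := by
  set z : Fin L := ⟨0, by omega⟩ with hz
  have h1 : st z (diagonal fun a : Fin 3 => e ^ a.val) * yB L e =
      (yB L e : MC L ℤ).submatrix (siteE (finRotate L)) (siteE (finRotate L)) *
        st z (diagonal fun a : Fin 3 => e ^ a.val) := by
    rw [yB_eq, sum_sub, Finset.mul_sum, Finset.sum_mul, ← Equiv.sum_comp (finRotate L)]
    refine Finset.sum_congr rfl fun j _ => ?_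
    rw [gauge_bond he, bond_site]
    congr 2
    have hj := j.2
    simp only [hz, Fin.ext_iff, finRotate_val]
    split_ifs <;> first | contradiction | omega | simp [he]
  have h2 : st z (diagonal fun a : Fin 3 => e ^ a.val) =
      diagonal fun s : Cfg L => e ^ (s z).val := by
    have := tens_diagonal (R := ℤ) fun (i : Fin L) (a : Fin 3) => if i = z then e ^ a.val else 1
    simp only [Finset.prod_ite_eq', Finset.mem_univ, if_true] at this
    rw [← this, st]
    congr 1
    funext i
    split_ifs <;> simp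
  rw [h2] at h1
  have h3 := congrFun (congrFun h1 s) t
  rw [diagonal_mul, mul_diagonal] at h3
  have h4 : e ^ (t z).val * e ^ (t z).val = 1 := by rw [← mul_pow, he, one_pow]
  have h5 : yB L e (s ∘ finRotate L) (t ∘ finRotate L) =
    (yB L e : MC L ℤ).submatrix (siteE (finRotate L)) (siteE (finRotate L)) s t := rfl
  rw [h5]
  linear_combination -(e ^ (t z).val) * h3 -
    (yB L e : MC L ℤ).submatrix (siteE (finRotate L)) (siteE (finRotate L)) s t * h4

theorem ds_comp (s : Cfg L) (σ : Equiv.Perm (Fin L)) : ds (s ∘ σ) = ds s :=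
  Equiv.sum_comp σ fun i => (s i).val

end

theorem inv_rot {L c : ℕ} (hL : 2 ≤ L) (hc : c < 3 ^ L) {e : ℤ} (he : e * e = 1) (k : ℕ) :
    dgP L e k (rotC L c) = dgP L e k c ∧ dgF L e k (rotC L c) = dgF L e k c ∧
      dsC L (rotC L c) = dsC L c := by
  have hd : dec L (rotC L c) = siteE (finRotate L) (dec L c) := by
    rw [rotC_eq (by omega) hc, dec_enc]; rfl
  have hφ : ∀ s : Cfg L, e ^ (s ⟨0, by omega⟩).val * e ^ (s ⟨0, by omega⟩).val = 1 := fun s => by
    rw [← mul_pow, he, one_pow]
  have key := pow_conj (yB L e) (siteE (finRotate L)) _ hφ (yB_rot hL he) k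
  refine ⟨?_, ?_, ?_⟩
  · rw [dgP, dgP, hd, key, hφ, one_mul]
  · rw [dgF, dgF, hd]
    refine (key (flp (dec L c)) (dec L c)).trans ?_
    rw [← pow_add, flp_val, sq, he, one_mul]
  · rw [← ds_dec, ← ds_dec, hd]
    exact ds_comp _ _

theorem inv_rev {L c : ℕ} (hL : 2 ≤ L) (hc : c < 3 ^ L) (e : ℤ) (k : ℕ) :
    dgP L e k (revC L c) = dgP L e k c ∧ dgF L e k (revC L c) = dgF L e k c ∧
      dsC L (revC L c) = dsC L c := by
  have hd : dec L (revC L c) = siteE Fin.revPerm (dec L c) := by
    rw [revC_eq, dec_enc]; rfl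
  have key := pow_conj (yB L e) (siteE Fin.revPerm) (fun _ => 1) (fun _ => one_mul 1)
    (fun s t => by rw [one_mul, one_mul]; exact yB_rev hL e s t) k
  simp only [one_mul] at key
  refine ⟨?_, ?_, ?_⟩
  · rw [dgP, dgP, hd, key]
  · rw [dgF, dgF, hd]
    exact key (flp (dec L c)) (dec L c)
  · rw [← ds_dec, ← ds_dec, hd]
    exact ds_comp _ _

theorem inv_flip {L c : ℕ} (hL : 2 ≤ L) (hc : c < 3 ^ L) (e : ℤ) (k : ℕ) :
    dgP L e k (flipC L c) = dgP L e k c ∧ dgF L e k (flipC L c) = dgF L e k c ∧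
      dsC L (flipC L c) + dsC L c = 2 * L := by
  have key := pow_conj (yB L e) (flpE L) (fun _ => 1) (fun _ => one_mul 1)
    (fun s t => by rw [one_mul, one_mul]; exact yB_flp e s t) k
  simp only [one_mul] at key
  refine ⟨?_, ?_, ?_⟩
  · rw [dgP, dgP, ← flp_dec hc]
    exact key _ _
  · rw [dgF, dgF, ← flp_dec hc]
    exact key (flp (dec L c)) (dec L c)
  · rw [← ds_dec, ← ds_dec, ← flp_dec hc, ds, ds, ← Finset.sum_add_distrib]
    simp [flp_val, mul_comm]

end Vale.Agent.P348
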