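import Vale.Agent.P348.Sect
import Vale.Agent.P348.Inv

/-! Counting measures for the flip sectors (these replace `bnd_A`, `bnd_F` in the final certificate).
`sect_repH`: for `A 0 = false` the flip `s ↦ flp s` exchanges `ds s > L` and `ds s < L` and preserves the diagonal
entries of `y ^ k` (`pow_conj`/`inv_flip` with `sum_cfg`, or conjugation by `tens fun _ => J`), so
`mom L e A k = 2 * ∑ s, if A (dist (ds s) L) ∧ L < ds s then (y ^ k) s s else 0`; then argue as in `sect_rep` with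
`Q s := A (dist (ds s) L) ∧ L < ds s`.
`sect_repP`: on `Q s := ds s = L` let `y` and `G` be as in `sect_repF`, `P = (1/2) • (1 + σ • G)`. `P * P = P`, `Pᵀ = P`,
`y * P = P * y` (flip symmetry of `yB`). Put `B = y * P + L • (1 - P)`; by induction `B ^ k = y ^ k * P + L ^ k • (1 - P)`;
`L • 1 + B = Pᵀ * (L • 1 + y) * P + (2 L) • ((1 - P)ᵀ * (1 - P))` is positive semidefinite, so `rep_real` or `trace_pow_real`
gives `η`; take traces. 
`bnd_H`, `bnd_P`: `Gauss.lean` with `c = 1`, and `ex_rep`/`hasSum_ex`; the extra mass at `η = L` contributes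
`N * exp (16 L)`, between `0` and `N * 3 ^ (16 L)` (`Real.exp_one_lt_d9`). -/

namespace Vale.Agent.P348

open Matrix

namespace SectAux

theorem gS1_eq : (gS 1 : M3 ℝ) = !![0, 0, -1; 0, -1, 0; -1, 0, 0] := by
  unfold gS
  rw [if_neg (by decide), if_neg (by decide)]

theorem gS1_Z : (gS 1 : M3 ℝ) * Zm = (-Zm) * gS 1 := by
  rw [gS1_eq]; unfold Zm
  ext a b
  fin_cases a <;> fin_cases b <;> simp [Matrix.mul_apply, Fin.sum_univ_three]

theorem gS1_U : (gS 1 : M3 ℝ) * Um = Dm * gS 1 := by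
  rw [gS1_eq]; unfold Um Dm
  ext a b
  fin_cases a <;> fin_cases b <;> simp [Matrix.mul_apply, Fin.sum_univ_three]

theorem gS1_D : (gS 1 : M3 ℝ) * Dm = Um * gS 1 := by
  rw [gS1_eq]; unfold Um Dm
  ext a b
  fin_cases a <;> fin_cases b <;> simp [Matrix.mul_apply, Fin.sum_univ_three]

theorem tens_st2 {L : ℕ} (V : M3 ℝ) (j k : Fin L) (A A' B B' : M3 ℝ) (hA : V * A = A' * V)
    (hB : V * B = B' * V) :
    (tens fun _ : Fin L => V) * (st j A * st k B) = st j A' * st k B' * tens fun _ => V := by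
  rw [← mul_assoc, tens_st (fun _ => V) j A A' hA, mul_assoc, tens_st (fun _ => V) k B B' hB,
    mul_assoc]

theorem Fl_comm (L : ℕ) (e : ℝ) : Fl L * yB L e = yB L e * Fl L := by
  have h : (tens fun _ : Fin L => (gS 1 : M3 ℝ)) * yB L e = yB L e * tens fun _ => gS 1 := by
    unfold yB
    rw [Finset.mul_sum, Finset.sum_mul]
    refine Finset.sum_congr rfl fun j _ => ?_
    rw [mul_add, mul_sub, add_mul, sub_mul, mul_one, one_mul, Matrix.mul_smul, Matrix.smul_mul,
      mul_add, add_mul, tens_st2 _ _ _ _ _ _ _ gS1_Z gS1_Z, tens_st2 _ _ _ _ _ _ _ gS1_U gS1_D,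
      tens_st2 _ _ _ _ _ _ _ gS1_D gS1_U, st_neg, st_neg, neg_mul_neg,
      add_comm (st j Dm * st _ Um * _)]
  rw [tens_gS1, Matrix.smul_mul, Matrix.mul_smul] at h
  have h1 : ((-1 : ℝ) ^ L) ≠ 0 := pow_ne_zero _ (by norm_num)
  exact smul_right_injective _ h1 h

theorem Fl_mul {L : ℕ} (M : MC L ℝ) (s t : Cfg L) : (Fl L * M) s t = M (flp s) t := by
  rw [Matrix.mul_apply, Finset.sum_eq_single (flp s)]
  · simp [Fl, flp_flp]
  · intro u _ hu
    rw [Fl, if_neg (fun h => hu (by rw [h, flp_flp])), zero_mul]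
  · simp

theorem pow_flp (L : ℕ) (e : ℝ) (k : ℕ) (s : Cfg L) :
    ((yB L e : MC L ℝ) ^ k) (flp s) (flp s) = ((yB L e : MC L ℝ) ^ k) s s := by
  have h : Fl L * (yB L e : MC L ℝ) ^ k = yB L e ^ k * Fl L :=
    (Commute.pow_right (Fl_comm L e) k).eq
  have := congrFun (congrFun h s) (flp s)
  rwa [Fl_mul, mul_Fl, flp_flp] at this

/-- power sums inside an invariant sector -/
theorem sect_ps (L : ℕ) (B : MC L ℝ) (hB : ((L : ℝ) • (1 : MC L ℝ) + B).PosSemidef)
    (Q : Cfg L → Prop) [DecidablePred Q] (hQ : ∀ s t, B s t ≠ 0 → (Q s ↔ Q t)) :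
    ∃ η : {s // Q s} → ℝ, (∀ i, 0 ≤ η i + L) ∧
      ∀ k : ℕ, (∑ s, if Q s then (B ^ k) s s else 0) = ∑ i, η i ^ k := by
  have hP := hB.submatrix (Subtype.val : {s // Q s} → Cfg L)
  obtain ⟨w, hw1, -, hw3⟩ := rep_real _ hP.isHermitian
  have hone : (1 : MC L ℝ).submatrix (Subtype.val : {s // Q s} → Cfg L) Subtype.val = 1 :=
    Matrix.submatrix_one _ Subtype.val_injective
  refine ⟨fun i => -(L : ℝ) + 1 * hP.isHermitian.eigenvalues i, fun i => ?_, fun k => ?_⟩
  · have := hP.eigenvalues_nonneg i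
    linarith
  · have h0 := sector_trace B 1 Q hQ k
    have h1 := hw3 1 (-(L : ℝ)) 1 k
    have h2 : (-(L : ℝ)) • (1 : Matrix {s // Q s} {s // Q s} ℝ) + (1 : ℝ) •
        ((L : ℝ) • (1 : MC L ℝ) + B).submatrix Subtype.val Subtype.val =
        B.submatrix (Subtype.val : {s // Q s} → Cfg L) Subtype.val := by
      rw [← hone]
      ext i j
      simp
    rw [h2] at h1
    rw [hone, h1] at h0
    simpa only [mul_one, hw1, one_mul] using h0

theorem proj_pow {L : ℕ} (y P : MC L ℝ) (c : ℝ) (hP : P * P = P) (hy : P * y = y * P) (k : ℕ) :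
    (y * P + c • (1 - P)) ^ k = y ^ k * P + c ^ k • (1 - P) := by
  have h1 : P * (1 - P) = 0 := by rw [mul_sub, mul_one, hP, sub_self]
  have h2 : (1 - P) * P = 0 := by rw [sub_mul, one_mul, hP, sub_self]
  have h3 : (1 - P) * (1 - P) = 1 - P := by rw [mul_sub, mul_one, h2, sub_zero]
  have h4 : (1 - P) * (y * P) = 0 := by rw [← hy, ← mul_assoc, h2, zero_mul]
  have h5 : P * (y * P) = y * P := by rw [← mul_assoc, hy, mul_assoc, hP]
  induction k with
  | zero => simp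
  | succ k ih =>
    rw [pow_succ, ih, add_mul, mul_add, mul_add, Matrix.smul_mul, Matrix.smul_mul, Matrix.mul_smul,
      Matrix.mul_smul, h4, h3, mul_assoc, h5, mul_assoc (y ^ k) P, h1, smul_smul, ← mul_assoc,
      ← pow_succ, ← pow_succ]
    simp

end SectAux

open SectAux

theorem sect_repH (L : ℕ) (hL : 2 ≤ L) (e : ℤ) (he : e * e = 1) (A : ℕ → Bool) (hA : A 0 = false) :
    ∃ (κ : Type) (_ : Fintype κ) (η : κ → ℝ), (∀ i, 0 ≤ η i + L) ∧
      ∀ k, (mom L e A k : ℝ) = 2 * ∑ i, η i ^ k := by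
  obtain ⟨η, h1, h2⟩ := sect_ps L (yB L (e : ℝ)) (yB_psd L hL e (cast_sq he))
    (fun s => A (Nat.dist (ds s) L) = true ∧ L < ds s)
    (fun s t h => by rw [yB_ds L hL _ s t h])
  refine ⟨_, inferInstance, η, h1, fun k => ?_⟩
  rw [mom_cast, ← h2 k, two_mul]
  have hinv : Function.Involutive (flp : Cfg L → Cfg L) := flp_flp
  nth_rewrite 2 [← Equiv.sum_comp hinv.toPerm]
  rw [← Finset.sum_add_distrib]
  refine Finset.sum_congr rfl fun s _ => ?_
  have h3 := ds_flp s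
  have h4 : Nat.dist (ds (flp s)) L = Nat.dist (ds s) L := by unfold Nat.dist; omega
  simp only [Function.Involutive.coe_toPerm, h4, pow_flp]
  by_cases h5 : A (Nat.dist (ds s) L) = true
  · have h6 : ds s ≠ L := fun h => by
      rw [h, Nat.dist_self, hA] at h5
      exact absurd h5 (by simp)
    rcases lt_or_gt_of_ne h6 with h7 | h7
    · rw [if_pos h5, if_pos ⟨h5, by omega⟩, if_neg (fun h => by omega), add_zero]
    · rw [if_pos h5, if_neg (fun h => by omega), if_pos ⟨h5, h7⟩, zero_add]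
  · rw [if_neg h5, if_neg (fun h => h5 h.1), if_neg (fun h => h5 h.1), add_zero]

theorem sect_repP (L : ℕ) (hL : 2 ≤ L) (e : ℤ) (he : e * e = 1) (σ : ℤ) (hσ : σ = 1 ∨ σ = -1) :
    ∃ (κ : Type) (_ : Fintype κ) (η : κ → ℝ), (∀ i, 0 ≤ η i + L) ∧
      ∀ k, (mom L e A0 k : ℝ) + σ * momF L e k + ((mom L e A0 0 : ℝ) - σ * momF L e 0) * (L : ℝ) ^ k =
        2 * ∑ i, η i ^ k := by
  have hσ2 : (σ : ℝ) * σ = 1 := by rcases hσ with rfl | rfl <;> norm_num
  obtain ⟨y, hy⟩ : ∃ y : MC L ℝ, y = yB L (e : ℝ) := ⟨_, rfl⟩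
  obtain ⟨P, hP⟩ : ∃ P : MC L ℝ, P = (1 / 2 : ℝ) • ((1 : MC L ℝ) + (σ : ℝ) • Fl L) := ⟨_, rfl⟩
  have hPP : P * P = P := by
    rw [hP, Matrix.smul_mul, Matrix.mul_smul, add_mul, mul_add, mul_add, one_mul, one_mul, mul_one,
      Matrix.smul_mul, Matrix.mul_smul, Fl_mul_Fl, smul_smul (σ : ℝ), hσ2]
    module
  have hPy : P * y = y * P := by
    rw [hP, Matrix.smul_mul, Matrix.mul_smul, add_mul, mul_add, one_mul, mul_one, Matrix.smul_mul,
      Matrix.mul_smul, hy, Fl_comm]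
  have hPT : Pᴴ = P := by
    rw [hP, conjTranspose_smul, conjTranspose_add, conjTranspose_one, conjTranspose_smul,
      Fl_transpose, star_trivial, star_trivial]
  have hpsd : ((L : ℝ) • (1 : MC L ℝ) + (y * P + (L : ℝ) • (1 - P))).PosSemidef := by
    have a1 := (yB_psd L hL e (cast_sq he)).conjTranspose_mul_mul_same P
    have a2 := (Matrix.posSemidef_conjTranspose_mul_self (1 - P)).smul
      (show (0 : ℝ) ≤ 2 * L by positivity)
    have a3 := a1.add a2
    have h5 : P * y * P = y * P := by rw [hPy, mul_assoc, hPP]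
    rw [conjTranspose_sub, conjTranspose_one, hPT, ← hy, mul_add, add_mul, h5, Matrix.mul_smul,
      mul_one, Matrix.smul_mul, hPP, mul_sub, mul_one, sub_mul, one_mul, hPP, sub_self,
      sub_zero] at a3
    convert a3 using 1
    module
  have hent : ∀ (k : ℕ) (s t : Cfg L), (y ^ k * P + (L : ℝ) ^ k • (1 - P)) s t =
      ((y ^ k) s t + σ * (y ^ k) s (flp t) +
        ((y ^ 0) s t - σ * (y ^ 0) s (flp t)) * (L : ℝ) ^ k) / 2 := by
    intro k s t
    rw [← mul_Fl (y ^ k), ← mul_Fl (y ^ 0), pow_zero, one_mul, hP, Matrix.mul_smul, mul_add, mul_one,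
      Matrix.mul_smul]
    simp only [Matrix.add_apply, Matrix.smul_apply, Matrix.sub_apply, smul_eq_mul]
    ring
  obtain ⟨η, h1, h2⟩ := sect_ps L _ hpsd (fun s => ds s = L) (fun s t h => by
    by_contra hc
    apply h
    have h3 := ds_flp t
    have h4 := hent 1 s t
    rw [pow_one, pow_one] at h4
    have z1 : ∀ k, (y ^ k) s t = 0 := fun k => hy ▸
      pow_apply_eq_zero _ ds (yB_ds L hL _) k _ _ (fun h5 => hc (by rw [h5]))
    have z2 : ∀ k, (y ^ k) s (flp t) = 0 := fun k => hy ▸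
      pow_apply_eq_zero _ ds (yB_ds L hL _) k _ _ (fun h5 => hc (by omega))
    have z3 := z1 1
    have z4 := z2 1
    rw [pow_one] at z3 z4
    rw [h4, z1 0, z2 0, z3, z4]
    ring)
  refine ⟨_, inferInstance, η, h1, fun k => ?_⟩
  rw [← h2 k, proj_pow y P L hPP hPy k, mom_cast, mom_cast, momF_cast, momF_cast, Finset.mul_sum,
    Finset.mul_sum, Finset.mul_sum, ← Finset.sum_sub_distrib, Finset.sum_mul,
    ← Finset.sum_add_distrib, ← Finset.sum_add_distrib]
  refine Finset.sum_congr rfl fun s _ => ?_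
  simp only [A0_dist]
  rw [hent, yB_pow_symm L hL e (cast_sq he) k (flp s), yB_pow_symm L hL e (cast_sq he) 0 (flp s),
    ← hy]
  split_ifs <;> ring

theorem exY_nonneg (L : ℕ) (hL : 2 ≤ L) (e : ℤ) (he : e * e = 1) (A : ℕ → Bool) :
    0 ≤ exY L (mom L e A) := (bnd_A L hL e he A).1

theorem bnd_H (L : ℕ) (hL : 2 ≤ L) (e : ℤ) (he : e * e = 1) (A : ℕ → Bool) (hA : A 0 = false)
    (s K : ℕ) (hs : 0 < s) (hK : 0 < K) (m : List ℤ)
    (hm : ∀ k, k < m.length → 2 * m.getD k 0 = mom L e A k) :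
    (∀ nodes lo, lowChk s K L m nodes lo = true → 2 * (lo : ℝ) ≤ exY L (mom L e A)) ∧
    (∀ nodes Y nodes' hi, edgeChk s L m nodes Y = true → upChk s K L m nodes' Y hi = true →
      exY L (mom L e A) ≤ 2 * (hi : ℝ)) := by
  obtain ⟨κ, _, η, h1, h2⟩ := sect_repH L hL e he A hA
  have hE : exY L (mom L e A) = 2 * ∑ i, (fun _ => (1 : ℝ)) i * Real.exp (8 * (η i + L)) := by
    rw [exY_rep L _ (fun _ => 2) η (fun k => by rw [h2, Finset.mul_sum]), Finset.mul_sum]
    simp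
  have hM : ∀ k, k < m.length → ((m.getD k 0 : ℤ) : ℝ) = ∑ i, η i ^ k := by
    intro k hk
    have h3 : (2 : ℝ) * ((m.getD k 0 : ℤ) : ℝ) = (mom L e A k : ℝ) := by exact_mod_cast hm k hk
    rw [h2] at h3
    linarith
  have hM' : ∀ k, k < m.length → ((m.getD k 0 : ℤ) : ℝ) = ∑ i, (fun _ => (1 : ℝ)) i * η i ^ k :=
    fun k hk => by simpa using hM k hk
  rw [hE]
  refine ⟨fun nodes lo h => ?_, fun nodes Y nodes' hi hE' h => ?_⟩
  · have := lowChk_sound _ η s K L hs hK m nodes lo (fun _ => zero_le_one) h1 hM' h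
    linarith
  · have := upChk_sound _ η s K L hs hK m nodes' Y hi (fun _ => zero_le_one) h1
      (edgeChk_sound η s L m nodes Y hM hE') hM' h
    linarith

theorem bnd_P (L : ℕ) (hL : 2 ≤ L) (e : ℤ) (he : e * e = 1) (σ : ℤ) (hσ : σ = 1 ∨ σ = -1)
    (s K : ℕ) (hs : 0 < s) (hK : 0 < K) (N : ℕ) (hN : mom L e A0 0 - σ * momF L e 0 = N) (m : List ℤ)
    (hm : ∀ k, k < m.length → 2 * m.getD k 0 = mom L e A0 k + σ * momF L e k + N * (L : ℤ) ^ k) :
    (∀ nodes lo, lowChk s K L m nodes lo = true →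
      2 * (lo : ℝ) - N * 3 ^ (16 * L) ≤ exY L (mom L e A0) + σ * exY L (momF L e)) ∧
    (∀ nodes Y nodes' hi, edgeChk s L m nodes Y = true → upChk s K L m nodes' Y hi = true →
      exY L (mom L e A0) + σ * exY L (momF L e) ≤ 2 * (hi : ℝ)) := by
  obtain ⟨κ, _, η, h1, h2⟩ := sect_repP L hL e he σ hσ
  obtain ⟨κ', _, η', φ, -, -, h3, h4⟩ := sect_repF L hL e he
  have hN' : (mom L e A0 0 : ℝ) - σ * momF L e 0 = N := by exact_mod_cast hN
  rw [hN'] at h2
  have s0 := hasSum_mom L hL e he A0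
  have sF := (hasSum_ex (fun k => (momF L e k : ℝ)) φ η' h4 8).summable.hasSum
  have sN := hasSum_ex (κ := Unit) (fun k => (N : ℝ) * (L : ℝ) ^ k) (fun _ => N) (fun _ => L)
    (fun k => by simp) 8
  have sT := hasSum_ex (fun k => (mom L e A0 k : ℝ) + σ * momF L e k + N * (L : ℝ) ^ k)
    (fun _ => 2) η (fun k => by rw [h2, Finset.mul_sum]) 8
  have hU := ((s0.add (sF.mul_left (σ : ℝ))).add sN).unique (by
    convert sT using 2
    ring)
  have hE : exY L (mom L e A0) + σ * exY L (momF L e) + N * Real.exp (16 * L) =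
      2 * ∑ i, (fun _ => (1 : ℝ)) i * Real.exp (8 * (η i + L)) := by
    have e1 : Real.exp (16 * L) = Real.exp (8 * L) * Real.exp (8 * L) := by
      rw [← Real.exp_add]; congr 1; ring
    have e2 : 2 * ∑ i, (fun _ => (1 : ℝ)) i * Real.exp (8 * (η i + L)) =
        Real.exp (8 * L) * ∑ i, 2 * Real.exp (8 * η i) := by
      rw [Finset.mul_sum, Finset.mul_sum]
      refine Finset.sum_congr rfl fun i _ => ?_
      rw [mul_add, Real.exp_add]
      ring
    rw [e2, ← hU, e1]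
    unfold exY ex
    simp only [Finset.univ_unique, Finset.sum_singleton]
    ring
  have hM : ∀ k, k < m.length → ((m.getD k 0 : ℤ) : ℝ) = ∑ i, η i ^ k := by
    intro k hk
    have h5 : (2 : ℝ) * ((m.getD k 0 : ℤ) : ℝ) =
        (mom L e A0 k : ℝ) + σ * momF L e k + N * (L : ℝ) ^ k := by exact_mod_cast hm k hk
    rw [h2] at h5
    linarith
  have hM' : ∀ k, k < m.length → ((m.getD k 0 : ℤ) : ℝ) = ∑ i, (fun _ => (1 : ℝ)) i * η i ^ k :=
    fun k hk => by simpa using hM k hk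
  have hx0 : 0 ≤ (N : ℝ) * Real.exp (16 * L) := by positivity
  have hx1 : (N : ℝ) * Real.exp (16 * L) ≤ N * 3 ^ (16 * L) := by
    refine mul_le_mul_of_nonneg_left ?_ (Nat.cast_nonneg _)
    have e1 : Real.exp (16 * L) = Real.exp 1 ^ (16 * L) := by
      rw [← Real.exp_nat_mul]; push_cast; rw [mul_one]
    rw [e1]
    exact pow_le_pow_left₀ (Real.exp_pos 1).le (by linarith [Real.exp_one_lt_d9]) _
  refine ⟨fun nodes lo h => ?_, fun nodes Y nodes' hi hE' h => ?_⟩
  · have := lowChk_sound _ η s K L hs hK m nodes lo (fun _ => zero_le_one) h1 hM' h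
    linarith
  · have := upChk_sound _ η s K L hs hK m nodes' Y hi (fun _ => zero_le_one) h1
      (edgeChk_sound η s L m nodes Y hM hE') hM' h
    linarith

end Vale.Agent.P348
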