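import Vale.Agent.P348.Defs

/-! Closure properties of `LimPS` and the existence of `Lead`.
Plan for `LimPS.lead`: at finite `N` let `l N` be the largest `|x N i|` (0 for the empty family) and
`i0` an index attaining it; the five fields of `Lead` hold for the power sums with `l N`
(even powers of `x i0` equal those of `l N`; the other terms satisfy `x ^ (n + m) ≤ l ^ m * x ^ n`;
`∑ a ^ k ≤ (∑ a) ^ k` for `a ≥ 0`; the filter polynomial `x ^ 6 * (x ^ 2 + a x + b) ^ 2` is
nonnegative and at `i0` equals one of the two terms of the `min`). Since `l N ^ 2 ≤ ∑ x ^ 2` is bounded,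
`tendsto_subseq_of_bounded` gives a convergent subsequence; all fields are closed conditions. -/

namespace Vale.Agent.P348

theorem limPS_of_fin {κ : Type} [Fintype κ] (x : κ → ℝ) (t : ℕ → ℝ)
    (h : ∀ n, 2 ≤ n → t n = ∑ i, x i ^ n) : LimPS t := by
  refine ⟨fun _ => κ, fun _ => inferInstance, fun _ => x, fun n hn => ?_⟩
  rw [h n hn]
  exact tendsto_const_nhds

theorem LimPS.congr {t t' : ℕ → ℝ} (h : LimPS t) (e : ∀ n, 2 ≤ n → t' n = t n) : LimPS t' := by
  obtain ⟨ι, hι, x, hx⟩ := h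
  exact ⟨ι, hι, x, fun n hn => by rw [e n hn]; exact hx n hn⟩

theorem LimPS.add {t t' : ℕ → ℝ} (h : LimPS t) (h' : LimPS t') : LimPS fun n => t n + t' n := by
  obtain ⟨ι, hι, x, hx⟩ := h
  obtain ⟨ι', hι', x', hx'⟩ := h'
  refine ⟨fun N => ι N ⊕ ι' N, fun N => inferInstance, fun N => Sum.elim (x N) (x' N),
    fun n hn => ?_⟩
  simp only [Fintype.sum_sum_type, Sum.elim_inl, Sum.elim_inr]
  exact (hx n hn).add (hx' n hn)

theorem LimPS.scale {t : ℕ → ℝ} (h : LimPS t) (c : ℝ) : LimPS fun n => c ^ n * t n := by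
  obtain ⟨ι, hι, x, hx⟩ := h
  refine ⟨ι, hι, fun N i => c * x N i, fun n hn => ?_⟩
  simp only [mul_pow, ← Finset.mul_sum]
  exact (hx n hn).const_mul _

theorem sum_pow_le_pow {κ : Type} (s : Finset κ) (y : κ → ℝ) (hy : ∀ i, 0 ≤ y i) {k : ℕ}
    (hk : 1 ≤ k) : ∑ i ∈ s, y i ^ k ≤ (∑ i ∈ s, y i) ^ k := by
  classical
  induction s using Finset.induction_on with
  | empty => simp [show k ≠ 0 by omega]
  | insert i s hi ih =>
    rw [Finset.sum_insert hi, Finset.sum_insert hi]
    exact (add_le_add le_rfl ih).trans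
      (pow_add_pow_le (hy i) (Finset.sum_nonneg fun j _ => hy j) (by omega))

theorem lead_fin {κ : Type} [Fintype κ] (x : κ → ℝ) : ∃ l, Lead (fun n => ∑ i, x i ^ n) l := by
  classical
  rcases isEmpty_or_nonempty κ with hκ | hκ
  · refine ⟨0, le_rfl, fun n hn _ => ?_, fun n m hn _ _ => ?_, fun n k hn _ hk => ?_, fun a b => ?_⟩
    · simp [show n ≠ 0 by omega]
    · simp [show n ≠ 0 by omega]
    · simp [show n ≠ 0 by omega, show k ≠ 0 by omega]
    · simp
  obtain ⟨i0, -, hi0⟩ := Finset.exists_max_image Finset.univ (fun i => |x i|) Finset.univ_nonempty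
  have hsplit : ∀ n, Even n →
      ∑ i, x i ^ n - |x i0| ^ n = ∑ i ∈ Finset.univ.erase i0, x i ^ n := fun n he => by
    rw [← Finset.add_sum_erase _ _ (Finset.mem_univ i0), he.pow_abs]
    ring
  refine ⟨|x i0|, abs_nonneg _, fun n _ he => ?_, fun n m _ he hm => ?_, fun n k _ he hk => ?_,
    fun a b => ?_⟩
  · have h1 := hsplit n he
    have h2 : 0 ≤ ∑ i ∈ Finset.univ.erase i0, x i ^ n :=
      Finset.sum_nonneg fun i _ => he.pow_nonneg _
    linarith
  · rw [hsplit _ (he.add hm), hsplit n he, Finset.mul_sum]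
    refine Finset.sum_le_sum fun i _ => ?_
    rw [pow_add, mul_comm]
    refine mul_le_mul_of_nonneg_right ?_ (he.pow_nonneg _)
    rw [← hm.pow_abs]
    exact pow_le_pow_left₀ (abs_nonneg _) (hi0 i (Finset.mem_univ i)) m
  · rw [hsplit _ (he.mul_right k), hsplit n he]
    simp only [pow_mul]
    exact sum_pow_le_pow _ (fun i => x i ^ n) (fun i => he.pow_nonneg _) hk
  · have h1 : ∑ i, x i ^ 10 + 2 * a * ∑ i, x i ^ 9 + (a ^ 2 + 2 * b) * ∑ i, x i ^ 8 +
        2 * a * b * ∑ i, x i ^ 7 + b ^ 2 * ∑ i, x i ^ 6 =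
        ∑ i, x i ^ 6 * (x i ^ 2 + a * x i + b) ^ 2 := by
      simp only [Finset.mul_sum, ← Finset.sum_add_distrib]
      exact Finset.sum_congr rfl fun i _ => by ring
    rw [h1]
    refine le_trans ?_ (Finset.single_le_sum
      (f := fun i => x i ^ 6 * (x i ^ 2 + a * x i + b) ^ 2) (fun i _ => by positivity)
      (Finset.mem_univ i0))
    rcases abs_cases (x i0) with ⟨h, _⟩ | ⟨h, _⟩
    · rw [h]
      exact mul_le_mul_of_nonneg_left (min_le_left _ _) (by positivity)
    · rw [h]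
      refine (mul_le_mul_of_nonneg_left (min_le_right _ _) (by positivity)).trans (le_of_eq ?_)
      ring

theorem LimPS.lead {t : ℕ → ℝ} (h : LimPS t) : ∃ l, Lead t l := by
  obtain ⟨ι, hι, x, hx⟩ := h
  choose l hl using fun N => lead_fin (x N)
  obtain ⟨C, hC⟩ := (hx 2 le_rfl).bddAbove_range
  have hb : ∀ N, l N ∈ Set.Icc (0 : ℝ) (1 + C) := fun N => by
    have h1 := (hl N).le 2 le_rfl (by decide)
    have h2 : ∑ i, x N i ^ 2 ≤ C := hC ⟨N, rfl⟩
    exact ⟨(hl N).nonneg, by nlinarith [sq_nonneg (l N - 1)]⟩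
  obtain ⟨a, ha, φ, hφ, hlim⟩ := isCompact_Icc.tendsto_subseq hb
  have hs : ∀ n, 2 ≤ n → Filter.Tendsto (fun N => ∑ i, x (φ N) i ^ n) Filter.atTop (nhds (t n)) :=
    fun n hn => (hx n hn).comp hφ.tendsto_atTop
  have hl' : Filter.Tendsto (fun N => l (φ N)) Filter.atTop (nhds a) := hlim
  refine ⟨a, ha.1, fun n hn he => ?_, fun n m hn he hm => ?_, fun n k hn he hk => ?_, fun p q => ?_⟩
  · exact le_of_tendsto_of_tendsto' (hl'.pow n) (hs n hn) fun N => (hl (φ N)).le n hn he
  · exact le_of_tendsto_of_tendsto' ((hs (n + m) (by omega)).sub (hl'.pow _))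
      ((hl'.pow m).mul ((hs n hn).sub (hl'.pow n))) fun N => (hl (φ N)).mono n m hn he hm
  · exact le_of_tendsto_of_tendsto' ((hs (n * k) (by nlinarith)).sub (hl'.pow _))
      (((hs n hn).sub (hl'.pow n)).pow k) fun N => (hl (φ N)).pow n k hn he hk
  · refine le_of_tendsto_of_tendsto' ((hl'.pow 6).mul
      (((((hl'.pow 2).add (hl'.const_mul p)).add_const q).pow 2).min
        ((((hl'.pow 2).sub (hl'.const_mul p)).add_const q).pow 2)))
      ((((((hs 10 (by norm_num)).add ((hs 9 (by norm_num)).const_mul (2 * p))).add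
        ((hs 8 (by norm_num)).const_mul (p ^ 2 + 2 * q))).add
        ((hs 7 (by norm_num)).const_mul (2 * p * q))).add
        ((hs 6 (by norm_num)).const_mul (q ^ 2)))) fun N => (hl (φ N)).filt p q

end Vale.Agent.P348
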