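import Vale.Agent.P348.Tens

/-! Symmetries in the Cartesian basis.
`tau_perm`: let `P` be the permutation matrix of `σ` with `P * Lm a = sign • Lm (σ a) * P`
(check for all six `σ` or entrywise: `eps (σ a) (σ b) (σ c) = sign σ * eps a b c`), so with
`V = tens fun _ => P` and `tens_st`, `V * Hr h = Hr (ext4 σ h) * V`, `V * Gr g = Gr (ext4 σ g) * V`,
`V * Vᵀ = 1 = Vᵀ * V`; or reindex the trace along `s ↦ σ ∘ s`.
`Hr_block`: `Gr g` is diagonal (`tens_diagonal`) and commutes with `Hr h` because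
`gm g * Lm a = (chi g a.succ • Lm a) * gm g` and `chi ^ 2 = 1`. -/

namespace Vale.Agent.P348

open Matrix

/-- extension of a permutation of the axes to the four group -/
def ext4 (σ : Equiv.Perm (Fin 3)) (g : Fin 4) : Fin 4 := Fin.cases 0 (fun a => (σ a).succ) g

namespace SymAux

theorem chi_cast (g a : Fin 4) : (chi g a : ℝ) = ((chi g a : ℤ) : ℝ) := by
  unfold chi; split_ifs <;> simp

theorem chi_sq (g a : Fin 4) : (chi g a : ℝ) * chi g a = 1 := by
  unfold chi; split_ifs <;> norm_num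

theorem ext4_eq_zero (σ : Equiv.Perm (Fin 3)) (g : Fin 4) : ext4 σ g = 0 ↔ g = 0 := by
  refine Fin.cases ?_ (fun a => ?_) g
  · simp [ext4]
  · simp [ext4]

theorem ext4_eq_succ (σ : Equiv.Perm (Fin 3)) (g : Fin 4) (a : Fin 3) :
    ext4 σ g = (σ a).succ ↔ g = a.succ := by
  refine Fin.cases ?_ (fun b => ?_) g
  · simp [ext4, (Fin.succ_ne_zero _).symm]
  · simp [ext4]

theorem chi_ext4 (σ : Equiv.Perm (Fin 3)) (g : Fin 4) (a : Fin 3) :
    (chi (ext4 σ g) (σ a).succ : ℝ) = chi g a.succ := by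
  unfold chi
  simp only [ext4_eq_zero, ext4_eq_succ, Fin.succ_ne_zero]

theorem eps_perm : ∀ (σ : Equiv.Perm (Fin 3)) (a b c : Fin 3),
    eps (σ a) (σ b) (σ c) = eps (σ 0) (σ 1) (σ 2) * eps a b c := by decide

theorem eps_sq : ∀ σ : Equiv.Perm (Fin 3),
    eps (σ 0) (σ 1) (σ 2) * eps (σ 0) (σ 1) (σ 2) = 1 := by decide

theorem eps_chi : ∀ (g : Fin 4) (a b c : Fin 3),
    (chi g b.succ : ℤ) * eps a b c = chi g a.succ * eps a b c * chi g c.succ := by decide

/-- the permutation of configurations -/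
def cfgE (σ : Equiv.Perm (Fin 3)) (L : ℕ) : Cfg L ≃ Cfg L := Equiv.piCongrRight fun _ => σ

/-- reindexing of matrices -/
noncomputable def phi (σ : Equiv.Perm (Fin 3)) (L : ℕ) : MC L ℝ ≃ₐ[ℝ] MC L ℝ :=
  reindexAlgEquiv ℝ ℝ (cfgE σ L).symm

theorem phi_tens (σ : Equiv.Perm (Fin 3)) {L : ℕ} (A : Fin L → M3 ℝ) :
    phi σ L (tens A) = tens fun i => (A i).submatrix σ σ := rfl

theorem phi_st (σ : Equiv.Perm (Fin 3)) {L : ℕ} (j : Fin L) (A : M3 ℝ) :
    phi σ L (st j A) = st j (A.submatrix σ σ) := by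
  unfold st
  rw [phi_tens]
  congr 1
  funext i
  split_ifs
  · rfl
  · exact submatrix_one_equiv σ

theorem trace_phi (σ : Equiv.Perm (Fin 3)) {L : ℕ} (M : MC L ℝ) : trace (phi σ L M) = trace M :=
  Equiv.sum_comp (cfgE σ L) fun s => M s s

theorem phi_Gr (σ : Equiv.Perm (Fin 3)) (g : Fin 4) (L : ℕ) :
    phi σ L (Gr (ext4 σ g) L) = Gr g L := by
  unfold Gr
  rw [phi_tens]
  congr 1
  funext i
  unfold gm
  rw [submatrix_diagonal_equiv]
  congr 1
  funext b
  exact chi_ext4 σ g b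

theorem phi_Hr (σ : Equiv.Perm (Fin 3)) (h : Fin 4) (L : ℕ) :
    phi σ L (Hr (ext4 σ h) L) = Hr h L := by
  unfold Hr
  rw [map_neg, map_sum]
  congr 1
  refine Finset.sum_congr rfl fun j _ => ?_
  rw [← Equiv.sum_comp σ, map_sum]
  refine Finset.sum_congr rfl fun a _ => ?_
  have e : (Lm (σ a) : M3 ℝ).submatrix σ σ = ((eps (σ 0) (σ 1) (σ 2) : ℤ) : ℝ) • Lm a := by
    ext b c
    simp only [Lm, submatrix_apply, Matrix.smul_apply, smul_eq_mul]
    rw [eps_perm σ a b c]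
    push_cast
    rfl
  have e2 : ((eps (σ 0) (σ 1) (σ 2) : ℤ) : ℝ) * ((eps (σ 0) (σ 1) (σ 2) : ℤ) : ℝ) = 1 := by
    exact_mod_cast eps_sq σ
  rw [map_smul, map_mul, phi_st, phi_st, e, st_smul, st_smul, smul_mul_smul_comm, e2, one_smul]
  congr 1
  unfold tw
  rw [chi_ext4]

theorem class_perm : ∀ g h : Fin 4, ∃ σ : Equiv.Perm (Fin 3),
    ext4 σ (if g = 0 then 0 else if h = 0 then 3 else if g = h then 3 else 1) = g ∧
      ext4 σ (if h = 0 then 0 else 3) = h := by decide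

theorem gm_Lm (g : Fin 4) (a : Fin 3) :
    (gm g : M3 ℝ) * Lm a = ((chi g a.succ : ℝ) • Lm a) * gm g := by
  ext b c
  simp only [gm, diagonal_mul, mul_diagonal, Matrix.smul_apply, Lm, smul_eq_mul, chi_cast]
  exact_mod_cast eps_chi g a b c

theorem Gr_comm (g h : Fin 4) (L : ℕ) : (Gr g L : MC L ℝ) * Hr h L = Hr h L * Gr g L := by
  unfold Hr
  rw [mul_neg, neg_mul, Finset.mul_sum, Finset.sum_mul]
  congr 1
  refine Finset.sum_congr rfl fun j _ => ?_
  rw [Finset.mul_sum, Finset.sum_mul]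
  refine Finset.sum_congr rfl fun a _ => ?_
  have e : ∀ k : Fin L, (Gr g L : MC L ℝ) * st k (Lm a) =
      (chi g a.succ : ℝ) • (st k (Lm a) * Gr g L) := fun k => by
    unfold Gr
    rw [tens_st (fun _ => gm g) k _ _ (gm_Lm g a), st_smul, smul_mul_assoc]
  rw [mul_smul_comm, smul_mul_assoc, ← mul_assoc, e, smul_mul_assoc, mul_assoc, e, mul_smul_comm,
    smul_smul (chi g a.succ : ℝ), chi_sq, one_smul, mul_assoc]

theorem chi_prod : ∀ a : Fin 4, (chi 1 a : ℤ) * chi 2 a * chi 3 a = 1 := by decide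

end SymAux

open SymAux

theorem tau_perm (σ : Equiv.Perm (Fin 3)) (g h : Fin 4) (L k : ℕ) :
    tau (ext4 σ g) (ext4 σ h) L k = tau g h L k := by
  unfold tau
  rw [← trace_phi σ, map_mul, map_pow, phi_Hr, phi_Gr]

/-- the five classes -/
theorem Zf_class (g h : Fin 4) (b : ℝ) (L : ℕ) :
    Zf g h b L = if g = 0 then (if h = 0 then Zf 0 0 b L else Zf 0 3 b L)
      else if h = 0 then Zf 3 0 b L else if g = h then Zf 3 3 b L else Zf 1 3 b L := by
  obtain ⟨σ, h1, h2⟩ := class_perm g h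
  have e : Zf g h b L = Zf (if g = 0 then 0 else if h = 0 then 3 else if g = h then 3 else 1)
      (if h = 0 then 0 else 3) b L := by
    unfold Zf
    congr 1
    funext k
    rw [← tau_perm σ (if g = 0 then 0 else if h = 0 then 3 else if g = h then 3 else 1), h1, h2]
  rw [e]
  split_ifs <;> rfl

/-- eigenvalue of the global half turn on a basis vector -/
def Gs (g : Fin 4) {L : ℕ} (s : Cfg L) : ℝ := ∏ j, chi g (s j).succ

theorem Gr_eq (g : Fin 4) (L : ℕ) : (Gr g L : MC L ℝ) = diagonal (Gs g) := by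
  exact tens_diagonal fun _ b => chi g b.succ

theorem Hr_block (g h : Fin 4) (L : ℕ) (s t : Cfg L) (hH : (Hr h L : MC L ℝ) s t ≠ 0) :
    Gs g s = Gs g t := by
  have h1 := congrFun (congrFun (Gr_comm g h L) s) t
  rw [Gr_eq, diagonal_mul, mul_diagonal, mul_comm] at h1
  exact mul_left_cancel₀ hH h1

/-- Character projector. `f g = ∏ i, chi g (a i)` has `f 0 = 1`, values `± 1` and `f 1 * f 2 * f 3 = 1`. -/
theorem char_proj {κ : Type} [Fintype κ] (a : κ → Fin 4) (c : Fin 4) :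
    (∑ g : Fin 4, (chi c g : ℝ) * ∏ i, chi g (a i)) / 4 =
      if ∀ g : Fin 4, (∏ i, chi g (a i) : ℝ) = chi c g then 1 else 0 := by
  have h0 : (∏ i, chi 0 (a i) : ℝ) = 1 := by simp [chi]
  have hsq : ∀ g : Fin 4, (∏ i, chi g (a i) : ℝ) = 1 ∨ (∏ i, chi g (a i) : ℝ) = -1 := fun g => by
    rw [← mul_self_eq_one_iff, ← Finset.prod_mul_distrib]
    simp only [chi_sq, Finset.prod_const_one]
  have hp : (∏ i, chi 1 (a i) : ℝ) * (∏ i, chi 2 (a i)) * ∏ i, chi 3 (a i) = 1 := by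
    rw [← Finset.prod_mul_distrib, ← Finset.prod_mul_distrib]
    refine Finset.prod_eq_one fun i _ => ?_
    simp only [chi_cast]
    exact_mod_cast chi_prod (a i)
  rw [Fin.sum_univ_four]
  have hall : ∀ P : Fin 4 → Prop, (∀ g, P g) ↔ P 0 ∧ P 1 ∧ P 2 ∧ P 3 := fun P =>
    ⟨fun h => ⟨h 0, h 1, h 2, h 3⟩, fun h g => by
      fin_cases g
      exacts [h.1, h.2.1, h.2.2.1, h.2.2.2]⟩
  simp only [hall]
  have h1 := hsq 1
  have h2 := hsq 2
  have h3 := hsq 3
  rw [h0]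
  generalize (∏ i, chi 1 (a i) : ℝ) = x at *
  generalize (∏ i, chi 2 (a i) : ℝ) = y at *
  generalize (∏ i, chi 3 (a i) : ℝ) = z at *
  rcases h1 with rfl | rfl <;> rcases h2 with rfl | rfl <;> rcases h3 with rfl | rfl <;>
    first
    | (exfalso; norm_num at hp; done)
    | (fin_cases c <;> simp [chi] <;> norm_num)

end Vale.Agent.P348
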