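import Vale.Agent.P348.Defs

/-! Spectral representation of traces.
Plan: `hA.spectral_theorem` gives `A = U * diagonal λ * star U`; then
`a • 1 + b • A = U * diagonal (a + b λ) * star U`, its powers likewise, and
`trace (U * D * star U * G) = ∑ i, D i * (star U * G * U) i i`. -/

namespace Vale.Agent.P348

open Matrix

variable {ι : Type} [Fintype ι] [DecidableEq ι]

theorem spec_decomp {K : Type} [RCLike K] (A : Matrix ι ι K) (hA : A.IsHermitian) :
    ∃ U : Matrix ι ι K, star U * U = 1 ∧ U * star U = 1 ∧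
      A = U * diagonal (fun i => (hA.eigenvalues i : K)) * star U := by
  refine ⟨hA.eigenvectorUnitary, Unitary.coe_star_mul_self _, Unitary.coe_mul_star_self _, ?_⟩
  conv_lhs => rw [hA.spectral_theorem, Unitary.conjStarAlgAut_apply]
  rfl

theorem spec_pow {R : Type} [CommRing R] (U V : Matrix ι ι R) (h1 : V * U = 1) (h2 : U * V = 1)
    (d : ι → R) (k : ℕ) : (U * diagonal d * V) ^ k = U * diagonal (fun i => d i ^ k) * V := by
  induction k with
  | zero => simp [h2]
  | succ k ih =>
    rw [pow_succ, ih]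
    have : U * diagonal (fun i => d i ^ k) * V * (U * diagonal d * V) =
        U * (diagonal (fun i => d i ^ k) * (V * U) * diagonal d) * V := by
      simp only [Matrix.mul_assoc]
    rw [this, h1, Matrix.mul_one, diagonal_mul_diagonal]
    simp only [pow_succ]

theorem spec_trace {R : Type} [CommRing R] (U V G : Matrix ι ι R) (d : ι → R) :
    trace (U * diagonal d * V * G) = ∑ i, (V * G * U) i i * d i := by
  have : trace (U * diagonal d * V * G) = trace (V * G * U * diagonal d) := by
    rw [Matrix.mul_assoc (U * diagonal d), trace_mul_comm, ← Matrix.mul_assoc]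
  rw [this]
  simp only [trace, diag, mul_diagonal]

/-- `w G i = (star U * G * U) i i` -/
theorem rep_real (A : Matrix ι ι ℝ) (hA : A.IsHermitian) :
    ∃ w : Matrix ι ι ℝ →ₗ[ℝ] (ι → ℝ), (∀ i, w 1 i = 1) ∧
      (∀ G : Matrix ι ι ℝ, G.PosSemidef → ∀ i, 0 ≤ w G i) ∧
      ∀ (G : Matrix ι ι ℝ) (a b : ℝ) (k : ℕ),
        trace ((a • (1 : Matrix ι ι ℝ) + b • A) ^ k * G) =
          ∑ i, w G i * (a + b * hA.eigenvalues i) ^ k := by
  obtain ⟨U, h1, h2, h3⟩ := spec_decomp A hA
  refine ⟨⟨⟨fun G i => (star U * G * U) i i, fun G G' => ?_⟩, fun c G => ?_⟩, fun i => ?_,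
    fun G hG i => ?_, fun G a b k => ?_⟩
  · funext i
    simp only [Matrix.mul_add, Matrix.add_mul, Matrix.add_apply, Pi.add_apply]
  · funext i
    simp only [Matrix.mul_smul, Matrix.smul_mul, Matrix.smul_apply, Pi.smul_apply, RingHom.id_apply]
  · show (star U * (1 : Matrix ι ι ℝ) * U) i i = 1
    rw [Matrix.mul_one, h1, Matrix.one_apply_eq]
  · exact (hG.conjTranspose_mul_mul_same U).diag_nonneg
  · have h4 : a • (1 : Matrix ι ι ℝ) + b • A =
        U * diagonal (fun i => a + b * hA.eigenvalues i) * star U := by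
      have h5 : diagonal (fun i => a + b * hA.eigenvalues i) =
          a • (1 : Matrix ι ι ℝ) + b • diagonal fun i => hA.eigenvalues i := by
        ext i j
        by_cases h : i = j
        · subst h; simp
        · simp [h]
      rw [h5, Matrix.mul_add, Matrix.add_mul, Matrix.mul_smul, Matrix.mul_smul, Matrix.smul_mul,
        Matrix.smul_mul, Matrix.mul_one, h2]
      congr 2
    rw [h4, spec_pow U (star U) h1 h2, spec_trace]
    rfl

theorem trace_pow_real (A : Matrix ι ι ℝ) (hA : A.IsHermitian) (k : ℕ) :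
    trace (A ^ k) = ∑ i, hA.eigenvalues i ^ k := by
  obtain ⟨w, h1, -, h3⟩ := rep_real A hA
  simpa [h1] using h3 1 0 1 k

theorem trace_pow_complex (A : Matrix ι ι ℂ) (hA : A.IsHermitian) (k : ℕ) :
    trace (A ^ k) = ((∑ i, hA.eigenvalues i ^ k : ℝ) : ℂ) := by
  obtain ⟨U, h1, h2, h3⟩ := spec_decomp A hA
  have h4 := spec_trace U (star U) 1 fun i => ((hA.eigenvalues i : ℝ) : ℂ) ^ k
  rw [Matrix.mul_one, Matrix.mul_one, h1] at h4
  conv_lhs => rw [h3, spec_pow U (star U) h1 h2]
  refine h4.trans ?_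
  simp

omit [DecidableEq ι] in
theorem spec_sum_dite (Q : ι → Prop) [DecidablePred Q] (f : {i // Q i} → ℝ) (g : ι → ℝ) :
    ∑ l, (if h : Q l then f ⟨l, h⟩ else 0) * g l = ∑ l : {i // Q i}, f l * g l := by
  rw [← Fintype.sum_subtype_add_sum_subtype Q,
    Finset.sum_eq_zero (s := (Finset.univ : Finset {i // ¬ Q i})) fun l _ => by
      rw [dif_neg l.2, zero_mul], add_zero]
  exact Finset.sum_congr rfl fun l _ => by rw [dif_pos l.2]

/-- restriction to an invariant set of indices; induction on `k` for the entries of `A ^ k` -/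
theorem sector_trace (A G : Matrix ι ι ℝ) (Q : ι → Prop) [DecidablePred Q]
    (hQ : ∀ i j, A i j ≠ 0 → (Q i ↔ Q j)) (k : ℕ) :
    (∑ i, if Q i then (A ^ k * G) i i else 0) =
      trace ((A.submatrix (Subtype.val : {i // Q i} → ι) Subtype.val) ^ k *
        G.submatrix (Subtype.val : {i // Q i} → ι) Subtype.val) := by
  have h1 : ∀ (k : ℕ) (i : {i // Q i}) (j : ι), (A ^ k) i j = if h : Q j then
      ((A.submatrix (Subtype.val : {i // Q i} → ι) Subtype.val) ^ k) i ⟨j, h⟩ else 0 := by
    intro k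
    induction k with
    | zero =>
      intro i j
      simp only [pow_zero, Matrix.one_apply]
      by_cases h : Q j
      · simp [h, Subtype.ext_iff]
      · rw [dif_neg h, if_neg fun e : (i : ι) = j => h (e ▸ i.2)]
    | succ k ih =>
      intro i j
      simp only [pow_succ, Matrix.mul_apply, ih]
      rw [spec_sum_dite Q]
      by_cases h : Q j
      · simp [h]
      · rw [dif_neg h]
        refine Finset.sum_eq_zero fun l _ => ?_
        have : A l j = 0 := by
          by_contra h0
          exact h ((hQ l j h0).1 l.2)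
        simp [this]
  rw [← Finset.sum_filter, Finset.sum_subtype (p := Q) _ (by simp)]
  simp only [trace, diag, Matrix.mul_apply, h1]
  refine Finset.sum_congr rfl fun i _ => ?_
  rw [spec_sum_dite Q]
  rfl

/-- entries of powers vanish across an invariant function -/
theorem pow_apply_eq_zero {R β : Type} [CommRing R] (A : Matrix ι ι R) (f : ι → β)
    (hf : ∀ i j, A i j ≠ 0 → f i = f j) (k : ℕ) (i j : ι) (h : f i ≠ f j) : (A ^ k) i j = 0 := by
  induction k generalizing j with
  | zero => rw [pow_zero, Matrix.one_apply_ne fun e => h (congrArg f e)]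
  | succ k ih =>
    rw [pow_succ, Matrix.mul_apply]
    refine Finset.sum_eq_zero fun l _ => ?_
    by_cases h0 : A l j = 0
    · rw [h0, mul_zero]
    · rw [ih l (by rw [hf l j h0]; exact h), zero_mul]

/-- counting form: power sums over the eigenvalues of the sector -/
theorem sector_ps (A : Matrix ι ι ℝ) (hA : A.IsHermitian) (Q : ι → Prop) [DecidablePred Q]
    (hQ : ∀ i j, A i j ≠ 0 → (Q i ↔ Q j)) :
    ∃ (κ : Type) (_ : Fintype κ) (x : κ → ℝ), ∀ k : ℕ,
      (∑ i, if Q i then (A ^ k) i i else 0) = ∑ i, x i ^ k := by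
  refine ⟨{i // Q i}, inferInstance, (hA.submatrix (Subtype.val : {i // Q i} → ι)).eigenvalues,
    fun k => ?_⟩
  have h1 := sector_trace A 1 Q hQ k
  rw [Matrix.mul_one, submatrix_one _ Subtype.val_injective, Matrix.mul_one] at h1
  rw [h1, trace_pow_real]

theorem hasSum_ex {κ : Type} [Fintype κ] (t : ℕ → ℝ) (c x : κ → ℝ)
    (h : ∀ k, t k = ∑ i, c i * x i ^ k) (b : ℝ) :
    HasSum (fun k : ℕ => b ^ k / (k.factorial : ℝ) * t k) (∑ i, c i * Real.exp (b * x i)) := by
  have h1 : ∀ i, HasSum (fun k : ℕ => c i * ((b * x i) ^ k / (k.factorial : ℝ)))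
      (c i * Real.exp (b * x i)) := fun i => by
    rw [Real.exp_eq_exp_ℝ]
    exact (NormedSpace.expSeries_div_hasSum_exp (b * x i)).mul_left _
  have h2 := hasSum_sum (s := Finset.univ) fun i _ => h1 i
  convert h2 using 2 with k
  rw [h, Finset.mul_sum]
  exact Finset.sum_congr rfl fun i _ => by rw [mul_pow]; ring

theorem ex_rep {κ : Type} [Fintype κ] (t : ℕ → ℝ) (c x : κ → ℝ)
    (h : ∀ k, t k = ∑ i, c i * x i ^ k) (b : ℝ) :
    ex t b = ∑ i, c i * Real.exp (b * x i) := (hasSum_ex t c x h b).tsum_eq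

/-- Rayleigh quotient -/
theorem exists_eigenvalue_le (A : Matrix ι ι ℝ) (hA : A.IsHermitian) (v : ι → ℝ) (hv : v ≠ 0)
    (E : ℝ) (h : v ⬝ᵥ A *ᵥ v ≤ E * (v ⬝ᵥ v)) : ∃ i, hA.eigenvalues i ≤ E := by
  obtain ⟨w, -, h2, h3⟩ := rep_real A hA
  have hG : (vecMulVec v v).PosSemidef := by simpa using posSemidef_vecMulVec_self_star v
  have h4 := h3 (vecMulVec v v) (-E) 1 1
  have h5 := h3 (vecMulVec v v) 0 0 0
  rw [pow_one, Matrix.add_mul, Matrix.smul_mul, Matrix.smul_mul, Matrix.one_mul, one_smul,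
    mul_vecMulVec, trace_add, trace_smul, trace_vecMulVec, trace_vecMulVec, smul_eq_mul,
    dotProduct_comm (A *ᵥ v)] at h4
  rw [pow_zero, Matrix.one_mul, trace_vecMulVec] at h5
  simp only [pow_zero, mul_one, pow_one, one_mul] at h4 h5
  by_contra hc
  push Not at hc
  have h6 : ∀ i ∈ Finset.univ, 0 ≤ w (vecMulVec v v) i * (-E + hA.eigenvalues i) :=
    fun i _ => mul_nonneg (h2 _ hG i) (by linarith [hc i])
  have h7 := (Finset.sum_eq_zero_iff_of_nonneg h6).1
    (le_antisymm (by linarith) (Finset.sum_nonneg h6))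
  have h8 : v ⬝ᵥ v = 0 := by
    rw [h5]
    refine Finset.sum_eq_zero fun i hi => ?_
    exact (mul_eq_zero.1 (h7 i hi)).resolve_right (by linarith [hc i])
  exact hv (dotProduct_self_eq_zero.1 h8)

end Vale.Agent.P348
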