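import Vale.Agent.P348.Tens
import Vale.Agent.P348.Spec

/-! The Trotter limit.
`Gm_expand`: `Mm d a b = d ^ ([a ≠ 0] + [b ≠ 0]) • Mm 1 a b`, so by `tens_smul` the term of `a` in
`Gm d` is `(d ^ 2) ^ cnt a •` the term of `a` in `Gm 1`, with `cnt a` the number of `j` with `a j ≠ 0`.
`cnt a = 0` only for `a = 0` (term `1`); `cnt a = 1` for `a = Pi.single j b.succ` (term
`tw h j b.succ • (st j (Lm b) * st (finRotate L j) (Lm b))`, using `finRotate_ne`); the other terms are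
`e ^ 2 • e ^ (cnt a - 2) • C a`.
`tendsto_pow_sub`: `‖X ^ N - Y ^ N‖ ≤ N * c ^ N * ‖X - Y‖` when `‖X‖, ‖Y‖ ≤ c`, `1 ≤ c`, in any
submultiplicative norm (`Matrix.linftyOpNormedRing` as a local instance, or work entrywise with
the sum of absolute values); here `c = 1 + C / N`, `c ^ N ≤ exp C`, `‖X - Y‖ ≤ C / N ^ 2`.
`trotter`: by `rep_real`, `trace ((1 - (b/N) • H) ^ N * G) = ∑ i, w i * (1 - b/N * E i) ^ N`, which tends to
`∑ i, w i * exp (-b * E i) = Zf` (`ex_rep`, `tendsto_one_add_div_pow_exp`). -/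

namespace Vale.Agent.P348

open Matrix Filter Topology

/-- number of active bonds -/
def trCnt {L : ℕ} (a : Fin L → Fin 4) : ℕ := (Finset.univ.filter fun j => a j ≠ 0).card

/-- the term of a bond labelling -/
def trT (h : Fin 4) (L : ℕ) (a : Fin L → Fin 4) : MC L ℝ :=
  (∏ j, (tw h j (a j) : ℝ)) • tens fun j => Mm 1 (a ((finRotate L).symm j)) (a j)

theorem tr_Mm (d : ℝ) (a b : Fin 4) :
    Mm d a b = d ^ ((if a ≠ 0 then 1 else 0) + (if b ≠ 0 then 1 else 0)) • Mm 1 a b := by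
  refine Fin.cases ?_ (fun a' => ?_) a <;> refine Fin.cases ?_ (fun b' => ?_) b <;> simp [Mm]

theorem tr_Gm (d : ℝ) (h : Fin 4) (L : ℕ) :
    Gm d h L = ∑ a, (d ^ 2) ^ trCnt a • trT h L a := by
  refine Finset.sum_congr rfl fun a _ => ?_
  have h1 : (tens fun j => Mm d (a ((finRotate L).symm j)) (a j)) =
      (d ^ 2) ^ trCnt a • tens fun j => Mm 1 (a ((finRotate L).symm j)) (a j) := by
    conv_lhs => simp only [tr_Mm d]
    rw [tens_smul, Finset.prod_pow_eq_pow_sum, Finset.sum_add_distrib,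
      (finRotate L).symm.sum_comp fun j => if a j ≠ 0 then 1 else 0, ← Finset.card_filter,
      ← pow_mul, two_mul]
    rfl
  rw [h1, trT, smul_comm]

theorem tr_tw_zero (h : Fin 4) {L : ℕ} (j : Fin L) : (tw h j 0 : ℝ) = 1 := by
  simp [tw, chi]

theorem tr_zero (h : Fin 4) (L : ℕ) :
    ∑ a ∈ Finset.univ.filter (fun a => trCnt a = 0), trT h L a = 1 := by
  have h1 : Finset.univ.filter (fun a : Fin L → Fin 4 => trCnt a = 0) = {0} := by
    ext a
    simp [trCnt, funext_iff]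
  rw [h1, Finset.sum_singleton, trT]
  simp only [Pi.zero_apply, tr_tw_zero, Finset.prod_const_one, one_smul]
  exact tens_one

theorem tr_single (h : Fin 4) (L : ℕ) (hL : 2 ≤ L) (j : Fin L) (b : Fin 3) :
    trT h L (Pi.single j b.succ) =
      (tw h j b.succ : ℝ) • (st j (Lm b) * st (finRotate L j) (Lm b)) := by
  have hne := finRotate_ne hL j
  rw [trT, Finset.prod_eq_single j (fun i _ hi => by rw [Pi.single_eq_of_ne hi, tr_tw_zero])
    (by simp), Pi.single_eq_same, st, st, tens_mul]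
  congr 2
  funext i
  by_cases h1 : i = j
  · subst h1
    have h2 : (finRotate L).symm i ≠ i := fun e => hne ((Equiv.symm_apply_eq _).1 e)
    rw [Pi.single_eq_of_ne h2, Pi.single_eq_same, if_pos rfl, if_neg hne]
    simp [Mm]
  · rw [Pi.single_eq_of_ne h1, if_neg h1]
    by_cases h2 : i = finRotate L j
    · rw [if_pos h2, h2, Equiv.symm_apply_apply, Pi.single_eq_same]
      simp [Mm]
    · rw [if_neg h2, Pi.single_eq_of_ne fun e => h2 ((Equiv.symm_apply_eq _).1 e)]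
      simp [Mm]

theorem tr_one (h : Fin 4) (L : ℕ) (hL : 2 ≤ L) :
    ∑ a ∈ Finset.univ.filter (fun a => trCnt a = 1), trT h L a = -Hr h L := by
  rw [Hr, neg_neg, ← Fintype.sum_prod_type']
  symm
  refine Finset.sum_bij (fun q _ => Pi.single q.1 q.2.succ) (fun q _ => ?_)
    (fun q _ q' _ e => ?_) (fun a ha => ?_) (fun q _ => (tr_single h L hL q.1 q.2).symm)
  · refine Finset.mem_filter.2 ⟨Finset.mem_univ _, Finset.card_eq_one.2 ⟨q.1, ?_⟩⟩
    ext i
    by_cases hi : i = q.1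
    · simp [hi]
    · simp [hi]
  · have h1 := congrFun e q.1
    by_cases h2 : q.1 = q'.1
    · rw [Pi.single_eq_same, h2, Pi.single_eq_same] at h1
      exact Prod.ext h2 (Fin.succ_injective _ h1)
    · rw [Pi.single_eq_same, Pi.single_eq_of_ne h2] at h1
      exact absurd h1 (Fin.succ_ne_zero _)
  · obtain ⟨j, hj⟩ := Finset.card_eq_one.1 (Finset.mem_filter.1 ha).2
    have h1 : ∀ i, a i ≠ 0 ↔ i = j := fun i => by
      rw [← Finset.mem_singleton, ← hj]; simp
    obtain ⟨b, hb⟩ := Fin.exists_succ_eq.2 ((h1 j).2 rfl)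
    refine ⟨(j, b), Finset.mem_univ _, ?_⟩
    funext i
    by_cases hi : i = j
    · rw [hi, Pi.single_eq_same, hb]
    · rw [Pi.single_eq_of_ne hi]
      by_contra h0
      exact hi ((h1 i).1 (Ne.symm h0))

theorem Gm_expand (h : Fin 4) (L : ℕ) (hL : 2 ≤ L) :
    ∃ (C : ℝ) (R : ℝ → MC L ℝ), (∀ e, 0 ≤ e → e ≤ 1 → ∀ s t, |R e s t| ≤ C) ∧
      ∀ d : ℝ, Gm d h L = 1 - d ^ 2 • Hr h L + (d ^ 2) ^ 2 • R (d ^ 2) := by
  refine ⟨∑ s, ∑ t, ∑ a, |trT h L a s t|,
    fun e => ∑ a, (if 2 ≤ trCnt a then e ^ (trCnt a - 2) else 0) • trT h L a,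
    fun e he0 he1 s t => ?_, fun d => ?_⟩
  · have h1 : |(∑ a, (if 2 ≤ trCnt a then e ^ (trCnt a - 2) else 0) • trT h L a) s t| ≤
        ∑ a, |trT h L a s t| := by
      rw [Matrix.sum_apply]
      refine (Finset.abs_sum_le_sum_abs _ _).trans (Finset.sum_le_sum fun a _ => ?_)
      rw [Matrix.smul_apply, smul_eq_mul, abs_mul]
      refine mul_le_of_le_one_left (abs_nonneg _) ?_
      split_ifs
      · rw [abs_of_nonneg (pow_nonneg he0 _)]; exact pow_le_one₀ he0 he1
      · simp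
    refine h1.trans (le_trans ?_ (Finset.single_le_sum
      (f := fun s => ∑ t, ∑ a, |trT h L a s t|) (fun _ _ => by positivity) (Finset.mem_univ s)))
    exact Finset.single_le_sum (f := fun t => ∑ a, |trT h L a s t|)
      (fun _ _ => by positivity) (Finset.mem_univ t)
  · rw [tr_Gm, ← tr_zero h L, sub_eq_add_neg, ← smul_neg, ← tr_one h L hL, Finset.sum_filter,
      Finset.sum_filter, Finset.smul_sum, Finset.smul_sum, ← Finset.sum_add_distrib,
      ← Finset.sum_add_distrib]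
    refine Finset.sum_congr rfl fun a _ => ?_
    generalize trCnt a = c
    generalize d ^ 2 = e
    rcases c with _ | _ | c
    · simp
    · simp
    · simp [smul_smul, pow_add, mul_comm, sq, mul_assoc]

theorem tr_pow_sub {A : Type} [NormedRing A] (Z Z' : A) (δ : ℝ) (hZ : ‖Z‖ ≤ δ) (hZ' : ‖Z'‖ ≤ δ)
    (N : ℕ) : ‖(1 + Z) ^ N - (1 + Z') ^ N‖ ≤ N * (1 + δ) ^ N * ‖Z - Z'‖ := by
  have hδ : 0 ≤ δ := (norm_nonneg _).trans hZ
  have h1 : ∀ (n : ℕ) (M : A), ‖(1 + Z) ^ n * M‖ ≤ (1 + δ) ^ n * ‖M‖ := by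
    intro n M
    induction n with
    | zero => simp
    | succ n ih =>
      rw [pow_succ', mul_assoc, add_mul, one_mul, pow_succ', mul_assoc, add_mul, one_mul]
      refine (norm_add_le _ _).trans (add_le_add ih ((norm_mul_le _ _).trans ?_))
      exact mul_le_mul hZ ih (norm_nonneg _) hδ
  induction N with
  | zero => simp
  | succ N ih =>
    have h2 : (1 + Z) ^ (N + 1) - (1 + Z') ^ (N + 1) = (1 + Z) ^ N * (Z - Z') +
        (((1 + Z) ^ N - (1 + Z') ^ N) + ((1 + Z) ^ N - (1 + Z') ^ N) * Z') := by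
      rw [pow_succ, pow_succ]; noncomm_ring
    have h3 := norm_mul_le ((1 + Z) ^ N - (1 + Z') ^ N) Z'
    have h4 := mul_le_mul ih hZ' (norm_nonneg _) (by positivity)
    have h5 := h1 N (Z - Z')
    have h6 : 0 ≤ (1 + δ) ^ N * ‖Z - Z'‖ * δ := by positivity
    rw [h2]
    refine (norm_add_le _ _).trans ((add_le_add le_rfl (norm_add_le _ _)).trans ?_)
    push_cast
    rw [pow_succ]
    nlinarith

theorem tr_tendsto {A : Type} [NormedRing A] [NormedAlgebra ℝ A] [FiniteDimensional ℝ A]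
    (φ : A →ₗ[ℝ] ℝ) (H : A) (C b : ℝ) (hb : 0 ≤ b) (R : ℝ → A)
    (hR : ∀ e, 0 ≤ e → e ≤ 1 → ‖R e‖ ≤ C) :
    Tendsto (fun N : ℕ => φ ((1 - (b / N) • H + (b / N) ^ 2 • R (b / N)) ^ N)
      - φ ((1 - (b / N) • H) ^ N)) atTop (𝓝 0) := by
  have hC : 0 ≤ C := (norm_nonneg _).trans (hR 0 le_rfl zero_le_one)
  have h1 : Tendsto (fun N : ℕ => (1 - (b / N) • H + (b / N) ^ 2 • R (b / N)) ^ N
      - (1 - (b / N) • H) ^ N) atTop (𝓝 0) := by
    refine squeeze_zero_norm' ?_
      (tendsto_const_div_atTop_nhds_zero_nat (Real.exp (b * (‖H‖ + C)) * b ^ 2 * C))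
    filter_upwards [eventually_ge_atTop (⌈b⌉₊ + 1)] with N hN
    have hN0 : (0 : ℝ) < N := by exact_mod_cast (by omega : 0 < N)
    have hN1 : b ≤ N := (Nat.le_ceil b).trans (by exact_mod_cast (by omega : ⌈b⌉₊ ≤ N))
    have he0 : 0 ≤ b / N := div_nonneg hb hN0.le
    have he1 : b / N ≤ 1 := (div_le_one hN0).2 hN1
    have h2 : ‖(b / N) ^ 2 • R (b / N)‖ ≤ (b / N) ^ 2 * C := by
      rw [norm_smul, Real.norm_of_nonneg (sq_nonneg _)]
      exact mul_le_mul_of_nonneg_left (hR _ he0 he1) (sq_nonneg _)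
    have h3 : ‖-((b / N) • H)‖ = b / N * ‖H‖ := by
      rw [norm_neg, norm_smul, Real.norm_of_nonneg he0]
    have h4 : (b / N) ^ 2 * C ≤ b / N * C :=
      mul_le_mul_of_nonneg_right (by nlinarith) hC
    have h5 := tr_pow_sub (-((b / N) • H) + (b / N) ^ 2 • R (b / N)) (-((b / N) • H))
      (b * (‖H‖ + C) / N)
      ((norm_add_le _ _).trans (by
        rw [h3, mul_div_right_comm, mul_add]; exact add_le_add le_rfl (h2.trans h4)))
      (by rw [h3, mul_div_right_comm, mul_add]; exact le_add_of_nonneg_right (by positivity)) N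
    rw [add_sub_cancel_left, ← add_assoc, ← sub_eq_add_neg] at h5
    have h6 : (1 + b * (‖H‖ + C) / N) ^ N ≤ Real.exp (b * (‖H‖ + C)) := by
      have h7 := Real.add_one_le_exp (b * (‖H‖ + C) / N)
      rw [add_comm] at h7
      refine (pow_le_pow_left₀ (by positivity) h7 N).trans (le_of_eq ?_)
      rw [← Real.exp_nat_mul, mul_div_cancel₀ _ hN0.ne']
    refine h5.trans ((mul_le_mul (mul_le_mul_of_nonneg_left h6 hN0.le) h2 (norm_nonneg _)
      (by positivity)).trans (le_of_eq ?_))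
    field_simp
  have h8 := (φ.continuous_of_finiteDimensional.tendsto 0).comp h1
  rw [map_zero] at h8
  exact h8.congr fun N => by simp only [Function.comp, map_sub]

theorem tendsto_pow_sub {ι : Type} [Fintype ι] [DecidableEq ι] (H G : Matrix ι ι ℝ) (C b : ℝ)
    (hb : 0 ≤ b) (R : ℝ → Matrix ι ι ℝ) (hR : ∀ e, 0 ≤ e → e ≤ 1 → ∀ s t, |R e s t| ≤ C) :
    Tendsto (fun N : ℕ => trace ((1 - (b / N) • H + (b / N) ^ 2 • R (b / N)) ^ N * G)
      - trace ((1 - (b / N) • H) ^ N * G)) atTop (𝓝 0) := by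
  let : NormedRing (Matrix ι ι ℝ) := Matrix.linftyOpNormedRing
  let : NormedAlgebra ℝ (Matrix ι ι ℝ) := Matrix.linftyOpNormedAlgebra
  refine tr_tendsto ((Matrix.traceLinearMap ι ℝ ℝ).comp (LinearMap.mulRight ℝ G)) H
    (∑ s, ∑ t, C * ‖(single s t 1 : Matrix ι ι ℝ)‖) b hb R fun e he0 he1 => ?_
  rw [matrix_eq_sum_single (R e)]
  refine (norm_sum_le _ _).trans (Finset.sum_le_sum fun s _ =>
    (norm_sum_le _ _).trans (Finset.sum_le_sum fun t _ => ?_))
  have : single s t (R e s t) = (R e s t) • (single s t 1 : Matrix ι ι ℝ) := by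
    rw [smul_single, smul_eq_mul, mul_one]
  rw [this, norm_smul]
  exact mul_le_mul_of_nonneg_right (hR e he0 he1 s t) (norm_nonneg _)

theorem Hr_isHermitian (h : Fin 4) (L : ℕ) (hL : 2 ≤ L) : (Hr h L : MC L ℝ).IsHermitian := by
  have h1 : ∀ a, (Lm a : M3 ℝ)ᴴ = -Lm a := fun a => by
    ext b c
    fin_cases a <;> fin_cases b <;> fin_cases c <;> simp [Lm, eps]
  unfold IsHermitian Hr
  simp only [conjTranspose_neg, conjTranspose_sum, conjTranspose_smul, conjTranspose_mul,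
    st_conjTranspose, h1, st_neg, neg_mul_neg, star_trivial]
  congr 1
  refine Finset.sum_congr rfl fun j _ => Finset.sum_congr rfl fun a _ => ?_
  rw [st_comm (finRotate_ne hL j)]

theorem trotter (g h : Fin 4) (L : ℕ) (hL : 2 ≤ L) (b : ℝ) (hb : 0 ≤ b) :
    Tendsto (fun N : ℕ => trace (Gm (Real.sqrt (b / N)) h L ^ N * Gr g L)) atTop
      (𝓝 (Zf g h b L)) := by
  obtain ⟨C, R, hR, hG⟩ := Gm_expand h L hL
  obtain ⟨w, -, -, hw⟩ := rep_real _ (Hr_isHermitian h L hL)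
  have h1 := tendsto_pow_sub (Hr h L) (Gr g L) C b hb R hR
  have h2 : Zf g h b L = ∑ i, w (Gr g L) i *
      Real.exp (-b * (Hr_isHermitian h L hL).eigenvalues i) :=
    ex_rep _ _ _ (fun k => by simpa [tau] using hw (Gr g L) 0 1 k) _
  have h3 : Tendsto (fun N : ℕ => trace ((1 - (b / N) • (Hr h L : MC L ℝ)) ^ N * Gr g L)) atTop
      (𝓝 (Zf g h b L)) := by
    rw [h2]
    have h4 : ∀ N : ℕ, trace ((1 - (b / N) • (Hr h L : MC L ℝ)) ^ N * Gr g L) =
        ∑ i, w (Gr g L) i * (1 + (-b * (Hr_isHermitian h L hL).eigenvalues i) / N) ^ N := by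
      intro N
      have h5 := hw (Gr g L) 1 (-(b / N)) N
      rw [one_smul, neg_smul, ← sub_eq_add_neg] at h5
      rw [h5]
      refine Finset.sum_congr rfl fun i _ => ?_
      congr 2
      ring
    simp only [h4]
    exact tendsto_finsetSum _ fun i _ => (Real.tendsto_one_add_div_pow_exp _).const_mul _
  have h6 := h1.add h3
  rw [zero_add] at h6
  refine h6.congr fun N => ?_
  rw [hG, Real.sq_sqrt (div_nonneg hb (Nat.cast_nonneg N)), sub_add_cancel]

end Vale.Agent.P348
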