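import Vale.Agent.P348.Transfer
import Vale.Agent.P348.Trotter
import Vale.Agent.P348.Sym
import Vale.Agent.P348.Lead

/-! The sector partition functions are power sums in time and limits of power sums in space.
`lim_time`: `Q s := ∀ g, Gs g s = chi c g`; `sector_ps` for `Hr h L` (`Hr_block`) gives `x` with
`(∑ g, chi c g * tau g h L k) / 4 = ∑ i, x i ^ k` (`Gr_eq`, `char_proj`); each `tau g h L` has a
representation (`rep_real`), so the series defining `Zf` are summable (`hasSum_ex`) and the combination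
equals `∑ i, exp (-(4 n) * x i) = ∑ i, exp (-4 * x i) ^ n`.
`lim_space`: `Q w := ∀ h, Uw h w = chi c h`; `sector_ps` for `Km` (`Km_block`) gives at each `N` a family
with `(∑ h, chi c h * trace (Km ^ L * diagonal (Uw h))) / 4 = ∑ i, x i ^ L` for all `L`; use
`trace_Gm` and `trotter`. -/

namespace Vale.Agent.P348

open Matrix

theorem limST_sector {ι κ : Type} [Fintype ι] [DecidableEq ι] [Fintype κ] (A : Matrix ι ι ℝ)
    (hA : A.IsHermitian) (f : ι → κ → Fin 4) (c : Fin 4)
    (hf : ∀ g s t, A s t ≠ 0 → (∏ j, chi g (f s j) : ℝ) = ∏ j, chi g (f t j)) :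
    ∃ (μ : Type) (_ : Fintype μ) (x : μ → ℝ), ∀ k : ℕ,
      (∑ g : Fin 4, chi c g * trace (A ^ k * diagonal fun s => (∏ j, chi g (f s j) : ℝ))) / 4 =
        ∑ i, x i ^ k := by
  obtain ⟨μ, _, x, hx⟩ := sector_ps A hA
    (fun s => ∀ g : Fin 4, (∏ j, chi g (f s j) : ℝ) = chi c g)
    fun s t hst => by simp only [fun g => hf g s t hst]
  refine ⟨μ, inferInstance, x, fun k => ?_⟩
  rw [← hx k]
  simp only [trace, diag, mul_diagonal, Finset.mul_sum]
  rw [Finset.sum_comm, Finset.sum_div]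
  refine Finset.sum_congr rfl fun s _ => ?_
  have h1 := char_proj (f s) c
  have e : (∑ g : Fin 4, chi c g * ((A ^ k) s s * ∏ j, chi g (f s j))) / 4 =
      (A ^ k) s s * ((∑ g : Fin 4, (chi c g : ℝ) * ∏ j, chi g (f s j)) / 4) := by
    rw [← mul_div_assoc, Finset.mul_sum]
    congr 1
    exact Finset.sum_congr rfl fun g _ => by ring
  rw [e, h1]
  split_ifs <;> simp

theorem lim_time (h c : Fin 4) (L : ℕ) (hL : 2 ≤ L) :
    LimPS fun n => (∑ g : Fin 4, chi c g * Zf g h (4 * n) L) / 4 := by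
  obtain ⟨μ, _, x, hx⟩ := limST_sector (Hr h L) (Hr_isHermitian h L hL) (fun s j => (s j).succ) c
    fun g s t hst => Hr_block g h L s t hst
  have hx' : ∀ k, (∑ g : Fin 4, chi c g * tau g h L k) / 4 = ∑ i, 1 * x i ^ k := fun k => by
    simp only [one_mul, tau, Gr_eq]
    exact hx k
  obtain ⟨w, -, -, hw⟩ := rep_real (Hr h L : MC L ℝ) (Hr_isHermitian h L hL)
  have hs : ∀ (g : Fin 4) (b : ℝ),
      HasSum (fun k : ℕ => b ^ k / (k.factorial : ℝ) * tau g h L k) (ex (tau g h L) b) := by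
    intro g b
    refine (hasSum_ex (tau g h L) (w (Gr g L)) (Hr_isHermitian h L hL).eigenvalues
      (fun k => ?_) b).summable.hasSum
    simpa [tau] using hw (Gr g L) 0 1 k
  refine ⟨fun _ => μ, fun _ => inferInstance, fun _ i => Real.exp (-4 * x i), fun n _ => ?_⟩
  have h1 := hasSum_ex _ _ _ hx' (-(4 * n))
  have h2 := (hasSum_sum fun g (_ : g ∈ Finset.univ) =>
    (hs g (-(4 * n))).mul_left (chi c g)).div_const 4
  have h3 : (∑ g : Fin 4, chi c g * Zf g h (4 * n) L) / 4 = ∑ i, Real.exp (-4 * x i) ^ n := by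
    have e : ∑ i, Real.exp (-4 * x i) ^ n = ∑ i, 1 * Real.exp (-(4 * n) * x i) :=
      Finset.sum_congr rfl fun i _ => by
        rw [one_mul, ← Real.exp_nat_mul]
        congr 1
        ring
    rw [e]
    have e2 : ∀ k : ℕ, (-(4 * (n : ℝ))) ^ k / (k.factorial : ℝ) *
        ((∑ g : Fin 4, chi c g * tau g h L k) / 4) =
        (∑ g : Fin 4, chi c g * ((-(4 * (n : ℝ))) ^ k / (k.factorial : ℝ) * tau g h L k)) / 4 := by
      intro k
      rw [← mul_div_assoc, Finset.mul_sum]
      congr 1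
      exact Finset.sum_congr rfl fun g _ => by ring
    simp only [e2] at h1
    exact h2.unique h1
  simp only [h3]
  exact tendsto_const_nhds

theorem lim_space (g c : Fin 4) (b : ℝ) (hb : 0 ≤ b) :
    LimPS fun L => (∑ h : Fin 4, chi c h * Zf g h b L) / 4 := by
  choose μ inst x hx using fun N : ℕ => limST_sector (Km (Real.sqrt (b / N)) N g)
    (Km_isHermitian _ N g) (fun w t => w t) c fun h w w' hw => Km_block _ N g h w w' hw
  refine ⟨μ, inst, x, fun L hL => ?_⟩
  have h1 := (tendsto_finsetSum Finset.univ fun h _ =>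
    (trotter g h L hL b hb).const_mul (chi c h : ℝ)).div_const 4
  refine h1.congr fun N => ?_
  rw [← hx N L]
  simp only [trace_Gm _ g _ L N (by omega)]
  rfl

end Vale.Agent.P348
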