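import Vale.Agent.P348.Lead

/-! Consequences of `Lead` (elementary real inequalities). -/

namespace Vale.Agent.P348

theorem Lead.nonneg_even {t : ℕ → ℝ} {l : ℝ} (h : Lead t l) {n : ℕ} (hn : 2 ≤ n) (he : Even n) :
    0 ≤ t n := (pow_nonneg h.nonneg n).trans (h.le n hn he)

/-- from `mono` -/
theorem Lead.le_mul {t : ℕ → ℝ} {l : ℝ} (h : Lead t l) {n m : ℕ} (hn : 2 ≤ n) (he : Even n)
    (hm : Even m) : t (n + m) ≤ l ^ m * t n := by
  have h1 := h.mono n m hn he hm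
  rw [pow_add] at h1
  linarith

/-- from `pow` and `u ^ k + v ^ k ≤ (u + v) ^ k` -/
theorem Lead.pow_le {t : ℕ → ℝ} {l : ℝ} (h : Lead t l) {n k : ℕ} (hn : 2 ≤ n) (he : Even n)
    (hk : 1 ≤ k) : t (n * k) ≤ t n ^ k := by
  have h1 := h.pow n k hn he hk
  have h2 := h.le n hn he
  have h3 := pow_add_pow_le (pow_nonneg h.nonneg n) (sub_nonneg.mpr h2) (show k ≠ 0 by omega)
  rw [pow_mul] at h1
  rw [add_sub_cancel] at h3
  linarith

theorem maj2_aux {a p q : ℝ} (ha : 0 ≤ a) (hp : 0 ≤ p) (hq : 0 ≤ q) (k : ℕ) :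
    (a + p) ^ k + (a + q) ^ k ≤ a ^ k + (a + p + q) ^ k := by
  induction k with
  | zero => simp
  | succ k ih =>
    have h1 : (a + p) ^ k ≤ (a + p + q) ^ k := pow_le_pow_left₀ (by linarith) (by linarith) k
    have h2 : (a + q) ^ k ≤ (a + p + q) ^ k := pow_le_pow_left₀ (by linarith) (by linarith) k
    have h3 := mul_le_mul_of_nonneg_left ih ha
    have h4 := mul_le_mul_of_nonneg_left h1 hp
    have h5 := mul_le_mul_of_nonneg_left h2 hq
    simp only [pow_succ]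
    linarith

/-- two-term majorisation (convexity of `x ^ k`) -/
theorem maj2 {u v s m : ℝ} (k : ℕ) (hk : 1 ≤ k) (hu : 0 ≤ u) (hv : 0 ≤ v) (hus : u ≤ s) (hvs : v ≤ s)
    (huv : u + v ≤ m) (hsm : s ≤ m) (hm : m ≤ 2 * s) : u ^ k + v ^ k ≤ s ^ k + (m - s) ^ k := by
  wlog hle : v ≤ u generalizing u v
  · have := this hv hu hvs hus (by linarith) (by linarith)
    linarith
  rcases le_or_gt v (m - s) with h | h
  · exact add_le_add (pow_le_pow_left₀ hu hus k) (pow_le_pow_left₀ hv h k)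
  · have h1 := maj2_aux (a := m - s) (p := v - (m - s)) (q := s - v) (by linarith) (by linarith)
      (by linarith) k
    rw [show m - s + (v - (m - s)) = v by ring, show m - s + (s - v) = m - v by ring,
      show v + (s - v) = s by ring] at h1
    have h2 : u ^ k ≤ (m - v) ^ k := pow_le_pow_left₀ hu (by linarith) k
    linarith

/-- Polynomial filter. With `p x = (x - r1) * (x - r2)` the field `filt` (for `a = -(r1 + r2)`,
`b = r1 * r2`) and monotonicity of `x ^ 6 * p (± x) ^ 2` on `[xb, ∞)` give `l ≤ xb`. Then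
`t (10 k) ≤ s ^ k + (t 10 - s) ^ k` with `s = l ^ 10`; if `t 10 - s ≤ xb ^ 10` use `maj2`; otherwise
`s < m - xb ^ 10 =: v` and `t (10 k) ≤ s ^ (k - 1) * m ≤ v ^ (k - 1) * (xb ^ 10 + v)`. -/
theorem Lead.filter {t : ℕ → ℝ} {l : ℝ} (h : Lead t l) (r1 r2 xb T m : ℝ)
    (h1 : |r1| ≤ xb) (h2 : |r2| ≤ xb)
    (hT : t 10 - 2 * (r1 + r2) * t 9 + ((r1 + r2) ^ 2 + 2 * (r1 * r2)) * t 8
      - 2 * (r1 + r2) * (r1 * r2) * t 7 + (r1 * r2) ^ 2 * t 6 ≤ T)
    (hp : T < xb ^ 6 * ((xb - r1) * (xb - r2)) ^ 2) (hn : T < xb ^ 6 * ((xb + r1) * (xb + r2)) ^ 2)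
    (hm : t 10 ≤ m) (hs : xb ^ 10 ≤ m) (hs2 : m ≤ 2 * xb ^ 10) (k : ℕ) (hk : 1 ≤ k) :
    t (10 * k) ≤ (xb ^ 10) ^ k + (m - xb ^ 10) ^ k := by
  have hxb : 0 ≤ xb := (abs_nonneg _).trans h1
  obtain ⟨h1a, h1b⟩ := abs_le.mp h1
  obtain ⟨h2a, h2b⟩ := abs_le.mp h2
  have hl : l ≤ xb := by
    by_contra hc
    have hc : xb ≤ l := (not_le.mp hc).le
    have hf := h.filt (-(r1 + r2)) (r1 * r2)
    have e1 : l ^ 2 + -(r1 + r2) * l + r1 * r2 = (l - r1) * (l - r2) := by ring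
    have e2 : l ^ 2 - -(r1 + r2) * l + r1 * r2 = (l + r1) * (l + r2) := by ring
    rw [e1, e2] at hf
    have h6 : xb ^ 6 ≤ l ^ 6 := pow_le_pow_left₀ hxb hc 6
    have k1 : ((xb - r1) * (xb - r2)) ^ 2 ≤ ((l - r1) * (l - r2)) ^ 2 :=
      pow_le_pow_left₀ (mul_nonneg (by linarith) (by linarith))
        (mul_le_mul (by linarith) (by linarith) (by linarith) (by linarith)) 2
    have k2 : ((xb + r1) * (xb + r2)) ^ 2 ≤ ((l + r1) * (l + r2)) ^ 2 :=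
      pow_le_pow_left₀ (mul_nonneg (by linarith) (by linarith))
        (mul_le_mul (by linarith) (by linarith) (by linarith) (by linarith)) 2
    have k3 := mul_le_mul h6 k1 (sq_nonneg _) (by positivity)
    have k4 := mul_le_mul h6 k2 (sq_nonneg _) (by positivity)
    rcases min_cases (((l - r1) * (l - r2)) ^ 2) (((l + r1) * (l + r2)) ^ 2) with ⟨e, _⟩ | ⟨e, _⟩
    · rw [e] at hf; linarith
    · rw [e] at hf; linarith
  have hs0 : 0 ≤ l ^ 10 := pow_nonneg h.nonneg 10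
  have hsS : l ^ 10 ≤ xb ^ 10 := pow_le_pow_left₀ h.nonneg hl 10
  have hle := h.le 10 (by norm_num) (by decide)
  rcases le_or_gt (t 10 - l ^ 10) (xb ^ 10) with hc | hc
  · have h3 := h.pow 10 k (by norm_num) (by decide) hk
    have h4 := maj2 k hk hs0 (sub_nonneg.mpr hle) hsS hc (by linarith) hs hs2
    rw [pow_mul] at h3
    linarith
  · obtain ⟨j, rfl⟩ : ∃ j, k = j + 1 := ⟨k - 1, by omega⟩
    have h3 := h.le_mul (n := 10) (m := 10 * j) (by norm_num) (by decide)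
      (Even.mul_right (by decide) j)
    rw [show 10 * (j + 1) = 10 + 10 * j by ring]
    rw [pow_mul] at h3
    have h4 : (l ^ 10) ^ j ≤ (m - xb ^ 10) ^ j := pow_le_pow_left₀ hs0 (by linarith) j
    have h5 : (m - xb ^ 10) ^ j ≤ (xb ^ 10) ^ j := pow_le_pow_left₀ (by linarith) (by linarith) j
    have h6 : (l ^ 10) ^ j * t 10 ≤ (m - xb ^ 10) ^ j * m :=
      mul_le_mul h4 hm (by linarith) (pow_nonneg (by linarith) j)
    have h7 := mul_le_mul_of_nonneg_right h5 (show 0 ≤ xb ^ 10 by positivity)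
    rw [pow_succ (xb ^ 10), pow_succ (m - xb ^ 10)]
    linarith

/-- purity controls the defect: `D n = t n / l ^ n - 1` and `D (2 n) ≤ D n` -/
theorem Lead.defect_le {t : ℕ → ℝ} {l : ℝ} (h : Lead t l) {n : ℕ} (hn : 2 ≤ n) (he : Even n)
    (hpos : 0 < t n) {X : ℝ} (hX : t n ^ 2 ≤ X * t (2 * n)) : 0 < l ∧ t n ≤ X * l ^ n := by
  have h1 := h.le_mul hn he he
  rw [← two_mul] at h1
  have h2 : 0 ≤ t (2 * n) := h.nonneg_even (by omega) (even_two_mul n)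
  have hX0 : 0 ≤ X := by
    by_contra hc
    have := mul_nonpos_of_nonpos_of_nonneg (not_le.mp hc).le h2
    nlinarith
  have h3 : t n * t n ≤ (X * l ^ n) * t n := by
    have := mul_le_mul_of_nonneg_left h1 hX0
    nlinarith
  have h4 : t n ≤ X * l ^ n := le_of_mul_le_mul_right h3 hpos
  refine ⟨lt_of_le_of_ne h.nonneg ?_, h4⟩
  rintro rfl
  rw [zero_pow (by omega), mul_zero] at h4
  linarith

/-- Squaring step. With `D = t n / l ^ n - 1`: `D ≤ τ` by `defect_le`, and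
`(1 + D) ^ 2 ≤ (1 + τ) * (1 + D ^ 2)` gives `2 D ≤ τ (1 + D ^ 2)`, so `D ≤ 0.593 τ`, then
`D ≤ 0.533 τ`; finally `t (2 n) ≤ l ^ (2 n) * (1 + D ^ 2)` and `l ^ (4 n) ≤ t (4 n)`. -/
theorem LimPS.sq_step {t : ℕ → ℝ} (h : LimPS t) {n : ℕ} (hn : 2 ≤ n) (he : Even n)
    (hpos : 0 < t n) {τ : ℝ} (h0 : 0 ≤ τ) (h1 : τ ≤ 43 / 100)
    (hX : t n ^ 2 ≤ (1 + τ) * t (2 * n)) :
    t (2 * n) ^ 2 ≤ (1 + (533 / 1000 * τ) ^ 2) ^ 2 * t (4 * n) := by
  obtain ⟨l, hl⟩ := h.lead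
  obtain ⟨hl0, hd⟩ := hl.defect_le hn he hpos hX
  have hs : 0 < l ^ n := pow_pos hl0 n
  have hle := hl.le n hn he
  have h2 := hl.pow n 2 hn he (by norm_num)
  have h4 := hl.le (4 * n) (by omega) (Even.mul_left he 4)
  have h2n : 0 ≤ t (2 * n) := hl.nonneg_even (by omega) (even_two_mul n)
  rw [pow_mul, mul_comm n 2] at h2
  rw [mul_comm 4 n, pow_mul, mul_comm n 4] at h4
  obtain ⟨D, hD⟩ : ∃ D, t n = l ^ n * (1 + D) := ⟨t n / l ^ n - 1, by field_simp; ring⟩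
  set s := l ^ n with hsdef
  have hD0 : 0 ≤ D := by
    by_contra hc
    nlinarith [mul_pos hs (neg_pos.mpr (not_le.mp hc))]
  have hD1 : D ≤ τ := by
    by_contra hc
    nlinarith [mul_pos hs (sub_pos.mpr (not_le.mp hc))]
  have h5 : t (2 * n) ≤ s ^ 2 * (1 + D ^ 2) := by
    rw [hD] at h2
    nlinarith
  have h6 : (1 + D) ^ 2 ≤ (1 + τ) * (1 + D ^ 2) := by
    have h7 := mul_le_mul_of_nonneg_left h5 (show 0 ≤ 1 + τ by linarith)
    rw [hD] at hX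
    have h8 : s ^ 2 * (1 + D) ^ 2 ≤ s ^ 2 * ((1 + τ) * (1 + D ^ 2)) := by nlinarith
    exact le_of_mul_le_mul_left h8 (by positivity)
  have h9 : D ^ 2 ≤ (43 / 100) ^ 2 := pow_le_pow_left₀ hD0 (by linarith) 2
  have h10 : D ≤ 593 / 1000 * τ := by nlinarith
  have h11 : D ^ 2 ≤ (255 / 1000) ^ 2 := pow_le_pow_left₀ hD0 (by linarith) 2
  have h12 : D ≤ 533 / 1000 * τ := by nlinarith
  have h13 : D ^ 2 ≤ (533 / 1000 * τ) ^ 2 := pow_le_pow_left₀ hD0 h12 2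
  have h14 : t (2 * n) ≤ s ^ 2 * (1 + (533 / 1000 * τ) ^ 2) :=
    h5.trans (mul_le_mul_of_nonneg_left (by linarith) (by positivity))
  calc t (2 * n) ^ 2 ≤ (s ^ 2 * (1 + (533 / 1000 * τ) ^ 2)) ^ 2 := pow_le_pow_left₀ h2n h14 2
    _ = (1 + (533 / 1000 * τ) ^ 2) ^ 2 * s ^ 4 := by ring
    _ ≤ _ := mul_le_mul_of_nonneg_left h4 (by positivity)

/-- the leading modulus sits in the trivial sector: `b (n k) ≤ b n ^ k → 0` and
`a (n k) ≤ l ^ (n (k - 1)) * a n` -/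
theorem lead_ge_one {a b : ℕ → ℝ} {l : ℝ} (ha : Lead a l) (hb : LimPS b) {n : ℕ} (hn : 2 ≤ n)
    (he : Even n) (hb1 : b n < 1) (hlow : ∀ k, 1 ≤ k → 1 ≤ a (n * k) + 3 * b (n * k)) :
    1 ≤ l := by
  by_contra hc
  have hl1 : l < 1 := not_le.mp hc
  obtain ⟨l', hl'⟩ := hb.lead
  have hb0 : 0 ≤ b n := hl'.nonneg_even hn he
  have hs1 : l ^ n < 1 := pow_lt_one₀ ha.nonneg hl1 (by omega)
  have t1 := (tendsto_pow_atTop_nhds_zero_of_lt_one (pow_nonneg ha.nonneg n) hs1).mul_const (a n)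
  have t2 := ((tendsto_pow_atTop_nhds_zero_of_lt_one hb0 hb1).mul_const (b n)).const_mul 3
  have t3 := t1.add t2
  have h4 : (1 : ℝ) ≤ 0 * a n + 3 * (0 * b n) := by
    refine ge_of_tendsto' t3 fun j => ?_
    have k1 := hlow (j + 1) (by omega)
    have k2 := ha.le_mul (m := n * j) hn he (he.mul_right j)
    have k3 := hl'.pow_le (k := j + 1) hn he (by omega)
    rw [pow_mul, show n + n * j = n * (j + 1) by ring] at k2
    rw [pow_succ] at k3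
    linarith
  linarith

/-- Sector resolved purity. With `s = l ^ n ≥ 1`, `u = a n - 1`: `a (n k) ≤ s ^ k + (a n - s) ^ k ≤
s ^ k (1 + u ^ k)`, `b (n k) ≤ b n ^ k ≤ ((t - u) / 3) ^ k ≤ s ^ k * (..) ^ k`, and the total at
`2 n k` is at least `s ^ (2 k)`. -/
theorem sector_pure {a b : ℕ → ℝ} (ha : LimPS a) (hb : LimPS b) {n k : ℕ} (hn : 2 ≤ n)
    (he : Even n) (hk : 1 ≤ k) {d t w : ℝ} (hd : a n ≤ 1 + d) (ht : a n + 3 * b n ≤ 1 + t)
    (ht2 : t < 2) (hlow : ∀ k, 1 ≤ k → 1 ≤ a (n * k) + 3 * b (n * k))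
    (hw : ∀ u, 0 ≤ u → u ≤ d → u ≤ t → u ^ k + 3 * ((t - u) / 3) ^ k ≤ w) :
    (a (n * k) + 3 * b (n * k)) ^ 2 ≤ (1 + w) ^ 2 * (a (2 * (n * k)) + 3 * b (2 * (n * k))) := by
  obtain ⟨l, hl⟩ := ha.lead
  obtain ⟨l', hl'⟩ := hb.lead
  have hb0 : 0 ≤ b n := hl'.nonneg_even hn he
  have ha0 : 0 ≤ a n := hl.nonneg_even hn he
  have hl1 : 1 ≤ l := lead_ge_one hl hb hn he (by linarith) hlow
  have hs1 : 1 ≤ l ^ n := one_le_pow₀ hl1
  have hle := hl.le n hn he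
  have hw1 := hw (a n - 1) (by linarith) (by linarith) (by linarith)
  have k1 := hl.pow n k hn he hk
  have k2 := hl'.pow_le hn he hk
  have k3 : (a n - l ^ n) ^ k ≤ (a n - 1) ^ k := pow_le_pow_left₀ (by linarith) (by linarith) k
  have k4 : b n ^ k ≤ ((t - (a n - 1)) / 3) ^ k := pow_le_pow_left₀ hb0 (by linarith) k
  have k5 : 1 ≤ l ^ (n * k) := one_le_pow₀ hl1
  have k6 : 0 ≤ (a n - 1) ^ k := pow_nonneg (by linarith) k
  have k7 : 0 ≤ b n ^ k := pow_nonneg hb0 k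
  have hw0 : 0 ≤ w := by linarith
  have k8 : a (n * k) + 3 * b (n * k) ≤ (1 + w) * l ^ (n * k) := by nlinarith
  have hnk : 2 ≤ 2 * (n * k) := by nlinarith
  have k9 := hl.le (2 * (n * k)) hnk (even_two_mul _)
  have k10 := hl'.nonneg_even hnk (even_two_mul _)
  rw [mul_comm 2, pow_mul, mul_comm _ 2] at k9
  have k11 := hlow k hk
  calc (a (n * k) + 3 * b (n * k)) ^ 2 ≤ ((1 + w) * l ^ (n * k)) ^ 2 :=
        pow_le_pow_left₀ (by linarith) k8 2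
    _ = (1 + w) ^ 2 * (l ^ (n * k)) ^ 2 := by ring
    _ ≤ _ := mul_le_mul_of_nonneg_left (by linarith) (by positivity)

end Vale.Agent.P348
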