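import Vale.Agent.P348.MPS
import Vale.Agent.P348.LimST
import Vale.Agent.P348.Pure

/-! The normalised partition functions and their lower bound.
`Zf_low`: for even `M`, `tau_eq` (`g = h = 0`, `gS 0 = 1`, `tens_one`) and `trace_pow_real` for the symmetric matrix
`H' = M • 1 + (-1) • yB M 1` (symmetric by `yB_psd`) give `Zf 0 0 b M = ∑ i, exp (-b * E i)`; by `hv` and
`exists_eigenvalue_le`, `Zf 0 0 b M ≥ exp (-b (e M + C))`. `L ↦ Zf 0 0 b L` is the sum over `c` of the four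
`lim_space 0 c`, so it is `LimPS` and `Zf 0 0 b (L k) ≤ Zf 0 0 b L ^ k` (`Lead.pow_le`). Hence
`(Zf 0 0 b L * exp (b e L)) ^ k ≥ exp (-b C)` for all `k ≥ 1`, which forces the base to be `≥ 1`.
`R0_le`: `Real.sum_le_exp_of_nonneg` with about 45 terms at `x = 13.605924`. -/

namespace Vale.Agent.P348

open Matrix

/-- normalised partition function at inverse temperature `4 n` -/
noncomputable def Zn (g h : Fin 4) (n L : ℕ) : ℝ := Zf g h (4 * n) L * (Real.exp 8 / R0) ^ (n * L)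

theorem Hp_herm (M : ℕ) (hM : 2 ≤ M) :
    ((M : ℝ) • (1 : MC M ℝ) + (-1 : ℝ) • yB M 1).IsHermitian := by
  have h := (yB_psd M hM 1 (by norm_num)).isHermitian
  have h1 : ((M : ℝ) • (1 : MC M ℝ)).IsHermitian := by
    unfold Matrix.IsHermitian
    rw [conjTranspose_smul, conjTranspose_one, star_trivial]
  have e : (M : ℝ) • (1 : MC M ℝ) + (-1 : ℝ) • yB M 1 =
      (M : ℝ) • (1 : MC M ℝ) + (M : ℝ) • (1 : MC M ℝ) - ((M : ℝ) • (1 : MC M ℝ) + yB M 1) := by
    rw [neg_one_smul]; abel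
  rw [e]
  exact (h1.add h1).sub h

theorem Zf_eq_sum (b : ℝ) (M : ℕ) (hM : 2 ≤ M) (eM : Even M) :
    Zf 0 0 b M = ∑ i, Real.exp (-b * (Hp_herm M hM).eigenvalues i) := by
  have h : ∀ k, tau 0 0 M k = ∑ i, 1 * (Hp_herm M hM).eigenvalues i ^ k := fun k => by
    rw [tau_eq 0 0 (by decide) (Or.inl rfl) M hM k]
    have h0 : (gS 0 : M3 ℝ) = 1 := by simp [gS]
    simp only [h0, tens_one, Matrix.mul_one, if_true, eM.neg_one_pow, one_mul]
    exact trace_pow_real _ (Hp_herm M hM) k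
  unfold Zf
  rw [ex_rep _ _ _ h]
  simp

theorem Zf_limPS (b : ℝ) (hb : 0 ≤ b) : LimPS fun L => Zf 0 0 b L := by
  refine ((((lim_space 0 0 b hb).add (lim_space 0 1 b hb)).add (lim_space 0 2 b hb)).add
    (lim_space 0 3 b hb)).congr fun n _ => ?_
  simp [Fin.sum_univ_four, chi]
  ring

theorem Zf_low (e : ℝ) (hv : ∃ C : ℝ, ∀ M : ℕ, 2 ≤ M → ∃ v : Cfg M → ℝ, v ≠ 0 ∧
      v ⬝ᵥ ((M : ℝ) • (1 : MC M ℝ) + (-1 : ℝ) • yB M 1) *ᵥ v ≤ (e * M + C) * (v ⬝ᵥ v))
    (b : ℝ) (hb : 0 ≤ b) (L : ℕ) (hL : 2 ≤ L) (eL : Even L) :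
    Real.exp (-(b * e * L)) ≤ Zf 0 0 b L := by
  obtain ⟨C, hC⟩ := hv
  have low : ∀ M : ℕ, 2 ≤ M → Even M → Real.exp (-b * (e * M + C)) ≤ Zf 0 0 b M := by
    intro M hM eM
    obtain ⟨v, hv0, hv⟩ := hC M hM
    obtain ⟨i, hi⟩ := exists_eigenvalue_le _ (Hp_herm M hM) v hv0 _ hv
    rw [Zf_eq_sum b M hM eM]
    refine le_trans ?_ (Finset.single_le_sum (f := fun i =>
      Real.exp (-b * (Hp_herm M hM).eigenvalues i)) (fun i _ => (Real.exp_pos _).le)
      (Finset.mem_univ i))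
    exact Real.exp_le_exp.mpr (by nlinarith)
  obtain ⟨l, hl⟩ := (Zf_limPS b hb).lead
  have hpos : 0 < Zf 0 0 b L := lt_of_lt_of_le (Real.exp_pos _) (low L hL eL)
  set y := Zf 0 0 b L * Real.exp (b * e * L) with hy
  have hy0 : 0 < y := mul_pos hpos (Real.exp_pos _)
  have key : ∀ k : ℕ, 1 ≤ k → Real.exp (-(b * C)) ≤ y ^ k := by
    intro k hk
    have h1 := low (L * k) (le_trans hL (Nat.le_mul_of_pos_right L hk)) (eL.mul_right k)
    have h2 := hl.pow_le hL eL hk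
    have h3 : Real.exp (-(b * C)) =
        Real.exp (-b * (e * (L * k : ℕ) + C)) * Real.exp (b * e * L) ^ k := by
      rw [← Real.exp_nat_mul, ← Real.exp_add]
      congr 1
      push_cast
      ring
    rw [h3, hy, mul_pow]
    exact mul_le_mul_of_nonneg_right (h1.trans h2) (by positivity)
  have h1 : 1 ≤ y := by
    by_contra hlt
    push Not at hlt
    obtain ⟨k, hk⟩ := exists_pow_lt_of_lt_one (Real.exp_pos (-(b * C))) hlt
    have h2 := key (k + 1) (by omega)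
    have h3 : y ^ (k + 1) ≤ y ^ k := pow_le_pow_of_le_one hy0.le hlt.le (by omega)
    linarith
  rw [Real.exp_neg, inv_le_comm₀ (Real.exp_pos _) hpos, inv_le_iff_one_le_mul₀' hpos]
  exact h1

theorem R0_le : R0 ≤ Real.exp (4 * (2 - eV)) := by
  have h := Real.sum_le_exp_of_nonneg (x := 4 * (2 - eV) / 16) (by unfold eV; norm_num) 12
  have h2 : (23405132 / 10000000 : ℝ) ≤ Real.exp (4 * (2 - eV) / 16) := by
    refine le_trans ?_ h
    unfold eV
    simp only [Finset.sum_range_succ, Finset.sum_range_zero, Nat.factorial]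
    norm_num
  have h3 : Real.exp (4 * (2 - eV)) = Real.exp (4 * (2 - eV) / 16) ^ 16 := by
    rw [← Real.exp_nat_mul]
    congr 1
    push_cast
    ring
  rw [h3]
  refine le_trans ?_ (pow_le_pow_left₀ (by norm_num) h2 16)
  unfold R0
  norm_num

theorem R0_pos : 0 < R0 := by unfold R0; norm_num

theorem Zn_low (hv : ∃ C : ℝ, ∀ M : ℕ, 2 ≤ M → ∃ v : Cfg M → ℝ, v ≠ 0 ∧
      v ⬝ᵥ ((M : ℝ) • (1 : MC M ℝ) + (-1 : ℝ) • yB M 1) *ᵥ v ≤ (eV * M + C) * (v ⬝ᵥ v))
    (n L : ℕ) (hL : 2 ≤ L) (eL : Even L) : 1 ≤ Zn 0 0 n L := by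
  have h1 := Zf_low eV hv (4 * n) (by positivity) L hL eL
  have h2 : Real.exp (4 * eV) ≤ Real.exp 8 / R0 := by
    rw [le_div_iff₀ R0_pos]
    calc Real.exp (4 * eV) * R0 ≤ Real.exp (4 * eV) * Real.exp (4 * (2 - eV)) :=
          mul_le_mul_of_nonneg_left R0_le (Real.exp_pos _).le
      _ = Real.exp 8 := by rw [← Real.exp_add]; congr 1; ring
  have h3 : Real.exp (4 * eV) ^ (n * L) ≤ (Real.exp 8 / R0) ^ (n * L) :=
    pow_le_pow_left₀ (Real.exp_pos _).le h2 _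
  have h4 : Real.exp (-(4 * n * eV * L)) * Real.exp (4 * eV) ^ (n * L) = 1 := by
    rw [← Real.exp_nat_mul, ← Real.exp_add, ← Real.exp_zero]
    congr 1
    push_cast
    ring
  unfold Zn
  rw [← h4]
  exact mul_le_mul h1 h3 (by positivity) (le_trans (Real.exp_pos _).le h1)

theorem Zn_time (h c : Fin 4) (L : ℕ) (hL : 2 ≤ L) :
    LimPS fun n => (∑ g : Fin 4, chi c g * Zn g h n L) / 4 := by
  refine ((lim_time h c L hL).scale ((Real.exp 8 / R0) ^ L)).congr fun n _ => ?_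
  simp only [Zn]
  rw [← pow_mul, mul_comm L n, ← mul_div_assoc, Finset.mul_sum]
  congr 1
  exact Finset.sum_congr rfl fun g _ => by ring

theorem Zn_space (g c : Fin 4) (n : ℕ) :
    LimPS fun L => (∑ h : Fin 4, chi c h * Zn g h n L) / 4 := by
  refine ((lim_space g c (4 * n) (by positivity)).scale ((Real.exp 8 / R0) ^ n)).congr
    fun L _ => ?_
  simp only [Zn]
  rw [← pow_mul, ← mul_div_assoc, Finset.mul_sum]
  congr 1
  exact Finset.sum_congr rfl fun g _ => by ring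

theorem Zn_class (g h : Fin 4) (n L : ℕ) :
    Zn g h n L = if g = 0 then (if h = 0 then Zn 0 0 n L else Zn 0 3 n L)
      else if h = 0 then Zn 3 0 n L else if g = h then Zn 3 3 n L else Zn 1 3 n L := by
  unfold Zn
  rw [Zf_class]
  split_ifs <;> rfl

end Vale.Agent.P348
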