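import Vale.Agent.P348.Run
import Vale.Agent.P348.Orb
import Vale.Agent.P348.Sect2
import Vale.Agent.P348.Var

/-! From kernel runs to bounds on the normalised sector partition functions. -/

namespace Vale.Agent.P348

open Finset

theorem Sec.app {f : ℕ → ℕ → ℤ} {c1 c2 : List (ℕ × ℕ)} {r1 r2 : List ℤ} (h1 : Sec f c1 r1)
    (h2 : Sec f c2 r2) : Sec f (c1 ++ c2) (List.zipWith Int.add r1 r2) := by
  intro k hk
  rw [List.length_zipWith, lt_min_iff] at hk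
  rw [List.map_append, List.sum_append, h1 k hk.1, h2 k hk.2, List.getD_eq_getElem _ _ hk.1,
    List.getD_eq_getElem _ _ hk.2, List.getD_eq_getElem _ _ (by
      rw [List.length_zipWith, lt_min_iff]; exact hk), List.getElem_zipWith]
  rfl

/-- `reps` is a weighted system of orbit representatives -/
def Orb (L : ℕ) (reps : List (ℕ × ℕ)) : Prop :=
  ∀ f : ℕ → ℤ, (∀ c, c < 3 ^ L → f (rotC L c) = f c) → (∀ c, c < 3 ^ L → f (revC L c) = f c) →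
    (∀ c, c < 3 ^ L → f (flipC L c) = f c) →
    ∑ c ∈ range (3 ^ L), f c = (reps.map fun x => (x.2 : ℤ) * f x.1).sum

theorem orb_of_run {L : ℕ} (hL : 1 ≤ L) {reps : List (ℕ × ℕ)}
    (h : orbRun L (Nat.sub (Nat.pow 2 (Nat.pow 3 L)) 1) reps 0 = true) : Orb L reps := by
  intro f h1 h2 h3
  have h4 := orbRun_sound L hL f h1 h2 h3 _ reps 0 h
  simp only [Nat.zero_testBit, Bool.false_eq_true, if_false, sum_const_zero, zero_add] at h4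
  rw [← h4]
  refine sum_congr rfl fun c hc => ?_
  rw [if_pos]
  show (2 ^ 3 ^ L - 1).testBit c = true
  rw [Nat.testBit_two_pow_sub_one]
  exact decide_eq_true (mem_range.1 hc)

/-- the representatives in the selected sectors -/
noncomputable def pick (L : ℕ) (A : ℕ → Bool) (reps : List (ℕ × ℕ)) : List (ℕ × ℕ) :=
  reps.filter fun x => A (Nat.dist (dsC L x.1) L)

theorem sum_pick (p : ℕ × ℕ → Bool) (g : ℕ → ℤ) (reps : List (ℕ × ℕ)) :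
    (reps.map fun x => (x.2 : ℤ) * if p x then g x.1 else 0).sum =
      ((reps.filter p).map fun x => (x.2 : ℤ) * g x.1).sum := by
  induction reps with
  | nil => rfl
  | cons x l ih =>
    rw [List.map_cons, List.sum_cons, ih, List.filter_cons]
    split_ifs <;> simp

theorem mom_eq {L : ℕ} (hL : 2 ≤ L) {e : ℤ} (he : e * e = 1) {reps cols : List (ℕ × ℕ)} (hO : Orb L reps)
    {A : ℕ → Bool} (hp : pick L A reps = cols) {r : List ℤ} (hr : Sec (dgP L e) cols r) (k : ℕ)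
    (hk : k < r.length) : mom L e A k = r.getD k 0 := by
  rw [(mom_reps L hL e he reps hO A k).1, ← hr k hk, ← hp]
  exact sum_pick (fun x => A (Nat.dist (dsC L x.1) L)) _ reps

theorem momF_eq {L : ℕ} (hL : 2 ≤ L) {e : ℤ} (he : e * e = 1) {reps cols : List (ℕ × ℕ)} (hO : Orb L reps)
    (hp : pick L A0 reps = cols) {r : List ℤ} (hr : Sec (dgF L e) cols r) (k : ℕ)
    (hk : k < r.length) : momF L e k = r.getD k 0 := by
  rw [(mom_reps L hL e he reps hO A0 k).2, ← hr k hk, ← hp]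
  refine Eq.trans ?_ (sum_pick (fun x => A0 (Nat.dist (dsC L x.1) L)) _ reps)
  refine congrArg List.sum (List.map_congr_left fun x _ => ?_)
  congr 1
  refine if_congr ?_ rfl rfl
  simp only [A0, beq_iff_eq]
  exact ⟨fun h => by rw [h, Nat.dist_self], Nat.eq_of_dist_eq_zero⟩

/-- normalised sector sum -/
noncomputable def EN (L : ℕ) (e : ℤ) (A : ℕ → Bool) : ℝ := exY L (mom L e A) / R0 ^ (2 * L)
/-- normalised flip sector sum -/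
noncomputable def PN (L : ℕ) (e σ : ℤ) : ℝ :=
  (exY L (mom L e A0) + σ * exY L (momF L e)) / R0 ^ (2 * L)

/-- all checks for a half sector; the bounds are `a / 10 ^ 9` and `b / 10 ^ 9` -/
noncomputable def chkH (s K L : ℕ) (r m : List ℤ) (nl : List ℕ) (lo : ℕ) (ne : List ℕ) (Y : ℕ)
    (nu : List ℕ) (hi a b : ℕ) : Bool :=
  decide (0 < s) && decide (0 < K) && decide (m.length ≤ r.length) &&
  (List.range m.length).all (fun k => decide (2 * m.getD k 0 = r.getD k 0)) &&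
  (decide (a = 0) || (lowChk s K L m nl lo && decide (a * 810919 ^ (2 * L) ≤ 10 ^ 9 * (2 * lo)))) &&
  edgeChk s L m ne Y && upChk s K L m nu Y hi && decide (10 ^ 9 * (2 * hi) ≤ b * 810919 ^ (2 * L))

theorem chkH_sound {L : ℕ} (hL : 2 ≤ L) {e : ℤ} (he : e * e = 1) {A : ℕ → Bool} (hA : A 0 = false)
    {r m : List ℤ} (hr : ∀ k, k < r.length → mom L e A k = r.getD k 0) {s K lo Y hi a b : ℕ}
    {nl ne nu : List ℕ} (h : chkH s K L r m nl lo ne Y nu hi a b = true) :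
    (a : ℝ) / 10 ^ 9 ≤ EN L e A ∧ EN L e A ≤ (b : ℝ) / 10 ^ 9 := by
  unfold chkH at h
  simp only [Bool.and_eq_true, decide_eq_true_eq, List.all_eq_true, List.mem_range,
    Bool.or_eq_true] at h
  obtain ⟨⟨⟨⟨⟨⟨⟨h1, h2⟩, h3⟩, h4⟩, h5⟩, h6⟩, h7⟩, h8⟩ := h
  obtain ⟨g1, g2⟩ := bnd_H L hL e he A hA s K h1 h2 m fun k hk => by rw [h4 k hk, hr k (by omega)]
  have hR : (0 : ℝ) < R0 ^ (2 * L) := pow_pos R0_pos _
  have h9 := g2 _ _ _ _ h6 h7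
  have h10 : (10 : ℝ) ^ 9 * (2 * hi) ≤ b * R0 ^ (2 * L) := by unfold R0; exact_mod_cast h8
  unfold EN
  refine ⟨?_, by rw [div_le_div_iff₀ hR (by norm_num)]; nlinarith⟩
  rcases h5 with rfl | ⟨h5, h5'⟩
  · simpa using div_nonneg (exY_nonneg L hL e he A) hR.le
  have h11 := g1 _ _ h5
  have h12 : (a : ℝ) * R0 ^ (2 * L) ≤ 10 ^ 9 * (2 * lo) := by unfold R0; exact_mod_cast h5'
  rw [div_le_div_iff₀ (by norm_num) hR]
  nlinarith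

/-- all checks for a flip sector -/
noncomputable def chkP (s K L : ℕ) (σ : ℤ) (N : ℕ) (rP rF m : List ℤ) (nl : List ℕ) (lo : ℕ)
    (ne : List ℕ) (Y : ℕ) (nu : List ℕ) (hi a b : ℕ) : Bool :=
  decide (0 < s) && decide (0 < K) && decide (m.length ≤ rP.length) && decide (m.length ≤ rF.length) &&
  decide (0 < m.length) && decide (rP.getD 0 0 - σ * rF.getD 0 0 = N) &&
  (List.range m.length).all
    (fun k => decide (2 * m.getD k 0 = rP.getD k 0 + σ * rF.getD k 0 + N * (L : ℤ) ^ k)) &&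
  lowChk s K L m nl lo && decide (a * 810919 ^ (2 * L) + 10 ^ 9 * (N * 3 ^ (16 * L)) ≤ 10 ^ 9 * (2 * lo)) &&
  edgeChk s L m ne Y && upChk s K L m nu Y hi && decide (10 ^ 9 * (2 * hi) ≤ b * 810919 ^ (2 * L))

theorem chkP_sound {L : ℕ} (hL : 2 ≤ L) {e : ℤ} (he : e * e = 1) {σ : ℤ} (hσ : σ = 1 ∨ σ = -1)
    {rP rF m : List ℤ} (hP : ∀ k, k < rP.length → mom L e A0 k = rP.getD k 0)
    (hF : ∀ k, k < rF.length → momF L e k = rF.getD k 0) {s K N lo Y hi a b : ℕ}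
    {nl ne nu : List ℕ} (h : chkP s K L σ N rP rF m nl lo ne Y nu hi a b = true) :
    (a : ℝ) / 10 ^ 9 ≤ PN L e σ ∧ PN L e σ ≤ (b : ℝ) / 10 ^ 9 := by
  unfold chkP at h
  simp only [Bool.and_eq_true, decide_eq_true_eq, List.all_eq_true, List.mem_range] at h
  obtain ⟨⟨⟨⟨⟨⟨⟨⟨⟨⟨⟨h1, h2⟩, h3⟩, h3'⟩, h0⟩, hN⟩, h4⟩, h5⟩, h5'⟩, h6⟩, h7⟩, h8⟩ := h
  obtain ⟨g1, g2⟩ := bnd_P L hL e he σ hσ s K h1 h2 N (by rw [hP 0 (by omega), hF 0 (by omega), hN]) m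
    fun k hk => by rw [h4 k hk, hP k (by omega), hF k (by omega)]
  have hR : (0 : ℝ) < R0 ^ (2 * L) := pow_pos R0_pos _
  have h9 := g2 _ _ _ _ h6 h7
  have h10 : (10 : ℝ) ^ 9 * (2 * hi) ≤ b * R0 ^ (2 * L) := by unfold R0; exact_mod_cast h8
  have h11 := g1 _ _ h5
  have h12 : (a : ℝ) * R0 ^ (2 * L) + 10 ^ 9 * (N * 3 ^ (16 * L)) ≤ 10 ^ 9 * (2 * lo) := by
    unfold R0; exact_mod_cast h5'
  unfold PN
  exact ⟨by rw [div_le_div_iff₀ (by norm_num) hR]; nlinarith,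
    by rw [div_le_div_iff₀ hR (by norm_num)]; nlinarith⟩

theorem Zn_two (g h : Fin 4) (L : ℕ) :
    Zn g h 2 L = Zf g h 8 L * Real.exp (16 * L) / R0 ^ (2 * L) := by
  unfold Zn
  rw [div_pow, ← Real.exp_nat_mul, mul_div_assoc]
  congr 3
  · norm_num
  · push_cast; ring

/-- the five space sectors at `n = 2` in terms of magnetisation sectors; `e = (-1) ^ L` -/
theorem Zn_lin (L : ℕ) (hL : 2 ≤ L) (e : ℤ) (he : e = (-1) ^ L) :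
    ∃ δ : ℝ, |δ| ≤ EN L (-e) A2 ∧
    Zn 0 0 2 L = (PN L e e + 3 * PN L e (-e)) / 2 + 2 * EN L e Ae ∧
    Zn 3 0 2 L = (PN L e e - PN L e (-e)) / 2 ∧
    Zn 0 3 2 L = (PN L (-e) e + PN L (-e) (-e)) / 2 + EN L (-e) A1 + EN L (-e) A2 ∧
    Zn 3 3 2 L = (PN L (-e) e + PN L (-e) (-e)) / 2 - EN L (-e) A1 + δ ∧
    Zn 1 3 2 L = (PN L (-e) e - PN L (-e) (-e)) / 2 := by
  have hee : (-e) * (-e) = 1 := by rw [he, neg_mul_neg, ← mul_pow]; simp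
  obtain ⟨a1, a2, a3, -⟩ := Zf_exY L hL 0 (Or.inl rfl) e (by simp [he])
  obtain ⟨b1, b2, b3, b4⟩ := Zf_exY L hL 3 (Or.inr rfl) (-e) (by simp [he])
  have hc : Zf 1 0 8 L = Zf 3 0 8 L := by rw [Zf_class 1 0]; simp
  have hR : (0 : ℝ) < R0 ^ (2 * L) := pow_pos R0_pos _
  have n1 := exY_nonneg L hL _ hee Ae
  have n2 := exY_nonneg L hL _ hee Ao
  have he' : ((-1 : ℝ)) ^ L = (e : ℝ) := by rw [he]; push_cast; rfl
  rw [he'] at a3 b3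
  rw [hc] at a3
  refine ⟨(exY L (mom L (-e) Ae) - exY L (mom L (-e) Ao)) / R0 ^ (2 * L), ?_, ?_, ?_, ?_, ?_, ?_⟩
  · unfold EN
    rw [abs_div, abs_of_pos hR, b4]
    exact div_le_div_of_nonneg_right (abs_le.2 ⟨by linarith, by linarith⟩) hR.le
  all_goals
    rw [Zn_two]
    simp only [PN, EN]
    push_cast
    field_simp
    linarith

/-- interval data for the five space sectors at length `L`, in units of `10 ^ (-9) / 8` -/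
theorem boxes (L : ℕ) (hL : 2 ≤ L) (e : ℤ) (he : e = (-1) ^ L) {p0 p0' m0 m0' p3 p3' m3 m3' e1 e1' ee e2 : ℝ}
    (hp0 : p0 ≤ PN L e e ∧ PN L e e ≤ p0') (hm0 : m0 ≤ PN L e (-e) ∧ PN L e (-e) ≤ m0')
    (hp3 : p3 ≤ PN L (-e) e ∧ PN L (-e) e ≤ p3') (hm3 : m3 ≤ PN L (-e) (-e) ∧ PN L (-e) (-e) ≤ m3')
    (h1 : e1 ≤ EN L (-e) A1 ∧ EN L (-e) A1 ≤ e1') (hE : 0 ≤ EN L e Ae ∧ EN L e Ae ≤ ee)
    (h2 : EN L (-e) A2 ≤ e2) :
    ((p0 + 3 * m0 + 3 * p3 + 3 * m3 + 6 * e1) / 8 ≤ (Zn 0 0 2 L + 3 * Zn 0 3 2 L) / 4 ∧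
      (Zn 0 0 2 L + 3 * Zn 0 3 2 L) / 4 ≤ (p0' + 3 * m0' + 4 * ee + 3 * p3' + 3 * m3' + 6 * e1' + 6 * e2) / 8) ∧
    ((p0 + 3 * m0 - p3' - m3' - 2 * e1' - 2 * e2) / 8 ≤ (Zn 0 0 2 L - Zn 0 3 2 L) / 4 ∧
      (Zn 0 0 2 L - Zn 0 3 2 L) / 4 ≤ (p0' + 3 * m0' + 4 * ee - p3 - m3 - 2 * e1) / 8) ∧
    ((p0 - m0' + 3 * p3 - m3' - 2 * e1' - 2 * e2) / 8 ≤ (Zn 3 0 2 L + Zn 3 3 2 L + 2 * Zn 1 3 2 L) / 4 ∧
      (Zn 3 0 2 L + Zn 3 3 2 L + 2 * Zn 1 3 2 L) / 4 ≤ (p0' - m0 + 3 * p3' - m3 - 2 * e1 + 2 * e2) / 8) ∧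
    ((p0 - m0' - p3' + 3 * m3 - 2 * e1' - 2 * e2) / 8 ≤ (Zn 3 0 2 L + Zn 3 3 2 L - 2 * Zn 1 3 2 L) / 4 ∧
      (Zn 3 0 2 L + Zn 3 3 2 L - 2 * Zn 1 3 2 L) / 4 ≤ (p0' - m0 - p3 + 3 * m3' - 2 * e1 + 2 * e2) / 8) ∧
    ((p0 - m0' - p3' - m3' + 2 * e1 - 2 * e2) / 8 ≤ (Zn 3 0 2 L - Zn 3 3 2 L) / 4 ∧
      (Zn 3 0 2 L - Zn 3 3 2 L) / 4 ≤ (p0' - m0 - p3 - m3 + 2 * e1' + 2 * e2) / 8) := by
  obtain ⟨δ, hδ, z1, z2, z3, z4, z5⟩ := Zn_lin L hL e he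
  have h0 := (abs_nonneg δ).trans hδ
  rw [abs_le] at hδ
  rw [z1, z2, z3, z4, z5]
  obtain ⟨_, _⟩ := hp0
  obtain ⟨_, _⟩ := hm0
  obtain ⟨_, _⟩ := hp3
  obtain ⟨_, _⟩ := hm3
  obtain ⟨_, _⟩ := h1
  obtain ⟨_, _⟩ := hE
  obtain ⟨_, _⟩ := hδ
  refine ⟨⟨?_, ?_⟩, ⟨?_, ?_⟩, ⟨?_, ?_⟩, ⟨?_, ?_⟩, ⟨?_, ?_⟩⟩ <;> linarith

end Vale.Agent.P348
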