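import Vale.Agent.P348.Tens

/-! Change of basis.
Over `ℂ`, with `2 * c * c = 1`, the matrix `V c p` (`p = ± 1`) has columns `p c (1, -I, 0)`,
`(0, 0, 1)`, `-p c (1, I, 0)` (Cartesian components of the states with digit `0, 1, 2`).
With `W = tens fun j => V c ((-1) ^ j.val)` one gets `W * (L • 1 - yB L e) = Hr h * W`.
`yB_psd`: for one bond with sign `η`, `η ^ 2 = 1`, `D = Z1 - Z2`, `C = U1 + η U2`:
`2 - Z1 Z2 + η (U1 D2 + D1 U2) = (D D + C Cᵀ + Cᵀ C) / 2` because `Z Z + U D + D U = 2` on one site. -/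

namespace Vale.Agent.P348

open Matrix

namespace BasisAux

section map

variable {R R' : Type} [CommRing R] [CommRing R'] (f : R →+* R') {L : ℕ}

theorem smul_map (c : R) (A : MC L R) : f.mapMatrix (c • A) = f c • f.mapMatrix A :=
  Matrix.map_smul' f c A (map_mul f)

theorem st_map' (j : Fin L) (A : M3 R) : f.mapMatrix (st j A) = st j (A.map f) := st_map f j A

theorem chi_map (g a : Fin 4) : f (chi g a) = chi g a := by
  unfold chi; split_ifs <;> simp

theorem tw_map (h : Fin 4) (j : Fin L) (a : Fin 4) : f (tw h j a) = tw h j a := by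
  unfold tw; split_ifs
  · exact chi_map f h a
  · exact map_one f

theorem Lm_map (a : Fin 3) : (Lm a : M3 R).map f = Lm a := by
  ext b c; simp [Lm]

theorem gm_map (g : Fin 4) : (gm g : M3 R).map f = gm g := by
  rw [gm, diagonal_map (map_zero f)]
  simp only [chi_map]; rfl

theorem Zm_map : (Zm : M3 R).map f = Zm := by
  ext b c; fin_cases b <;> fin_cases c <;> simp [Zm]

theorem Um_map : (Um : M3 R).map f = Um := by
  ext b c; fin_cases b <;> fin_cases c <;> simp [Um]

theorem Dm_map : (Dm : M3 R).map f = Dm := by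
  ext b c; fin_cases b <;> fin_cases c <;> simp [Dm]

theorem gS_map (g : Fin 4) : (gS g : M3 R).map f = gS g := by
  unfold gS
  split_ifs
  · exact Matrix.map_one f (map_zero f) (map_one f)
  · ext b c; fin_cases b <;> fin_cases c <;> simp
  · ext b c; fin_cases b <;> fin_cases c <;> simp

theorem Hr_map (h : Fin 4) : f.mapMatrix (Hr h L) = Hr h L := by
  simp only [Hr, map_neg, map_sum, smul_map, map_mul, st_map', tw_map, Lm_map]

theorem Gr_map (g : Fin 4) : f.mapMatrix (Gr g L) = Gr g L := by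
  rw [RingHom.mapMatrix_apply, Gr, tens_map]
  simp only [gm_map]; rfl

theorem gS_tens_map (g : Fin 4) :
    f.mapMatrix (tens fun _ : Fin L => gS g) = tens fun _ => gS g := by
  rw [RingHom.mapMatrix_apply, tens_map]
  simp only [gS_map]

theorem yB_map' (e : R) : f.mapMatrix (yB L e) = yB L (f e) := by
  simp only [yB, map_sum, map_add, map_sub, map_one, smul_map, map_mul, st_map', Zm_map, Um_map,
    Dm_map, apply_ite f]

theorem trace_hom (A : MC L R) : f (trace A) = trace (f.mapMatrix A) :=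
  AddMonoidHom.map_trace f A

end map

theorem Hr_spin (h : Fin 4) (L : ℕ) : (Hr h L : MC L ℂ) = ∑ j : Fin L, ∑ a : Fin 3,
    (tw h j a.succ : ℂ) • (st j (spin a) * st (finRotate L j) (spin a)) := by
  have hI : -Complex.I * -Complex.I = -1 := by rw [neg_mul_neg, Complex.I_mul_I]
  simp only [Hr, spin, st_smul, Matrix.smul_mul, Matrix.mul_smul, smul_smul, hI]
  simp only [mul_neg, mul_one, neg_smul, Finset.sum_neg_distrib]

/-- the change of basis on one site -/
noncomputable def V (c p : ℂ) : M3 ℂ :=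
  !![p * c, 0, -(p * c); -(Complex.I * (p * c)), 0, -(Complex.I * (p * c)); 0, 1, 0]

/-- its inverse -/
noncomputable def V' (c p : ℂ) : M3 ℂ :=
  !![p * c, Complex.I * (p * c), 0; 0, 0, 1; -(p * c), Complex.I * (p * c), 0]

theorem spin0 : spin 0 = !![0, 0, 0; 0, 0, -Complex.I; 0, Complex.I, 0] := by
  ext i j; fin_cases i <;> fin_cases j <;> simp [spin, Lm, eps]

theorem spin1 : spin 1 = !![0, 0, Complex.I; 0, 0, 0; -Complex.I, 0, 0] := by
  ext i j; fin_cases i <;> fin_cases j <;> simp [spin, Lm, eps]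

theorem spin2 : spin 2 = !![0, -Complex.I, 0; Complex.I, 0, 0; 0, 0, 0] := by
  ext i j; fin_cases i <;> fin_cases j <;> simp [spin, Lm, eps]

section site

variable {c p : ℂ}

theorem V'_V (h : 2 * (p * c) ^ 2 = 1) : V' c p * V c p = 1 := by
  have hI := Complex.I_mul_I
  unfold V V'
  generalize p * c = q at *
  ext i j
  fin_cases i <;> fin_cases j <;> simp [Matrix.mul_apply, Fin.sum_univ_three]
  · linear_combination h - q ^ 2 * hI
  · linear_combination - q ^ 2 * hI
  · linear_combination - q ^ 2 * hI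
  · linear_combination h - q ^ 2 * hI

theorem V_x (h : 2 * (p * c) ^ 2 = 1) : V c p * ((p * c) • (Um + Dm)) = spin 0 * V c p := by
  have hI := Complex.I_mul_I
  rw [spin0]
  unfold V Um Dm
  generalize p * c = q at *
  ext i j
  fin_cases i <;> fin_cases j <;> simp [Matrix.mul_apply, Fin.sum_univ_three]
  · linear_combination (-Complex.I) * h
  · linear_combination q * hI
  · linear_combination q * hI

theorem V_y (h : 2 * (p * c) ^ 2 = 1) :
    V c p * ((p * c * -Complex.I) • (Um - Dm)) = spin 1 * V c p := by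
  rw [spin1]
  unfold V Um Dm
  generalize p * c = q at *
  ext i j
  fin_cases i <;> fin_cases j <;> simp [Matrix.mul_apply, Fin.sum_univ_three]
  · linear_combination Complex.I * h
  · ring
  · ring

theorem V_z : V c p * Zm = spin 2 * V c p := by
  have hI := Complex.I_mul_I
  rw [spin2]
  unfold V Zm
  generalize p * c = q at *
  ext i j
  fin_cases i <;> fin_cases j <;> simp [Matrix.mul_apply, Fin.sum_univ_three]
  · linear_combination (-q) * hI
  · linear_combination (-q) * hI

theorem V_g {g : Fin 4} (hg : g ≠ 2) : V c p * gS g = gm g * V c p := by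
  unfold V gS gm
  generalize p * c = q at *
  ext i j
  fin_cases g
  · fin_cases i <;> fin_cases j <;> simp [chi]
  · fin_cases i <;> fin_cases j <;> simp [chi, Matrix.mul_apply, Fin.sum_univ_three]
  · exact absurd rfl hg
  · fin_cases i <;> fin_cases j <;> simp [chi, Matrix.mul_apply, Fin.sum_univ_three]

end site

theorem bond_conj {L : ℕ} {c : ℂ} (hc : 2 * c ^ 2 = 1) {p : Fin L → ℂ} (hp : ∀ j, p j ^ 2 = 1)
    (j k : Fin L) (t : ℂ) :
    SemiconjBy (tens fun i => V c (p i))
      (st j Zm * st k Zm + (t * (p j * p k)) • (st j Um * st k Dm + st j Dm * st k Um))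
      (t • (st j (spin 0) * st k (spin 0)) + t • (st j (spin 1) * st k (spin 1))
        + st j (spin 2) * st k (spin 2)) := by
  have h0 : ∀ i, 2 * (p i * c) ^ 2 = 1 := fun i => by
    linear_combination hc + 2 * c ^ 2 * hp i
  have hx : ∀ i, SemiconjBy (tens fun i => V c (p i)) (st i ((p i * c) • (Um + Dm)))
    (st i (spin 0)) := fun i => tens_st _ i _ _ (V_x (h0 i))
  have hy : ∀ i, SemiconjBy (tens fun i => V c (p i))
    (st i ((p i * c * -Complex.I) • (Um - Dm))) (st i (spin 1)) :=
    fun i => tens_st _ i _ _ (V_y (h0 i))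
  have hz : ∀ i, SemiconjBy (tens fun i => V c (p i)) (st i Zm) (st i (spin 2)) :=
    fun i => tens_st _ i _ _ V_z
  have h := ((((hx j).mul_right (hx k)).smul_right t).add_right
    (((hy j).mul_right (hy k)).smul_right t)).add_right ((hz j).mul_right (hz k))
  refine Eq.subst (motive := fun A => SemiconjBy _ A _) ?_ h
  simp only [st_smul, st_add, st_sub, Matrix.smul_mul, Matrix.mul_smul, Matrix.add_mul,
    Matrix.mul_add, Matrix.sub_mul, Matrix.mul_sub]
  have hI := Complex.I_mul_I
  match_scalars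
  all_goals first
    | ring1
    | linear_combination (t * p j * p k * c ^ 2) * hI
    | linear_combination (t * p j * p k) * (hc - c ^ 2 * hI)

theorem semiconj_sum {M ι : Type} [Semiring M] (W : M) (s : Finset ι) {A B : ι → M}
    (h : ∀ i ∈ s, SemiconjBy W (A i) (B i)) : SemiconjBy W (∑ i ∈ s, A i) (∑ i ∈ s, B i) := by
  unfold SemiconjBy
  rw [Finset.mul_sum, Finset.sum_mul]
  exact Finset.sum_congr rfl h

theorem ham_conj {L : ℕ} {c : ℂ} (hc : 2 * c ^ 2 = 1) {h : Fin 4} (hh : h = 0 ∨ h = 3) :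
    SemiconjBy (tens fun i : Fin L => V c ((-1) ^ i.val))
      ((L : ℂ) • (1 : MC L ℂ) + (-1 : ℂ) • yB L ((if h = 0 then 1 else -1) * (-1) ^ L))
      (Hr h L) := by
  have h1 : (L : ℂ) • (1 : MC L ℂ) + (-1 : ℂ) • yB L ((if h = 0 then 1 else -1) * (-1) ^ L)
      = ∑ j : Fin L, (st j Zm * st (finRotate L j) Zm
        + ((tw h j 1 : ℂ) * ((-1) ^ j.val * (-1) ^ (finRotate L j).val)) •
          (st j Um * st (finRotate L j) Dm + st j Dm * st (finRotate L j) Um)) := by
    have h2 : (L : ℂ) • (1 : MC L ℂ) = ∑ _j : Fin L, 1 := by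
      rw [Finset.sum_const, Finset.card_univ, Fintype.card_fin, Nat.cast_smul_eq_nsmul]
    rw [h2, yB, Finset.smul_sum, ← Finset.sum_add_distrib]
    refine Finset.sum_congr rfl fun j _ => ?_
    have h3 : ((tw h j 1 : ℂ) * ((-1) ^ j.val * (-1) ^ (finRotate L j).val))
        = -(if j.val + 1 = L then (if h = 0 then 1 else -1) * (-1) ^ L else 1) := by
      rw [finRotate_val, tw]
      by_cases hj : j.val + 1 = L
      · have h4 : (-1 : ℂ) ^ L = (-1) ^ j.val * -1 := by rw [← pow_succ, hj]
        simp only [hj, if_true, h4]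
        rcases hh with rfl | rfl <;> simp [chi]
      · simp only [hj, if_false]
        rw [← pow_add, one_mul]
        exact Odd.neg_one_pow ⟨j.val, by ring⟩
    rw [h3]
    module
  rw [h1, Hr_spin]
  refine semiconj_sum _ _ fun j _ => ?_
  have h5 : (tw h j (Fin.succ 1) : ℂ) = tw h j 1 := by
    unfold tw
    rcases hh with rfl | rfl <;> simp [chi]
  have h6 : (tw h j (Fin.succ 2) : ℂ) = 1 := by
    unfold tw
    rcases hh with rfl | rfl <;> simp [chi]
  rw [Fin.sum_univ_three, h5, h6, one_smul]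
  exact bond_conj hc (p := fun i => (-1) ^ i.val)
    (fun i => by rw [← pow_mul, mul_comm, pow_mul]; simp) j _ _

theorem trace_conj {n : Type} [Fintype n] [DecidableEq n] {W W' A B : Matrix n n ℂ}
    (hW : W' * W = 1) (h : SemiconjBy W A B) : trace B = trace A := by
  rw [← Matrix.mul_one B, ← mul_eq_one_comm.mp hW, ← Matrix.mul_assoc, ← h.eq, trace_mul_comm,
    ← Matrix.mul_assoc, hW, Matrix.one_mul]

theorem Um_transpose : (Um : M3 ℝ)ᵀ = Dm := by
  ext i j; fin_cases i <;> fin_cases j <;> simp [Um, Dm]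

theorem Zm_transpose : (Zm : M3 ℝ)ᵀ = Zm := by
  ext i j; fin_cases i <;> fin_cases j <;> simp [Zm]

theorem casimir : (Zm * Zm + Um * Dm + Dm * Um : M3 ℝ) = (2 : ℝ) • 1 := by
  ext i j
  fin_cases i <;> fin_cases j <;> simp [Zm, Um, Dm] <;> norm_num

theorem st_casimir {L : ℕ} (j : Fin L) : (st j Zm * st j Zm : MC L ℝ)
    = (2 : ℝ) • 1 - st j Um * st j Dm - st j Dm * st j Um := by
  have := congrArg (st j) casimir
  rw [st_add, st_add, st_smul, st_one, ← st_mul, ← st_mul, ← st_mul] at this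
  rw [← this]; abel

end BasisAux

open BasisAux

theorem ham_spin (L : ℕ) : ham spin L = (Hr 0 L : MC L ℝ).map Complex.ofRealHom := by
  rw [← RingHom.mapMatrix_apply, Hr_map, Hr_spin]
  simp only [ham, site_eq_st, tw, chi, true_or, if_true, ite_self, one_smul]

theorem tau_eq (g h : Fin 4) (hg : g ≠ 2) (hh : h = 0 ∨ h = 3) (L : ℕ) (hL : 2 ≤ L) (k : ℕ) :
    tau g h L k = trace (((L : ℝ) • (1 : MC L ℝ) +
      (-1 : ℝ) • yB L ((if h = 0 then 1 else -1) * (-1) ^ L)) ^ k * tens fun _ => gS g) := by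
  have _ := hL
  obtain ⟨c, hc⟩ : ∃ c : ℂ, 2 * c ^ 2 = 1 := by
    obtain ⟨c, hc⟩ := IsAlgClosed.exists_pow_nat_eq (1 / 2 : ℂ) (n := 2) (by norm_num)
    exact ⟨c, by rw [hc]; norm_num⟩
  refine Complex.ofRealHom.injective ?_
  rw [tau, trace_hom, trace_hom]
  simp only [map_mul, map_pow, map_add, smul_map, map_one, Hr_map, Gr_map, gS_tens_map, yB_map',
    map_natCast, map_neg, apply_ite Complex.ofRealHom]
  refine trace_conj (W := tens fun i : Fin L => V c ((-1) ^ i.val))
    (W' := tens fun i : Fin L => V' c ((-1) ^ i.val)) ?_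
    (((ham_conj hc hh).pow_right k).mul_right ?_)
  · rw [tens_mul, ← tens_one]
    congr 1; funext i
    refine V'_V ?_
    rw [mul_pow, ← pow_mul, mul_comm i.val, pow_mul]
    simpa using hc
  · unfold SemiconjBy
    rw [Gr, tens_mul, tens_mul]
    congr 1; funext i
    exact V_g hg

theorem bond_psd {L : ℕ} {j k : Fin L} (hjk : j ≠ k) (e : ℝ) (he : e ^ 2 = 1) :
    ((2 : ℝ) • (1 : MC L ℝ) - st j Zm * st k Zm +
      e • (st j Um * st k Dm + st j Dm * st k Um)).PosSemidef := by
  have h1 := posSemidef_conjTranspose_mul_self (st j Zm - st k Zm : MC L ℝ)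
  have h2 := posSemidef_conjTranspose_mul_self (st j Um + e • st k Um : MC L ℝ)
  have h3 := posSemidef_self_mul_conjTranspose (st j Um + e • st k Um : MC L ℝ)
  have h4 := ((h1.add h2).add h3).smul (by norm_num : (0 : ℝ) ≤ 1 / 2)
  convert h4 using 1
  simp only [conjTranspose_eq_transpose_of_trivial, transpose_sub, transpose_add, transpose_smul,
    st_transpose, Um_transpose, Zm_transpose, Matrix.smul_mul, Matrix.mul_smul, Matrix.add_mul,
    Matrix.mul_add, Matrix.sub_mul, Matrix.mul_sub, st_casimir, ← st_comm hjk]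
  match_scalars
  all_goals first
    | ring1
    | linear_combination (-1 / 2 : ℝ) * he

theorem yB_psd (L : ℕ) (hL : 2 ≤ L) (e : ℝ) (he : e ^ 2 = 1) :
    ((L : ℝ) • (1 : MC L ℝ) + yB L e).PosSemidef := by
  have h2 : (L : ℝ) • (1 : MC L ℝ) = ∑ _j : Fin L, 1 := by
    rw [Finset.sum_const, Finset.card_univ, Fintype.card_fin, Nat.cast_smul_eq_nsmul]
  rw [h2, yB, ← Finset.sum_add_distrib]
  refine posSemidef_sum _ fun j _ => ?_
  have h := bond_psd (finRotate_ne hL j) (if j.val + 1 = L then e else 1)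
    (by split_ifs; exacts [he, one_pow 2])
  convert h using 1
  module

theorem yB_map (L : ℕ) (e : ℤ) : (yB L e : MC L ℤ).map (Int.castRingHom ℝ) = yB L (e : ℝ) :=
  yB_map' (Int.castRingHom ℝ) e

end Vale.Agent.P348
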