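import Vale.Agent.P348.Chk

/-! Generated: blocks of amplitudes on the last five sites, one digit-sum class per block. -/

set_option maxRecDepth 100000
set_option linter.unusedVariables false

namespace Vale.Agent.P348

inductive B | mk (x0 x1 x2 x3 x4 x5 x6 x7 x8 x9 x10 x11 x12 x13 x14 x15 x16 x17 x18 x19 x20 x21 x22 x23 x24 x25 x26 x27 x28 x29 x30 x31 x32 x33 x34 x35 x36 x37 x38 x39 x40 x41 x42 x43 x44 x45 x46 x47 x48 x49 x50 : Nat)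

abbrev FB := Nat → Nat → Nat → Nat → Nat → Nat → Nat → Nat → Nat → Nat → Nat → Nat → Nat → Nat → Nat → Nat → Nat → Nat → Nat → Nat → Nat → Nat → Nat → Nat → Nat → Nat → Nat → Nat → Nat → Nat → Nat → Nat → Nat → Nat → Nat → Nat → Nat → Nat → Nat → Nat → Nat → Nat → Nat → Nat → Nat → Nat → Nat → Nat → Nat → Nat → Nat → B
noncomputable def zeroB : B := B.mk 0 0 0 0 0 0 0 0 0 0 0 0 0 0 0 0 0 0 0 0 0 0 0 0 0 0 0 0 0 0 0 0 0 0 0 0 0 0 0 0 0 0 0 0 0 0 0 0 0 0 0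
noncomputable def negC (M a0 a1 a2 a3 a4 a5 a6 a7 a8 a9 a10 a11 a12 a13 a14 a15 a16 a17 a18 a19 a20 a21 a22 a23 a24 a25 a26 a27 a28 a29 a30 a31 a32 a33 a34 a35 a36 a37 a38 a39 a40 a41 a42 a43 a44 a45 a46 a47 a48 a49 a50 : Nat) : B := B.mk (Nat.sub M a0) (Nat.sub M a1) (Nat.sub M a2) (Nat.sub M a3) (Nat.sub M a4) (Nat.sub M a5) (Nat.sub M a6) (Nat.sub M a7) (Nat.sub M a8) (Nat.sub M a9) (Nat.sub M a10) (Nat.sub M a11) (Nat.sub M a12) (Nat.sub M a13) (Nat.sub M a14) (Nat.sub M a15) (Nat.sub M a16) (Nat.sub M a17) (Nat.sub M a18) (Nat.sub M a19) (Nat.sub M a20) (Nat.sub M a21) (Nat.sub M a22) (Nat.sub M a23) (Nat.sub M a24) (Nat.sub M a25) (Nat.sub M a26) (Nat.sub M a27) (Nat.sub M a28) (Nat.sub M a29) (Nat.sub M a30) (Nat.sub M a31) (Nat.sub M a32) (Nat.sub M a33) (Nat.sub M a34) (Nat.sub M a35) (Nat.sub M a36) (Nat.sub M a37) (Nat.sub M a38) (Nat.sub M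 a39) (Nat.sub M a40) (Nat.sub M a41) (Nat.sub M a42) (Nat.sub M a43) (Nat.sub M a44) (Nat.sub M a45) (Nat.sub M a46) (Nat.sub M a47) (Nat.sub M a48) (Nat.sub M a49) (Nat.sub M a50)
noncomputable def negB (M : Nat) (a : B) : B := B.rec (motive := fun _ => B) (negC M) a
noncomputable def mkB (f : Nat → Nat) : B := B.mk (f 0) (f 1) (f 2) (f 3) (f 4) (f 5) (f 6) (f 7) (f 8) (f 9) (f 10) (f 11) (f 12) (f 13) (f 14) (f 15) (f 16) (f 17) (f 18) (f 19) (f 20) (f 21) (f 22) (f 23) (f 24) (f 25) (f 26) (f 27) (f 28) (f 29) (f 30) (f 31) (f 32) (f 33) (f 34) (f 35) (f 36) (f 37) (f 38) (f 39) (f 40) (f 41) (f 42) (f 43) (f 44) (f 45) (f 46) (f 47) (f 48) (f 49) (f 50)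
noncomputable def getB (b : B) (i : Nat) : Nat := B.rec (motive := fun _ => Nat) (fun x0 x1 x2 x3 x4 x5 x6 x7 x8 x9 x10 x11 x12 x13 x14 x15 x16 x17 x18 x19 x20 x21 x22 x23 x24 x25 x26 x27 x28 x29 x30 x31 x32 x33 x34 x35 x36 x37 x38 x39 x40 x41 x42 x43 x44 x45 x46 x47 x48 x49 x50 => (Bool.rec (motive := fun _ => Nat) (Bool.rec (motive := fun _ => Nat) (Bool.rec (motive := fun _ => Nat) (Bool.rec (motive := fun _ => Nat) (Bool.rec (motive := fun _ => Nat) x0 (Bool.rec (motive := fun _ => Nat) x1 x2 (Nat.ble 2 i)) (Nat.ble 1 i)) (Bool.rec (motive := fun _ => Nat) x3 (Bool.rec (motive := fun _ => Nat) x4 x5 (Nat.ble 5 i)) (Nat.ble 4 i)) (Nat.ble 3 i)) (Bool.rec (motive := fun _ => Nat) (Bool.rec (motive := fun _ => Nat) x6 (Bool.rec (motive := fun _ => Nat) x7 x8 (Nat.ble 8 i)) (Nat.ble 7 i)) (Bool.rec (motive := fun _ => Nat) x9 (Bool.rec (motive := fun _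 => Nat) x10 x11 (Nat.ble 11 i)) (Nat.ble 10 i)) (Nat.ble 9 i)) (Nat.ble 6 i)) (Bool.rec (motive := fun _ => Nat) (Bool.rec (motive := fun _ => Nat) (Bool.rec (motive := fun _ => Nat) x12 (Bool.rec (motive := fun _ => Nat) x13 x14 (Nat.ble 14 i)) (Nat.ble 13 i)) (Bool.rec (motive := fun _ => Nat) x15 (Bool.rec (motive := fun _ => Nat) x16 x17 (Nat.ble 17 i)) (Nat.ble 16 i)) (Nat.ble 15 i)) (Bool.rec (motive := fun _ => Nat) (Bool.rec (motive := fun _ => Nat) x18 (Bool.rec (motive := fun _ => Nat) x19 x20 (Nat.ble 20 i)) (Nat.ble 19 i)) (Bool.rec (motive := fun _ => Nat) (Bool.rec (motive := fun _ => Nat) x21 x22 (Nat.ble 22 i)) (Bool.rec (motive := fun _ => Nat) x23 x24 (Nat.ble 24 i)) (Nat.ble 23 i)) (Nat.ble 21 i)) (Nat.ble 18 i)) (Nat.ble 12 i)) (Bool.rec (motive := fun _ => Nat) (Bool.rec (motive := fun _ => Nat) (Bool.rec (motive := fun _ => Nat) (Bool.rec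 (motive := fun _ => Nat) x25 (Bool.rec (motive := fun _ => Nat) x26 x27 (Nat.ble 27 i)) (Nat.ble 26 i)) (Bool.rec (motive := fun _ => Nat) x28 (Bool.rec (motive := fun _ => Nat) x29 x30 (Nat.ble 30 i)) (Nat.ble 29 i)) (Nat.ble 28 i)) (Bool.rec (motive := fun _ => Nat) (Bool.rec (motive := fun _ => Nat) x31 (Bool.rec (motive := fun _ => Nat) x32 x33 (Nat.ble 33 i)) (Nat.ble 32 i)) (Bool.rec (motive := fun _ => Nat) (Bool.rec (motive := fun _ => Nat) x34 x35 (Nat.ble 35 i)) (Bool.rec (motive := fun _ => Nat) x36 x37 (Nat.ble 37 i)) (Nat.ble 36 i)) (Nat.ble 34 i)) (Nat.ble 31 i)) (Bool.rec (motive := fun _ => Nat) (Bool.rec (motive := fun _ => Nat) (Bool.rec (motive := fun _ => Nat) x38 (Bool.rec (motive := fun _ => Nat) x39 x40 (Nat.ble 40 i)) (Nat.ble 39 i)) (Bool.rec (motive := fun _ => Nat) x41 (Bool.rec (motive := fun _ => Nat) x42 x43 (Nat.ble 43 i))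 (Nat.ble 42 i)) (Nat.ble 41 i)) (Bool.rec (motive := fun _ => Nat) (Bool.rec (motive := fun _ => Nat) x44 (Bool.rec (motive := fun _ => Nat) x45 x46 (Nat.ble 46 i)) (Nat.ble 45 i)) (Bool.rec (motive := fun _ => Nat) (Bool.rec (motive := fun _ => Nat) x47 x48 (Nat.ble 48 i)) (Bool.rec (motive := fun _ => Nat) x49 x50 (Nat.ble 50 i)) (Nat.ble 49 i)) (Nat.ble 47 i)) (Nat.ble 44 i)) (Nat.ble 38 i)) (Nat.ble 25 i))) b
noncomputable def addBC (a0 a1 a2 a3 a4 a5 a6 a7 a8 a9 a10 a11 a12 a13 a14 a15 a16 a17 a18 a19 a20 a21 a22 a23 a24 a25 a26 a27 a28 a29 a30 a31 a32 a33 a34 a35 a36 a37 a38 a39 a40 a41 a42 a43 a44 a45 a46 a47 a48 a49 a50 b0 b1 b2 b3 b4 b5 b6 b7 b8 b9 b10 b11 b12 b13 b14 b15 b16 b17 b18 b19 b20 b21 b22 b23 b24 b25 b26 b27 b28 b29 b30 b31 b32 b33 b34 b35 b36 b37 b38 b39 b40 b41 b42 b43 b44 b45 b46 b47 b48 b49 b50 : Nat) : B := B.mk (Nat.add a0 b0)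 (Nat.add a1 b1) (Nat.add a2 b2) (Nat.add a3 b3) (Nat.add a4 b4) (Nat.add a5 b5) (Nat.add a6 b6) (Nat.add a7 b7) (Nat.add a8 b8) (Nat.add a9 b9) (Nat.add a10 b10) (Nat.add a11 b11) (Nat.add a12 b12) (Nat.add a13 b13) (Nat.add a14 b14) (Nat.add a15 b15) (Nat.add a16 b16) (Nat.add a17 b17) (Nat.add a18 b18) (Nat.add a19 b19) (Nat.add a20 b20) (Nat.add a21 b21) (Nat.add a22 b22) (Nat.add a23 b23) (Nat.add a24 b24) (Nat.add a25 b25) (Nat.add a26 b26) (Nat.add a27 b27) (Nat.add a28 b28) (Nat.add a29 b29) (Nat.add a30 b30) (Nat.add a31 b31) (Nat.add a32 b32) (Nat.add a33 b33) (Nat.add a34 b34) (Nat.add a35 b35) (Nat.add a36 b36) (Nat.add a37 b37) (Nat.add a38 b38) (Nat.add a39 b39) (Nat.add a40 b40) (Nat.add a41 b41) (Nat.add a42 b42) (Nat.add a43 b43) (Nat.add a44 b44) (Nat.add a45 b45) (Nat.add a46 b46) (Nat.add a47 b47) (Nat.add a48 b48) (Nat.add a49 b49)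 (Nat.add a50 b50)
noncomputable def addB (a b : B) : B := B.rec (motive := fun _ => B) (B.rec (motive := fun _ => FB) addBC a) b
noncomputable def inn0C (k0 k1 k2 k3 k4 k5 k6 k7 k8 k9 k10 k11 k12 k13 k14 k15 k16 k17 k18 k19 k20 k21 k22 k23 k24 k25 k26 k27 k28 k29 k30 k31 k32 k33 k34 k35 k36 k37 k38 k39 k40 k41 k42 k43 k44 k45 k46 k47 k48 k49 k50 a0 a1 a2 a3 a4 a5 a6 a7 a8 a9 a10 a11 a12 a13 a14 a15 a16 a17 a18 a19 a20 a21 a22 a23 a24 a25 a26 a27 a28 a29 a30 a31 a32 a33 a34 a35 a36 a37 a38 a39 a40 a41 a42 a43 a44 a45 a46 a47 a48 a49 a50 : Nat) : B := B.mk (Nat.mul k0 a0) 0 0 0 0 0 0 0 0 0 0 0 0 0 0 0 0 0 0 0 0 0 0 0 0 0 0 0 0 0 0 0 0 0 0 0 0 0 0 0 0 0 0 0 0 0 0 0 0 0 0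
noncomputable def inn0 (a b : B) : B := B.rec (motive := fun _ => B) (B.rec (motive := fun _ => FB) inn0C a) b
noncomputable def upL0C (a0 a1 a2 a3 a4 a5 a6 a7 a8 a9 a10 a11 a12 a13 a14 a15 a16 a17 a18 a19 a20 a21 a22 a23 a24 a25 a26 a27 a28 a29 a30 a31 a32 a33 a34 a35 a36 a37 a38 a39 a40 a41 a42 a43 a44 a45 a46 a47 a48 a49 a50 b0 b1 b2 b3 b4 b5 b6 b7 b8 b9 b10 b11 b12 b13 b14 b15 b16 b17 b18 b19 b20 b21 b22 b23 b24 b25 b26 b27 b28 b29 b30 b31 b32 b33 b34 b35 b36 b37 b38 b39 b40 b41 b42 b43 b44 b45 b46 b47 b48 b49 b50 : Nat) : B := B.mk (Nat.add a0 b0) 0 0 0 0 0 0 0 0 0 0 0 0 0 0 0 0 0 0 0 0 0 0 0 0 0 0 0 0 0 0 0 0 0 0 0 0 0 0 0 0 0 0 0 0 0 0 0 0 0 0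
noncomputable def upL0 (a b : B) : B := B.rec (motive := fun _ => B) (B.rec (motive := fun _ => FB) upL0C a) b
noncomputable def dnL0C (a0 a1 a2 a3 a4 a5 a6 a7 a8 a9 a10 a11 a12 a13 a14 a15 a16 a17 a18 a19 a20 a21 a22 a23 a24 a25 a26 a27 a28 a29 a30 a31 a32 a33 a34 a35 a36 a37 a38 a39 a40 a41 a42 a43 a44 a45 a46 a47 a48 a49 a50 b0 b1 b2 b3 b4 b5 b6 b7 b8 b9 b10 b11 b12 b13 b14 b15 b16 b17 b18 b19 b20 b21 b22 b23 b24 b25 b26 b27 b28 b29 b30 b31 b32 b33 b34 b35 b36 b37 b38 b39 b40 b41 b42 b43 b44 b45 b46 b47 b48 b49 b50 : Nat) : B := B.mk a0 0 0 0 0 0 0 0 0 0 0 0 0 0 0 0 0 0 0 0 0 0 0 0 0 0 0 0 0 0 0 0 0 0 0 0 0 0 0 0 0 0 0 0 0 0 0 0 0 0 0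
noncomputable def dnL0 (a b : B) : B := B.rec (motive := fun _ => B) (B.rec (motive := fun _ => FB) dnL0C a) b
noncomputable def upR0C (a0 a1 a2 a3 a4 a5 a6 a7 a8 a9 a10 a11 a12 a13 a14 a15 a16 a17 a18 a19 a20 a21 a22 a23 a24 a25 a26 a27 a28 a29 a30 a31 a32 a33 a34 a35 a36 a37 a38 a39 a40 a41 a42 a43 a44 a45 a46 a47 a48 a49 a50 b0 b1 b2 b3 b4 b5 b6 b7 b8 b9 b10 b11 b12 b13 b14 b15 b16 b17 b18 b19 b20 b21 b22 b23 b24 b25 b26 b27 b28 b29 b30 b31 b32 b33 b34 b35 b36 b37 b38 b39 b40 b41 b42 b43 b44 b45 b46 b47 b48 b49 b50 : Nat) : B := B.mk (Nat.add a0 b4) 0 0 0 0 0 0 0 0 0 0 0 0 0 0 0 0 0 0 0 0 0 0 0 0 0 0 0 0 0 0 0 0 0 0 0 0 0 0 0 0 0 0 0 0 0 0 0 0 0 0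
noncomputable def upR0 (a b : B) : B := B.rec (motive := fun _ => B) (B.rec (motive := fun _ => FB) upR0C a) b
noncomputable def dnR0C (a0 a1 a2 a3 a4 a5 a6 a7 a8 a9 a10 a11 a12 a13 a14 a15 a16 a17 a18 a19 a20 a21 a22 a23 a24 a25 a26 a27 a28 a29 a30 a31 a32 a33 a34 a35 a36 a37 a38 a39 a40 a41 a42 a43 a44 a45 a46 a47 a48 a49 a50 b0 b1 b2 b3 b4 b5 b6 b7 b8 b9 b10 b11 b12 b13 b14 b15 b16 b17 b18 b19 b20 b21 b22 b23 b24 b25 b26 b27 b28 b29 b30 b31 b32 b33 b34 b35 b36 b37 b38 b39 b40 b41 b42 b43 b44 b45 b46 b47 b48 b49 b50 : Nat) : B := B.mk a0 0 0 0 0 0 0 0 0 0 0 0 0 0 0 0 0 0 0 0 0 0 0 0 0 0 0 0 0 0 0 0 0 0 0 0 0 0 0 0 0 0 0 0 0 0 0 0 0 0 0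
noncomputable def dnR0 (a b : B) : B := B.rec (motive := fun _ => B) (B.rec (motive := fun _ => FB) dnR0C a) b
noncomputable def inn1C (k0 k1 k2 k3 k4 k5 k6 k7 k8 k9 k10 k11 k12 k13 k14 k15 k16 k17 k18 k19 k20 k21 k22 k23 k24 k25 k26 k27 k28 k29 k30 k31 k32 k33 k34 k35 k36 k37 k38 k39 k40 k41 k42 k43 k44 k45 k46 k47 k48 k49 k50 a0 a1 a2 a3 a4 a5 a6 a7 a8 a9 a10 a11 a12 a13 a14 a15 a16 a17 a18 a19 a20 a21 a22 a23 a24 a25 a26 a27 a28 a29 a30 a31 a32 a33 a34 a35 a36 a37 a38 a39 a40 a41 a42 a43 a44 a45 a46 a47 a48 a49 a50 : Nat) : B := B.mk (Nat.add (Nat.mul k0 a0) a1) (Nat.add (Nat.add (Nat.mul k1 a1) a0) a2) (Nat.add (Nat.add (Nat.mul k2 a2) a1) a3) (Nat.add (Nat.add (Nat.mul k3 a3) a2) a4) (Nat.add (Nat.mul k4 a4) a3) 0 0 0 0 0 0 0 0 0 0 0 0 0 0 0 0 0 0 0 0 0 0 0 0 0 0 0 0 0 0 0 0 0 0 0 0 0 0 0 0 0 0 0 0 0 0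
noncomputable def inn1 (a b : B) : B := B.rec (motive := fun _ => B) (B.rec (motive := fun _ => FB) inn1C a) b
noncomputable def upL1C (a0 a1 a2 a3 a4 a5 a6 a7 a8 a9 a10 a11 a12 a13 a14 a15 a16 a17 a18 a19 a20 a21 a22 a23 a24 a25 a26 a27 a28 a29 a30 a31 a32 a33 a34 a35 a36 a37 a38 a39 a40 a41 a42 a43 a44 a45 a46 a47 a48 a49 a50 b0 b1 b2 b3 b4 b5 b6 b7 b8 b9 b10 b11 b12 b13 b14 b15 b16 b17 b18 b19 b20 b21 b22 b23 b24 b25 b26 b27 b28 b29 b30 b31 b32 b33 b34 b35 b36 b37 b38 b39 b40 b41 b42 b43 b44 b45 b46 b47 b48 b49 b50 : Nat) : B := B.mk (Nat.add a0 b0) (Nat.add a1 b1) (Nat.add a2 b3) (Nat.add a3 b6) (Nat.add a4 b10) 0 0 0 0 0 0 0 0 0 0 0 0 0 0 0 0 0 0 0 0 0 0 0 0 0 0 0 0 0 0 0 0 0 0 0 0 0 0 0 0 0 0 0 0 0 0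
noncomputable def upL1 (a b : B) : B := B.rec (motive := fun _ => B) (B.rec (motive := fun _ => FB) upL1C a) b
noncomputable def dnL1C (a0 a1 a2 a3 a4 a5 a6 a7 a8 a9 a10 a11 a12 a13 a14 a15 a16 a17 a18 a19 a20 a21 a22 a23 a24 a25 a26 a27 a28 a29 a30 a31 a32 a33 a34 a35 a36 a37 a38 a39 a40 a41 a42 a43 a44 a45 a46 a47 a48 a49 a50 b0 b1 b2 b3 b4 b5 b6 b7 b8 b9 b10 b11 b12 b13 b14 b15 b16 b17 b18 b19 b20 b21 b22 b23 b24 b25 b26 b27 b28 b29 b30 b31 b32 b33 b34 b35 b36 b37 b38 b39 b40 b41 b42 b43 b44 b45 b46 b47 b48 b49 b50 : Nat) : B := B.mk (Nat.add a0 b0) a1 a2 a3 a4 0 0 0 0 0 0 0 0 0 0 0 0 0 0 0 0 0 0 0 0 0 0 0 0 0 0 0 0 0 0 0 0 0 0 0 0 0 0 0 0 0 0 0 0 0 0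
noncomputable def dnL1 (a b : B) : B := B.rec (motive := fun _ => B) (B.rec (motive := fun _ => FB) dnL1C a) b
noncomputable def upR1C (a0 a1 a2 a3 a4 a5 a6 a7 a8 a9 a10 a11 a12 a13 a14 a15 a16 a17 a18 a19 a20 a21 a22 a23 a24 a25 a26 a27 a28 a29 a30 a31 a32 a33 a34 a35 a36 a37 a38 a39 a40 a41 a42 a43 a44 a45 a46 a47 a48 a49 a50 b0 b1 b2 b3 b4 b5 b6 b7 b8 b9 b10 b11 b12 b13 b14 b15 b16 b17 b18 b19 b20 b21 b22 b23 b24 b25 b26 b27 b28 b29 b30 b31 b32 b33 b34 b35 b36 b37 b38 b39 b40 b41 b42 b43 b44 b45 b46 b47 b48 b49 b50 : Nat) : B := B.mk (Nat.add a0 b10) (Nat.add a1 b11) (Nat.add a2 b12) (Nat.add a3 b13) (Nat.add a4 b14) 0 0 0 0 0 0 0 0 0 0 0 0 0 0 0 0 0 0 0 0 0 0 0 0 0 0 0 0 0 0 0 0 0 0 0 0 0 0 0 0 0 0 0 0 0 0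
noncomputable def upR1 (a b : B) : B := B.rec (motive := fun _ => B) (B.rec (motive := fun _ => FB) upR1C a) b
noncomputable def dnR1C (a0 a1 a2 a3 a4 a5 a6 a7 a8 a9 a10 a11 a12 a13 a14 a15 a16 a17 a18 a19 a20 a21 a22 a23 a24 a25 a26 a27 a28 a29 a30 a31 a32 a33 a34 a35 a36 a37 a38 a39 a40 a41 a42 a43 a44 a45 a46 a47 a48 a49 a50 b0 b1 b2 b3 b4 b5 b6 b7 b8 b9 b10 b11 b12 b13 b14 b15 b16 b17 b18 b19 b20 b21 b22 b23 b24 b25 b26 b27 b28 b29 b30 b31 b32 b33 b34 b35 b36 b37 b38 b39 b40 b41 b42 b43 b44 b45 b46 b47 b48 b49 b50 : Nat) : B := B.mk a0 a1 a2 a3 (Nat.add a4 b0) 0 0 0 0 0 0 0 0 0 0 0 0 0 0 0 0 0 0 0 0 0 0 0 0 0 0 0 0 0 0 0 0 0 0 0 0 0 0 0 0 0 0 0 0 0 0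
noncomputable def dnR1 (a b : B) : B := B.rec (motive := fun _ => B) (B.rec (motive := fun _ => FB) dnR1C a) b
noncomputable def inn2C (k0 k1 k2 k3 k4 k5 k6 k7 k8 k9 k10 k11 k12 k13 k14 k15 k16 k17 k18 k19 k20 k21 k22 k23 k24 k25 k26 k27 k28 k29 k30 k31 k32 k33 k34 k35 k36 k37 k38 k39 k40 k41 k42 k43 k44 k45 k46 k47 k48 k49 k50 a0 a1 a2 a3 a4 a5 a6 a7 a8 a9 a10 a11 a12 a13 a14 a15 a16 a17 a18 a19 a20 a21 a22 a23 a24 a25 a26 a27 a28 a29 a30 a31 a32 a33 a34 a35 a36 a37 a38 a39 a40 a41 a42 a43 a44 a45 a46 a47 a48 a49 a50 : Nat) : B := B.mk (Nat.add (Nat.mul k0 a0) a1) (Nat.add (Nat.add (Nat.add (Nat.mul k1 a1) a2) a0) a3) (Nat.add (Nat.add (Nat.mul k2 a2) a1) a4) (Nat.add (Nat.add (Nat.add (Nat.mul k3 a3) a4) a1) a6) (Nat.add (Nat.add (Nat.add (Nat.add (Nat.mul k4 a4) a3) a5) a2) a7) (Nat.add (Nat.add (Nat.mul k5 a5) a4) a8) (Nat.add (Nat.add (Nat.add (Nat.mul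 k6 a6) a7) a3) a10) (Nat.add (Nat.add (Nat.add (Nat.add (Nat.mul k7 a7) a6) a8) a4) a11) (Nat.add (Nat.add (Nat.add (Nat.add (Nat.mul k8 a8) a7) a9) a5) a12) (Nat.add (Nat.add (Nat.mul k9 a9) a8) a13) (Nat.add (Nat.add (Nat.mul k10 a10) a11) a6) (Nat.add (Nat.add (Nat.add (Nat.mul k11 a11) a10) a12) a7) (Nat.add (Nat.add (Nat.add (Nat.mul k12 a12) a11) a13) a8) (Nat.add (Nat.add (Nat.add (Nat.mul k13 a13) a12) a14) a9) (Nat.add (Nat.mul k14 a14) a13) 0 0 0 0 0 0 0 0 0 0 0 0 0 0 0 0 0 0 0 0 0 0 0 0 0 0 0 0 0 0 0 0 0 0 0 0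
noncomputable def inn2 (a b : B) : B := B.rec (motive := fun _ => B) (B.rec (motive := fun _ => FB) inn2C a) b
noncomputable def upL2C (a0 a1 a2 a3 a4 a5 a6 a7 a8 a9 a10 a11 a12 a13 a14 a15 a16 a17 a18 a19 a20 a21 a22 a23 a24 a25 a26 a27 a28 a29 a30 a31 a32 a33 a34 a35 a36 a37 a38 a39 a40 a41 a42 a43 a44 a45 a46 a47 a48 a49 a50 b0 b1 b2 b3 b4 b5 b6 b7 b8 b9 b10 b11 b12 b13 b14 b15 b16 b17 b18 b19 b20 b21 b22 b23 b24 b25 b26 b27 b28 b29 b30 b31 b32 b33 b34 b35 b36 b37 b38 b39 b40 b41 b42 b43 b44 b45 b46 b47 b48 b49 b50 : Nat) : B := B.mk a0 (Nat.add a1 b0) (Nat.add a2 b1) (Nat.add a3 b2) (Nat.add a4 b3) (Nat.add a5 b5) (Nat.add a6 b7) (Nat.add a7 b8) (Nat.add a8 b10) (Nat.add a9 b13) (Nat.add a10 b16) (Nat.add a11 b17) (Nat.add a12 b19) (Nat.add a13 b22) (Nat.add a14 b26) 0 0 0 0 0 0 0 0 0 0 0 0 0 0 0 0 0 0 0 0 0 0 0 0 0 0 0 0 0 0 0 0 0 0 0 0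
noncomputable def upL2 (a b : B) : B := B.rec (motive := fun _ => B) (B.rec (motive := fun _ => FB) upL2C a) b
noncomputable def dnL2C (a0 a1 a2 a3 a4 a5 a6 a7 a8 a9 a10 a11 a12 a13 a14 a15 a16 a17 a18 a19 a20 a21 a22 a23 a24 a25 a26 a27 a28 a29 a30 a31 a32 a33 a34 a35 a36 a37 a38 a39 a40 a41 a42 a43 a44 a45 a46 a47 a48 a49 a50 b0 b1 b2 b3 b4 b5 b6 b7 b8 b9 b10 b11 b12 b13 b14 b15 b16 b17 b18 b19 b20 b21 b22 b23 b24 b25 b26 b27 b28 b29 b30 b31 b32 b33 b34 b35 b36 b37 b38 b39 b40 b41 b42 b43 b44 b45 b46 b47 b48 b49 b50 : Nat) : B := B.mk (Nat.add a0 b0) (Nat.add a1 b1) a2 (Nat.add a3 b2) a4 a5 (Nat.add a6 b3) a7 a8 a9 (Nat.add a10 b4) a11 a12 a13 a14 0 0 0 0 0 0 0 0 0 0 0 0 0 0 0 0 0 0 0 0 0 0 0 0 0 0 0 0 0 0 0 0 0 0 0 0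
noncomputable def dnL2 (a b : B) : B := B.rec (motive := fun _ => B) (B.rec (motive := fun _ => FB) dnL2C a) b
noncomputable def upR2C (a0 a1 a2 a3 a4 a5 a6 a7 a8 a9 a10 a11 a12 a13 a14 a15 a16 a17 a18 a19 a20 a21 a22 a23 a24 a25 a26 a27 a28 a29 a30 a31 a32 a33 a34 a35 a36 a37 a38 a39 a40 a41 a42 a43 a44 a45 a46 a47 a48 a49 a50 b0 b1 b2 b3 b4 b5 b6 b7 b8 b9 b10 b11 b12 b13 b14 b15 b16 b17 b18 b19 b20 b21 b22 b23 b24 b25 b26 b27 b28 b29 b30 b31 b32 b33 b34 b35 b36 b37 b38 b39 b40 b41 b42 b43 b44 b45 b46 b47 b48 b49 b50 : Nat) : B := B.mk (Nat.add a0 b16) (Nat.add a1 b17) (Nat.add a2 b18) (Nat.add a3 b19) (Nat.add a4 b20) (Nat.add a5 b21) (Nat.add a6 b22) (Nat.add a7 b23) (Nat.add a8 b24) (Nat.add a9 b25) (Nat.add a10 b26) (Nat.add a11 b27) (Nat.add a12 b28) (Nat.add a13 b29) a14 0 0 0 0 0 0 0 0 0 0 0 0 0 0 0 0 0 0 0 0 0 0 0 0 0 0 0 0 0 0 0 0 0 0 0 0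
noncomputable def upR2 (a b : B) : B := B.rec (motive := fun _ => B) (B.rec (motive := fun _ => FB) upR2C a) b
noncomputable def dnR2C (a0 a1 a2 a3 a4 a5 a6 a7 a8 a9 a10 a11 a12 a13 a14 a15 a16 a17 a18 a19 a20 a21 a22 a23 a24 a25 a26 a27 a28 a29 a30 a31 a32 a33 a34 a35 a36 a37 a38 a39 a40 a41 a42 a43 a44 a45 a46 a47 a48 a49 a50 b0 b1 b2 b3 b4 b5 b6 b7 b8 b9 b10 b11 b12 b13 b14 b15 b16 b17 b18 b19 b20 b21 b22 b23 b24 b25 b26 b27 b28 b29 b30 b31 b32 b33 b34 b35 b36 b37 b38 b39 b40 b41 b42 b43 b44 b45 b46 b47 b48 b49 b50 : Nat) : B := B.mk a0 a1 a2 a3 a4 a5 a6 a7 a8 a9 (Nat.add a10 b0) (Nat.add a11 b1) (Nat.add a12 b2) (Nat.add a13 b3) (Nat.add a14 b4) 0 0 0 0 0 0 0 0 0 0 0 0 0 0 0 0 0 0 0 0 0 0 0 0 0 0 0 0 0 0 0 0 0 0 0 0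
noncomputable def dnR2 (a b : B) : B := B.rec (motive := fun _ => B) (B.rec (motive := fun _ => FB) dnR2C a) b
noncomputable def inn3C (k0 k1 k2 k3 k4 k5 k6 k7 k8 k9 k10 k11 k12 k13 k14 k15 k16 k17 k18 k19 k20 k21 k22 k23 k24 k25 k26 k27 k28 k29 k30 k31 k32 k33 k34 k35 k36 k37 k38 k39 k40 k41 k42 k43 k44 k45 k46 k47 k48 k49 k50 a0 a1 a2 a3 a4 a5 a6 a7 a8 a9 a10 a11 a12 a13 a14 a15 a16 a17 a18 a19 a20 a21 a22 a23 a24 a25 a26 a27 a28 a29 a30 a31 a32 a33 a34 a35 a36 a37 a38 a39 a40 a41 a42 a43 a44 a45 a46 a47 a48 a49 a50 : Nat) : B := B.mk (Nat.add (Nat.add (Nat.mul k0 a0) a1) a2) (Nat.add (Nat.add (Nat.mul k1 a1) a0) a3) (Nat.add (Nat.add (Nat.add (Nat.mul k2 a2) a3) a0) a7) (Nat.add (Nat.add (Nat.add (Nat.add (Nat.add (Nat.mul k3 a3) a4) a2) a5) a1) a8) (Nat.add (Nat.add (Nat.add (Nat.mul k4 a4) a3) a6) a9) (Nat.add (Nat.add (Nat.add (Nat.mul k5 a5) a6)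 a3) a10) (Nat.add (Nat.add (Nat.add (Nat.mul k6 a6) a5) a4) a11) (Nat.add (Nat.add (Nat.add (Nat.mul k7 a7) a8) a2) a16) (Nat.add (Nat.add (Nat.add (Nat.add (Nat.add (Nat.mul k8 a8) a9) a7) a10) a3) a17) (Nat.add (Nat.add (Nat.add (Nat.add (Nat.mul k9 a9) a8) a11) a4) a18) (Nat.add (Nat.add (Nat.add (Nat.add (Nat.add (Nat.mul k10 a10) a11) a8) a13) a5) a19) (Nat.add (Nat.add (Nat.add (Nat.add (Nat.add (Nat.add (Nat.mul k11 a11) a10) a12) a9) a14) a6) a20) (Nat.add (Nat.add (Nat.add (Nat.mul k12 a12) a11) a15) a21) (Nat.add (Nat.add (Nat.add (Nat.mul k13 a13) a14) a10) a22) (Nat.add (Nat.add (Nat.add (Nat.add (Nat.mul k14 a14) a13) a15) a11) a23) (Nat.add (Nat.add (Nat.add (Nat.mul k15 a15) a14) a12) a24) (Nat.add (Nat.add (Nat.mul k16 a16) a17) a7) (Nat.add (Nat.add (Nat.add (Nat.add (Nat.mul k17 a17) a18) a16) a19) a8) (Nat.add (Nat.add (Nat.add (Nat.mul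 k18 a18) a17) a20) a9) (Nat.add (Nat.add (Nat.add (Nat.add (Nat.mul k19 a19) a20) a17) a22) a10) (Nat.add (Nat.add (Nat.add (Nat.add (Nat.add (Nat.mul k20 a20) a19) a21) a18) a23) a11) (Nat.add (Nat.add (Nat.add (Nat.mul k21 a21) a20) a24) a12) (Nat.add (Nat.add (Nat.add (Nat.add (Nat.mul k22 a22) a23) a19) a26) a13) (Nat.add (Nat.add (Nat.add (Nat.add (Nat.add (Nat.mul k23 a23) a22) a24) a20) a27) a14) (Nat.add (Nat.add (Nat.add (Nat.add (Nat.add (Nat.mul k24 a24) a23) a25) a21) a28) a15) (Nat.add (Nat.add (Nat.mul k25 a25) a24) a29) (Nat.add (Nat.add (Nat.mul k26 a26) a27) a22) (Nat.add (Nat.add (Nat.add (Nat.mul k27 a27) a26) a28) a23) (Nat.add (Nat.add (Nat.add (Nat.mul k28 a28) a27) a29) a24) (Nat.add (Nat.add (Nat.mul k29 a29) a28) a25) 0 0 0 0 0 0 0 0 0 0 0 0 0 0 0 0 0 0 0 0 0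
noncomputable def inn3 (a b : B) : B := B.rec (motive := fun _ => B) (B.rec (motive := fun _ => FB) inn3C a) b
noncomputable def upL3C (a0 a1 a2 a3 a4 a5 a6 a7 a8 a9 a10 a11 a12 a13 a14 a15 a16 a17 a18 a19 a20 a21 a22 a23 a24 a25 a26 a27 a28 a29 a30 a31 a32 a33 a34 a35 a36 a37 a38 a39 a40 a41 a42 a43 a44 a45 a46 a47 a48 a49 a50 b0 b1 b2 b3 b4 b5 b6 b7 b8 b9 b10 b11 b12 b13 b14 b15 b16 b17 b18 b19 b20 b21 b22 b23 b24 b25 b26 b27 b28 b29 b30 b31 b32 b33 b34 b35 b36 b37 b38 b39 b40 b41 b42 b43 b44 b45 b46 b47 b48 b49 b50 : Nat) : B := B.mk a0 (Nat.add a1 b0) a2 (Nat.add a3 b1) (Nat.add a4 b2) (Nat.add a5 b3) (Nat.add a6 b4) a7 (Nat.add a8 b6) (Nat.add a9 b7) (Nat.add a10 b8) (Nat.add a11 b9) (Nat.add a12 b11) (Nat.add a13 b13) (Nat.add a14 b14) (Nat.add a15 b16) a16 (Nat.add a17 b19) (Nat.add a18 b20) (Nat.add a19 b21) (Nat.add a20 b22) (Nat.add a21 b24)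 (Nat.add a22 b26) (Nat.add a23 b27) (Nat.add a24 b29) (Nat.add a25 b32) (Nat.add a26 b35) (Nat.add a27 b36) (Nat.add a28 b38) (Nat.add a29 b41) 0 0 0 0 0 0 0 0 0 0 0 0 0 0 0 0 0 0 0 0 0
noncomputable def upL3 (a b : B) : B := B.rec (motive := fun _ => B) (B.rec (motive := fun _ => FB) upL3C a) b
noncomputable def dnL3C (a0 a1 a2 a3 a4 a5 a6 a7 a8 a9 a10 a11 a12 a13 a14 a15 a16 a17 a18 a19 a20 a21 a22 a23 a24 a25 a26 a27 a28 a29 a30 a31 a32 a33 a34 a35 a36 a37 a38 a39 a40 a41 a42 a43 a44 a45 a46 a47 a48 a49 a50 b0 b1 b2 b3 b4 b5 b6 b7 b8 b9 b10 b11 b12 b13 b14 b15 b16 b17 b18 b19 b20 b21 b22 b23 b24 b25 b26 b27 b28 b29 b30 b31 b32 b33 b34 b35 b36 b37 b38 b39 b40 b41 b42 b43 b44 b45 b46 b47 b48 b49 b50 : Nat) : B := B.mk (Nat.add a0 b1) (Nat.add a1 b2) (Nat.add a2 b3) (Nat.add a3 b4) a4 (Nat.add a5 b5) a6 (Nat.add a7 b6) (Nat.add a8 b7) a9 (Nat.add a10 b8)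 a11 a12 (Nat.add a13 b9) a14 a15 (Nat.add a16 b10) (Nat.add a17 b11) a18 (Nat.add a19 b12) a20 a21 (Nat.add a22 b13) a23 a24 a25 (Nat.add a26 b14) a27 a28 a29 0 0 0 0 0 0 0 0 0 0 0 0 0 0 0 0 0 0 0 0 0
noncomputable def dnL3 (a b : B) : B := B.rec (motive := fun _ => B) (B.rec (motive := fun _ => FB) dnL3C a) b
noncomputable def upR3C (a0 a1 a2 a3 a4 a5 a6 a7 a8 a9 a10 a11 a12 a13 a14 a15 a16 a17 a18 a19 a20 a21 a22 a23 a24 a25 a26 a27 a28 a29 a30 a31 a32 a33 a34 a35 a36 a37 a38 a39 a40 a41 a42 a43 a44 a45 a46 a47 a48 a49 a50 b0 b1 b2 b3 b4 b5 b6 b7 b8 b9 b10 b11 b12 b13 b14 b15 b16 b17 b18 b19 b20 b21 b22 b23 b24 b25 b26 b27 b28 b29 b30 b31 b32 b33 b34 b35 b36 b37 b38 b39 b40 b41 b42 b43 b44 b45 b46 b47 b48 b49 b50 : Nat) : B := B.mk (Nat.add a0 b19) (Nat.add a1 b20) (Nat.add a2 b21) (Nat.add a3 b22) (Nat.add a4 b23) (Nat.add a5 b24) (Nat.add a6 b25) (Nat.add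 a7 b26) (Nat.add a8 b27) (Nat.add a9 b28) (Nat.add a10 b29) (Nat.add a11 b30) (Nat.add a12 b31) (Nat.add a13 b32) (Nat.add a14 b33) (Nat.add a15 b34) (Nat.add a16 b35) (Nat.add a17 b36) (Nat.add a18 b37) (Nat.add a19 b38) (Nat.add a20 b39) (Nat.add a21 b40) (Nat.add a22 b41) (Nat.add a23 b42) (Nat.add a24 b43) (Nat.add a25 b44) a26 a27 a28 a29 0 0 0 0 0 0 0 0 0 0 0 0 0 0 0 0 0 0 0 0 0
noncomputable def upR3 (a b : B) : B := B.rec (motive := fun _ => B) (B.rec (motive := fun _ => FB) upR3C a) b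
noncomputable def dnR3C (a0 a1 a2 a3 a4 a5 a6 a7 a8 a9 a10 a11 a12 a13 a14 a15 a16 a17 a18 a19 a20 a21 a22 a23 a24 a25 a26 a27 a28 a29 a30 a31 a32 a33 a34 a35 a36 a37 a38 a39 a40 a41 a42 a43 a44 a45 a46 a47 a48 a49 a50 b0 b1 b2 b3 b4 b5 b6 b7 b8 b9 b10 b11 b12 b13 b14 b15 b16 b17 b18 b19 b20 b21 b22 b23 b24 b25 b26 b27 b28 b29 b30 b31 b32 b33 b34 b35 b36 b37 b38 b39 b40 b41 b42 b43 b44 b45 b46 b47 b48 b49 b50 : Nat) : B := B.mk a0 a1 a2 a3 a4 a5 a6 a7 a8 a9 a10 a11 a12 a13 a14 a15 (Nat.add a16 b0) (Nat.add a17 b1) (Nat.add a18 b2) (Nat.add a19 b3) (Nat.add a20 b4) (Nat.add a21 b5) (Nat.add a22 b6) (Nat.add a23 b7) (Nat.add a24 b8) (Nat.add a25 b9) (Nat.add a26 b10) (Nat.add a27 b11) (Nat.add a28 b12) (Nat.add a29 b13) 0 0 0 0 0 0 0 0 0 0 0 0 0 0 0 0 0 0 0 0 0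
noncomputable def dnR3 (a b : B) : B := B.rec (motive := fun _ => B) (B.rec (motive := fun _ => FB) dnR3C a) b
noncomputable def inn4C (k0 k1 k2 k3 k4 k5 k6 k7 k8 k9 k10 k11 k12 k13 k14 k15 k16 k17 k18 k19 k20 k21 k22 k23 k24 k25 k26 k27 k28 k29 k30 k31 k32 k33 k34 k35 k36 k37 k38 k39 k40 k41 k42 k43 k44 k45 k46 k47 k48 k49 k50 a0 a1 a2 a3 a4 a5 a6 a7 a8 a9 a10 a11 a12 a13 a14 a15 a16 a17 a18 a19 a20 a21 a22 a23 a24 a25 a26 a27 a28 a29 a30 a31 a32 a33 a34 a35 a36 a37 a38 a39 a40 a41 a42 a43 a44 a45 a46 a47 a48 a49 a50 : Nat) : B := B.mk (Nat.add (Nat.mul k0 a0) a1) (Nat.add (Nat.add (Nat.add (Nat.add (Nat.mul k1 a1) a2) a3) a0) a6) (Nat.add (Nat.add (Nat.add (Nat.mul k2 a2) a1) a4) a7) (Nat.add (Nat.add (Nat.add (Nat.mul k3 a3) a4) a1) a8) (Nat.add (Nat.add (Nat.add (Nat.add (Nat.mul k4 a4) a5) a3) a2) a9) (Nat.add (Nat.add (Nat.mul k5 a5) a4) a10) (Nat.add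 (Nat.add (Nat.add (Nat.add (Nat.mul k6 a6) a7) a8) a1) a19) (Nat.add (Nat.add (Nat.add (Nat.add (Nat.mul k7 a7) a6) a9) a2) a20) (Nat.add (Nat.add (Nat.add (Nat.add (Nat.add (Nat.mul k8 a8) a9) a6) a13) a3) a21) (Nat.add (Nat.add (Nat.add (Nat.add (Nat.add (Nat.add (Nat.add (Nat.mul k9 a9) a10) a8) a11) a7) a14) a4) a22) (Nat.add (Nat.add (Nat.add (Nat.add (Nat.add (Nat.mul k10 a10) a9) a12) a15) a5) a23) (Nat.add (Nat.add (Nat.add (Nat.add (Nat.mul k11 a11) a12) a9) a16) a24) (Nat.add (Nat.add (Nat.add (Nat.add (Nat.mul k12 a12) a11) a10) a17) a25) (Nat.add (Nat.add (Nat.add (Nat.mul k13 a13) a14) a8) a26) (Nat.add (Nat.add (Nat.add (Nat.add (Nat.add (Nat.mul k14 a14) a15) a13) a16) a9) a27) (Nat.add (Nat.add (Nat.add (Nat.add (Nat.mul k15 a15) a14) a17) a10) a28) (Nat.add (Nat.add (Nat.add (Nat.add (Nat.mul k16 a16) a17) a14) a11) a29) (Nat.add (Nat.add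 (Nat.add (Nat.add (Nat.add (Nat.mul k17 a17) a16) a18) a15) a12) a30) (Nat.add (Nat.add (Nat.mul k18 a18) a17) a31) (Nat.add (Nat.add (Nat.add (Nat.mul k19 a19) a20) a21) a6) (Nat.add (Nat.add (Nat.add (Nat.mul k20 a20) a19) a22) a7) (Nat.add (Nat.add (Nat.add (Nat.add (Nat.mul k21 a21) a22) a19) a26) a8) (Nat.add (Nat.add (Nat.add (Nat.add (Nat.add (Nat.add (Nat.mul k22 a22) a23) a21) a24) a20) a27) a9) (Nat.add (Nat.add (Nat.add (Nat.add (Nat.mul k23 a23) a22) a25) a28) a10) (Nat.add (Nat.add (Nat.add (Nat.add (Nat.mul k24 a24) a25) a22) a29) a11) (Nat.add (Nat.add (Nat.add (Nat.add (Nat.mul k25 a25) a24) a23) a30) a12) (Nat.add (Nat.add (Nat.add (Nat.add (Nat.mul k26 a26) a27) a21) a35) a13) (Nat.add (Nat.add (Nat.add (Nat.add (Nat.add (Nat.add (Nat.mul k27 a27) a28) a26) a29) a22) a36) a14) (Nat.add (Nat.add (Nat.add (Nat.add (Nat.add (Nat.mul k28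 a28) a27) a30) a23) a37) a15) (Nat.add (Nat.add (Nat.add (Nat.add (Nat.add (Nat.add (Nat.mul k29 a29) a30) a27) a32) a24) a38) a16) (Nat.add (Nat.add (Nat.add (Nat.add (Nat.add (Nat.add (Nat.add (Nat.mul k30 a30) a29) a31) a28) a33) a25) a39) a17) (Nat.add (Nat.add (Nat.add (Nat.add (Nat.mul k31 a31) a30) a34) a40) a18) (Nat.add (Nat.add (Nat.add (Nat.mul k32 a32) a33) a29) a41) (Nat.add (Nat.add (Nat.add (Nat.add (Nat.mul k33 a33) a32) a34) a30) a42) (Nat.add (Nat.add (Nat.add (Nat.mul k34 a34) a33) a31) a43) (Nat.add (Nat.add (Nat.mul k35 a35) a36) a26) (Nat.add (Nat.add (Nat.add (Nat.add (Nat.mul k36 a36) a37) a35) a38) a27) (Nat.add (Nat.add (Nat.add (Nat.mul k37 a37) a36) a39) a28) (Nat.add (Nat.add (Nat.add (Nat.add (Nat.mul k38 a38) a39) a36) a41) a29) (Nat.add (Nat.add (Nat.add (Nat.add (Nat.add (Nat.mul k39 a39) a38) a40) a37) a42) a30) (Nat.add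 (Nat.add (Nat.add (Nat.mul k40 a40) a39) a43) a31) (Nat.add (Nat.add (Nat.add (Nat.mul k41 a41) a42) a38) a32) (Nat.add (Nat.add (Nat.add (Nat.add (Nat.mul k42 a42) a41) a43) a39) a33) (Nat.add (Nat.add (Nat.add (Nat.add (Nat.mul k43 a43) a42) a44) a40) a34) (Nat.add (Nat.mul k44 a44) a43) 0 0 0 0 0 0
noncomputable def inn4 (a b : B) : B := B.rec (motive := fun _ => B) (B.rec (motive := fun _ => FB) inn4C a) b
noncomputable def upL4C (a0 a1 a2 a3 a4 a5 a6 a7 a8 a9 a10 a11 a12 a13 a14 a15 a16 a17 a18 a19 a20 a21 a22 a23 a24 a25 a26 a27 a28 a29 a30 a31 a32 a33 a34 a35 a36 a37 a38 a39 a40 a41 a42 a43 a44 a45 a46 a47 a48 a49 a50 b0 b1 b2 b3 b4 b5 b6 b7 b8 b9 b10 b11 b12 b13 b14 b15 b16 b17 b18 b19 b20 b21 b22 b23 b24 b25 b26 b27 b28 b29 b30 b31 b32 b33 b34 b35 b36 b37 b38 b39 b40 b41 b42 b43 b44 b45 b46 b47 b48 b49 b50 : Nat) : B := B.mk a0 a1 (Nat.add a2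 b0) a3 (Nat.add a4 b1) (Nat.add a5 b2) a6 (Nat.add a7 b3) a8 (Nat.add a9 b4) (Nat.add a10 b5) (Nat.add a11 b6) (Nat.add a12 b7) a13 (Nat.add a14 b9) (Nat.add a15 b10) (Nat.add a16 b11) (Nat.add a17 b12) (Nat.add a18 b14) a19 (Nat.add a20 b16) a21 (Nat.add a22 b17) (Nat.add a23 b18) (Nat.add a24 b19) (Nat.add a25 b20) a26 (Nat.add a27 b22) (Nat.add a28 b23) (Nat.add a29 b24) (Nat.add a30 b25) (Nat.add a31 b27) (Nat.add a32 b29) (Nat.add a33 b30) (Nat.add a34 b32) a35 (Nat.add a36 b35) (Nat.add a37 b36) (Nat.add a38 b37) (Nat.add a39 b38) (Nat.add a40 b40) (Nat.add a41 b42) (Nat.add a42 b43) (Nat.add a43 b45) (Nat.add a44 b48) 0 0 0 0 0 0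
noncomputable def upL4 (a b : B) : B := B.rec (motive := fun _ => B) (B.rec (motive := fun _ => FB) upL4C a) b
noncomputable def dnL4C (a0 a1 a2 a3 a4 a5 a6 a7 a8 a9 a10 a11 a12 a13 a14 a15 a16 a17 a18 a19 a20 a21 a22 a23 a24 a25 a26 a27 a28 a29 a30 a31 a32 a33 a34 a35 a36 a37 a38 a39 a40 a41 a42 a43 a44 a45 a46 a47 a48 a49 a50 b0 b1 b2 b3 b4 b5 b6 b7 b8 b9 b10 b11 b12 b13 b14 b15 b16 b17 b18 b19 b20 b21 b22 b23 b24 b25 b26 b27 b28 b29 b30 b31 b32 b33 b34 b35 b36 b37 b38 b39 b40 b41 b42 b43 b44 b45 b46 b47 b48 b49 b50 : Nat) : B := B.mk (Nat.add a0 b1) (Nat.add a1 b3) (Nat.add a2 b4) (Nat.add a3 b5) (Nat.add a4 b6) a5 (Nat.add a6 b8) (Nat.add a7 b9) (Nat.add a8 b10) (Nat.add a9 b11) a10 (Nat.add a11 b12) a12 (Nat.add a13 b13) (Nat.add a14 b14) a15 (Nat.add a16 b15) a17 a18 (Nat.add a19 b17) (Nat.add a20 b18) (Nat.add a21 b19) (Nat.add a22 b20) a23 (Nat.add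 a24 b21) a25 (Nat.add a26 b22) (Nat.add a27 b23) a28 (Nat.add a29 b24) a30 a31 (Nat.add a32 b25) a33 a34 (Nat.add a35 b26) (Nat.add a36 b27) a37 (Nat.add a38 b28) a39 a40 (Nat.add a41 b29) a42 a43 a44 0 0 0 0 0 0
noncomputable def dnL4 (a b : B) : B := B.rec (motive := fun _ => B) (B.rec (motive := fun _ => FB) dnL4C a) b
noncomputable def upR4C (a0 a1 a2 a3 a4 a5 a6 a7 a8 a9 a10 a11 a12 a13 a14 a15 a16 a17 a18 a19 a20 a21 a22 a23 a24 a25 a26 a27 a28 a29 a30 a31 a32 a33 a34 a35 a36 a37 a38 a39 a40 a41 a42 a43 a44 a45 a46 a47 a48 a49 a50 b0 b1 b2 b3 b4 b5 b6 b7 b8 b9 b10 b11 b12 b13 b14 b15 b16 b17 b18 b19 b20 b21 b22 b23 b24 b25 b26 b27 b28 b29 b30 b31 b32 b33 b34 b35 b36 b37 b38 b39 b40 b41 b42 b43 b44 b45 b46 b47 b48 b49 b50 : Nat) : B := B.mk (Nat.add a0 b16) (Nat.add a1 b17) (Nat.add a2 b18) (Nat.add a3 b19) (Nat.add a4 b20) (Nat.add a5 b21) (Nat.add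 a6 b22) (Nat.add a7 b23) (Nat.add a8 b24) (Nat.add a9 b25) (Nat.add a10 b26) (Nat.add a11 b27) (Nat.add a12 b28) (Nat.add a13 b29) (Nat.add a14 b30) (Nat.add a15 b31) (Nat.add a16 b32) (Nat.add a17 b33) (Nat.add a18 b34) (Nat.add a19 b35) (Nat.add a20 b36) (Nat.add a21 b37) (Nat.add a22 b38) (Nat.add a23 b39) (Nat.add a24 b40) (Nat.add a25 b41) (Nat.add a26 b42) (Nat.add a27 b43) (Nat.add a28 b44) (Nat.add a29 b45) (Nat.add a30 b46) (Nat.add a31 b47) (Nat.add a32 b48) (Nat.add a33 b49) (Nat.add a34 b50) a35 a36 a37 a38 a39 a40 a41 a42 a43 a44 0 0 0 0 0 0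
noncomputable def upR4 (a b : B) : B := B.rec (motive := fun _ => B) (B.rec (motive := fun _ => FB) upR4C a) b
noncomputable def dnR4C (a0 a1 a2 a3 a4 a5 a6 a7 a8 a9 a10 a11 a12 a13 a14 a15 a16 a17 a18 a19 a20 a21 a22 a23 a24 a25 a26 a27 a28 a29 a30 a31 a32 a33 a34 a35 a36 a37 a38 a39 a40 a41 a42 a43 a44 a45 a46 a47 a48 a49 a50 b0 b1 b2 b3 b4 b5 b6 b7 b8 b9 b10 b11 b12 b13 b14 b15 b16 b17 b18 b19 b20 b21 b22 b23 b24 b25 b26 b27 b28 b29 b30 b31 b32 b33 b34 b35 b36 b37 b38 b39 b40 b41 b42 b43 b44 b45 b46 b47 b48 b49 b50 : Nat) : B := B.mk a0 a1 a2 a3 a4 a5 a6 a7 a8 a9 a10 a11 a12 a13 a14 a15 a16 a17 a18 (Nat.add a19 b0) (Nat.add a20 b1) (Nat.add a21 b2) (Nat.add a22 b3) (Nat.add a23 b4) (Nat.add a24 b5) (Nat.add a25 b6) (Nat.add a26 b7) (Nat.add a27 b8) (Nat.add a28 b9) (Nat.add a29 b10) (Nat.add a30 b11) (Nat.add a31 b12) (Nat.add a32 b13) (Nat.add a33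 b14) (Nat.add a34 b15) (Nat.add a35 b16) (Nat.add a36 b17) (Nat.add a37 b18) (Nat.add a38 b19) (Nat.add a39 b20) (Nat.add a40 b21) (Nat.add a41 b22) (Nat.add a42 b23) (Nat.add a43 b24) (Nat.add a44 b25) 0 0 0 0 0 0
noncomputable def dnR4 (a b : B) : B := B.rec (motive := fun _ => B) (B.rec (motive := fun _ => FB) dnR4C a) b
noncomputable def inn5C (k0 k1 k2 k3 k4 k5 k6 k7 k8 k9 k10 k11 k12 k13 k14 k15 k16 k17 k18 k19 k20 k21 k22 k23 k24 k25 k26 k27 k28 k29 k30 k31 k32 k33 k34 k35 k36 k37 k38 k39 k40 k41 k42 k43 k44 k45 k46 k47 k48 k49 k50 a0 a1 a2 a3 a4 a5 a6 a7 a8 a9 a10 a11 a12 a13 a14 a15 a16 a17 a18 a19 a20 a21 a22 a23 a24 a25 a26 a27 a28 a29 a30 a31 a32 a33 a34 a35 a36 a37 a38 a39 a40 a41 a42 a43 a44 a45 a46 a47 a48 a49 a50 : Nat) : B := B.mk (Nat.add (Nat.add (Nat.mul k0 a0) a1) a3) (Nat.add (Nat.add (Nat.add (Nat.mul k1 a1) a2) a0) a4) (Nat.add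 (Nat.add (Nat.mul k2 a2) a1) a5) (Nat.add (Nat.add (Nat.add (Nat.mul k3 a3) a4) a0) a16) (Nat.add (Nat.add (Nat.add (Nat.add (Nat.add (Nat.add (Nat.mul k4 a4) a5) a6) a3) a9) a1) a17) (Nat.add (Nat.add (Nat.add (Nat.add (Nat.add (Nat.mul k5 a5) a4) a7) a10) a2) a18) (Nat.add (Nat.add (Nat.add (Nat.add (Nat.mul k6 a6) a7) a4) a11) a19) (Nat.add (Nat.add (Nat.add (Nat.add (Nat.add (Nat.mul k7 a7) a8) a6) a5) a12) a20) (Nat.add (Nat.add (Nat.add (Nat.mul k8 a8) a7) a13) a21) (Nat.add (Nat.add (Nat.add (Nat.add (Nat.mul k9 a9) a10) a11) a4) a22) (Nat.add (Nat.add (Nat.add (Nat.add (Nat.mul k10 a10) a9) a12) a5) a23) (Nat.add (Nat.add (Nat.add (Nat.add (Nat.mul k11 a11) a12) a9) a6) a24) (Nat.add (Nat.add (Nat.add (Nat.add (Nat.add (Nat.add (Nat.mul k12 a12) a13) a11) a14) a10) a7) a25) (Nat.add (Nat.add (Nat.add (Nat.add (Nat.mul k13 a13) a12) a15) a8) a26)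 (Nat.add (Nat.add (Nat.add (Nat.mul k14 a14) a15) a12) a27) (Nat.add (Nat.add (Nat.add (Nat.mul k15 a15) a14) a13) a28) (Nat.add (Nat.add (Nat.mul k16 a16) a17) a3) (Nat.add (Nat.add (Nat.add (Nat.add (Nat.add (Nat.mul k17 a17) a18) a19) a16) a22) a4) (Nat.add (Nat.add (Nat.add (Nat.add (Nat.mul k18 a18) a17) a20) a23) a5) (Nat.add (Nat.add (Nat.add (Nat.add (Nat.mul k19 a19) a20) a17) a24) a6) (Nat.add (Nat.add (Nat.add (Nat.add (Nat.add (Nat.mul k20 a20) a21) a19) a18) a25) a7) (Nat.add (Nat.add (Nat.add (Nat.mul k21 a21) a20) a26) a8) (Nat.add (Nat.add (Nat.add (Nat.add (Nat.add (Nat.mul k22 a22) a23) a24) a17) a35) a9) (Nat.add (Nat.add (Nat.add (Nat.add (Nat.add (Nat.mul k23 a23) a22) a25) a18) a36) a10) (Nat.add (Nat.add (Nat.add (Nat.add (Nat.add (Nat.add (Nat.mul k24 a24) a25) a22) a29) a19) a37) a11) (Nat.add (Nat.add (Nat.add (Nat.add (Nat.add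 (Nat.add (Nat.add (Nat.add (Nat.mul k25 a25) a26) a24) a27) a23) a30) a20) a38) a12) (Nat.add (Nat.add (Nat.add (Nat.add (Nat.add (Nat.add (Nat.mul k26 a26) a25) a28) a31) a21) a39) a13) (Nat.add (Nat.add (Nat.add (Nat.add (Nat.add (Nat.mul k27 a27) a28) a25) a32) a40) a14) (Nat.add (Nat.add (Nat.add (Nat.add (Nat.add (Nat.mul k28 a28) a27) a26) a33) a41) a15) (Nat.add (Nat.add (Nat.add (Nat.mul k29 a29) a30) a24) a42) (Nat.add (Nat.add (Nat.add (Nat.add (Nat.add (Nat.mul k30 a30) a31) a29) a32) a25) a43) (Nat.add (Nat.add (Nat.add (Nat.add (Nat.mul k31 a31) a30) a33) a26) a44) (Nat.add (Nat.add (Nat.add (Nat.add (Nat.mul k32 a32) a33) a30) a27) a45) (Nat.add (Nat.add (Nat.add (Nat.add (Nat.add (Nat.mul k33 a33) a32) a34) a31) a28) a46) (Nat.add (Nat.add (Nat.mul k34 a34) a33) a47) (Nat.add (Nat.add (Nat.add (Nat.mul k35 a35) a36) a37) a22) (Nat.add (Nat.add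 (Nat.add (Nat.mul k36 a36) a35) a38) a23) (Nat.add (Nat.add (Nat.add (Nat.add (Nat.mul k37 a37) a38) a35) a42) a24) (Nat.add (Nat.add (Nat.add (Nat.add (Nat.add (Nat.add (Nat.mul k38 a38) a39) a37) a40) a36) a43) a25) (Nat.add (Nat.add (Nat.add (Nat.add (Nat.mul k39 a39) a38) a41) a44) a26) (Nat.add (Nat.add (Nat.add (Nat.add (Nat.mul k40 a40) a41) a38) a45) a27) (Nat.add (Nat.add (Nat.add (Nat.add (Nat.mul k41 a41) a40) a39) a46) a28) (Nat.add (Nat.add (Nat.add (Nat.mul k42 a42) a43) a37) a29) (Nat.add (Nat.add (Nat.add (Nat.add (Nat.add (Nat.mul k43 a43) a44) a42) a45) a38) a30) (Nat.add (Nat.add (Nat.add (Nat.add (Nat.mul k44 a44) a43) a46) a39) a31) (Nat.add (Nat.add (Nat.add (Nat.add (Nat.add (Nat.mul k45 a45) a46) a43) a48) a40) a32) (Nat.add (Nat.add (Nat.add (Nat.add (Nat.add (Nat.add (Nat.mul k46 a46) a45) a47) a44) a49) a41) a33) (Nat.add (Nat.add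 (Nat.add (Nat.mul k47 a47) a46) a50) a34) (Nat.add (Nat.add (Nat.mul k48 a48) a49) a45) (Nat.add (Nat.add (Nat.add (Nat.mul k49 a49) a48) a50) a46) (Nat.add (Nat.add (Nat.mul k50 a50) a49) a47)
noncomputable def inn5 (a b : B) : B := B.rec (motive := fun _ => B) (B.rec (motive := fun _ => FB) inn5C a) b
noncomputable def upL5C (a0 a1 a2 a3 a4 a5 a6 a7 a8 a9 a10 a11 a12 a13 a14 a15 a16 a17 a18 a19 a20 a21 a22 a23 a24 a25 a26 a27 a28 a29 a30 a31 a32 a33 a34 a35 a36 a37 a38 a39 a40 a41 a42 a43 a44 a45 a46 a47 a48 a49 a50 b0 b1 b2 b3 b4 b5 b6 b7 b8 b9 b10 b11 b12 b13 b14 b15 b16 b17 b18 b19 b20 b21 b22 b23 b24 b25 b26 b27 b28 b29 b30 b31 b32 b33 b34 b35 b36 b37 b38 b39 b40 b41 b42 b43 b44 b45 b46 b47 b48 b49 b50 : Nat) : B := B.mk a0 a1 (Nat.add a2 b0) a3 a4 (Nat.add a5 b1) a6 (Nat.add a7 b2) (Nat.add a8 b3) a9 (Nat.add a10 b4) a11 (Nat.add a12 b5) (Nat.add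 a13 b6) (Nat.add a14 b7) (Nat.add a15 b8) a16 a17 (Nat.add a18 b10) a19 (Nat.add a20 b11) (Nat.add a21 b12) a22 (Nat.add a23 b13) a24 (Nat.add a25 b14) (Nat.add a26 b15) (Nat.add a27 b16) (Nat.add a28 b17) a29 (Nat.add a30 b19) (Nat.add a31 b20) (Nat.add a32 b21) (Nat.add a33 b22) (Nat.add a34 b24) a35 (Nat.add a36 b26) a37 (Nat.add a38 b27) (Nat.add a39 b28) (Nat.add a40 b29) (Nat.add a41 b30) a42 (Nat.add a43 b32) (Nat.add a44 b33) (Nat.add a45 b34) (Nat.add a46 b35) (Nat.add a47 b37) (Nat.add a48 b39) (Nat.add a49 b40) (Nat.add a50 b42)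
noncomputable def upL5 (a b : B) : B := B.rec (motive := fun _ => B) (B.rec (motive := fun _ => FB) upL5C a) b
noncomputable def dnL5C (a0 a1 a2 a3 a4 a5 a6 a7 a8 a9 a10 a11 a12 a13 a14 a15 a16 a17 a18 a19 a20 a21 a22 a23 a24 a25 a26 a27 a28 a29 a30 a31 a32 a33 a34 a35 a36 a37 a38 a39 a40 a41 a42 a43 a44 a45 a46 a47 a48 a49 a50 b0 b1 b2 b3 b4 b5 b6 b7 b8 b9 b10 b11 b12 b13 b14 b15 b16 b17 b18 b19 b20 b21 b22 b23 b24 b25 b26 b27 b28 b29 b30 b31 b32 b33 b34 b35 b36 b37 b38 b39 b40 b41 b42 b43 b44 b45 b46 b47 b48 b49 b50 : Nat) : B := B.mk (Nat.add a0 b2) (Nat.add a1 b4) (Nat.add a2 b5) (Nat.add a3 b7) (Nat.add a4 b9) (Nat.add a5 b10) (Nat.add a6 b11) (Nat.add a7 b12) a8 (Nat.add a9 b14) (Nat.add a10 b15) (Nat.add a11 b16) (Nat.add a12 b17) a13 (Nat.add a14 b18) a15 (Nat.add a16 b20) (Nat.add a17 b22) (Nat.add a18 b23) (Nat.add a19 b24) (Nat.add a20 b25)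 a21 (Nat.add a22 b27) (Nat.add a23 b28) (Nat.add a24 b29) (Nat.add a25 b30) a26 (Nat.add a27 b31) a28 (Nat.add a29 b32) (Nat.add a30 b33) a31 (Nat.add a32 b34) a33 a34 (Nat.add a35 b36) (Nat.add a36 b37) (Nat.add a37 b38) (Nat.add a38 b39) a39 (Nat.add a40 b40) a41 (Nat.add a42 b41) (Nat.add a43 b42) a44 (Nat.add a45 b43) a46 a47 (Nat.add a48 b44) a49 a50
noncomputable def dnL5 (a b : B) : B := B.rec (motive := fun _ => B) (B.rec (motive := fun _ => FB) dnL5C a) b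
noncomputable def upR5C (a0 a1 a2 a3 a4 a5 a6 a7 a8 a9 a10 a11 a12 a13 a14 a15 a16 a17 a18 a19 a20 a21 a22 a23 a24 a25 a26 a27 a28 a29 a30 a31 a32 a33 a34 a35 a36 a37 a38 a39 a40 a41 a42 a43 a44 a45 a46 a47 a48 a49 a50 b0 b1 b2 b3 b4 b5 b6 b7 b8 b9 b10 b11 b12 b13 b14 b15 b16 b17 b18 b19 b20 b21 b22 b23 b24 b25 b26 b27 b28 b29 b30 b31 b32 b33 b34 b35 b36 b37 b38 b39 b40 b41 b42 b43 b44 b45 b46 b47 b48 b49 b50 : Nat) : B := B.mk (Nat.add a0 b10) (Nat.add a1 b11) (Nat.add a2 b12) (Nat.add a3 b13) (Nat.add a4 b14) (Nat.add a5 b15) (Nat.add a6 b16) (Nat.add a7 b17) (Nat.add a8 b18) (Nat.add a9 b19) (Nat.add a10 b20) (Nat.add a11 b21) (Nat.add a12 b22) (Nat.add a13 b23) (Nat.add a14 b24) (Nat.add a15 b25) (Nat.add a16 b26) (Nat.add a17 b27) (Nat.add a18 b28) (Nat.add a19 b29) (Nat.add a20 b30) (Nat.add a21 b31) (Nat.add a22 b32) (Nat.add a23 b33) (Nat.add a24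 b34) (Nat.add a25 b35) (Nat.add a26 b36) (Nat.add a27 b37) (Nat.add a28 b38) (Nat.add a29 b39) (Nat.add a30 b40) (Nat.add a31 b41) (Nat.add a32 b42) (Nat.add a33 b43) (Nat.add a34 b44) a35 a36 a37 a38 a39 a40 a41 a42 a43 a44 a45 a46 a47 a48 a49 a50
noncomputable def upR5 (a b : B) : B := B.rec (motive := fun _ => B) (B.rec (motive := fun _ => FB) upR5C a) b
noncomputable def dnR5C (a0 a1 a2 a3 a4 a5 a6 a7 a8 a9 a10 a11 a12 a13 a14 a15 a16 a17 a18 a19 a20 a21 a22 a23 a24 a25 a26 a27 a28 a29 a30 a31 a32 a33 a34 a35 a36 a37 a38 a39 a40 a41 a42 a43 a44 a45 a46 a47 a48 a49 a50 b0 b1 b2 b3 b4 b5 b6 b7 b8 b9 b10 b11 b12 b13 b14 b15 b16 b17 b18 b19 b20 b21 b22 b23 b24 b25 b26 b27 b28 b29 b30 b31 b32 b33 b34 b35 b36 b37 b38 b39 b40 b41 b42 b43 b44 b45 b46 b47 b48 b49 b50 : Nat) : B := B.mk a0 a1 a2 a3 a4 a5 a6 a7 a8 a9 a10 a11 a12 a13 a14 a15 (Nat.add a16 b0) (Nat.add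 a17 b1) (Nat.add a18 b2) (Nat.add a19 b3) (Nat.add a20 b4) (Nat.add a21 b5) (Nat.add a22 b6) (Nat.add a23 b7) (Nat.add a24 b8) (Nat.add a25 b9) (Nat.add a26 b10) (Nat.add a27 b11) (Nat.add a28 b12) (Nat.add a29 b13) (Nat.add a30 b14) (Nat.add a31 b15) (Nat.add a32 b16) (Nat.add a33 b17) (Nat.add a34 b18) (Nat.add a35 b19) (Nat.add a36 b20) (Nat.add a37 b21) (Nat.add a38 b22) (Nat.add a39 b23) (Nat.add a40 b24) (Nat.add a41 b25) (Nat.add a42 b26) (Nat.add a43 b27) (Nat.add a44 b28) (Nat.add a45 b29) (Nat.add a46 b30) (Nat.add a47 b31) (Nat.add a48 b32) (Nat.add a49 b33) (Nat.add a50 b34)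
noncomputable def dnR5 (a b : B) : B := B.rec (motive := fun _ => B) (B.rec (motive := fun _ => FB) dnR5C a) b
noncomputable def inn6C (k0 k1 k2 k3 k4 k5 k6 k7 k8 k9 k10 k11 k12 k13 k14 k15 k16 k17 k18 k19 k20 k21 k22 k23 k24 k25 k26 k27 k28 k29 k30 k31 k32 k33 k34 k35 k36 k37 k38 k39 k40 k41 k42 k43 k44 k45 k46 k47 k48 k49 k50 a0 a1 a2 a3 a4 a5 a6 a7 a8 a9 a10 a11 a12 a13 a14 a15 a16 a17 a18 a19 a20 a21 a22 a23 a24 a25 a26 a27 a28 a29 a30 a31 a32 a33 a34 a35 a36 a37 a38 a39 a40 a41 a42 a43 a44 a45 a46 a47 a48 a49 a50 : Nat) : B := B.mk (Nat.add (Nat.mul k0 a0) a1) (Nat.add (Nat.add (Nat.add (Nat.add (Nat.mul k1 a1) a2) a4) a0) a10) (Nat.add (Nat.add (Nat.add (Nat.add (Nat.mul k2 a2) a3) a1) a5) a11) (Nat.add (Nat.add (Nat.add (Nat.mul k3 a3) a2) a6) a12) (Nat.add (Nat.add (Nat.add (Nat.mul k4 a4) a5) a1) a13) (Nat.add (Nat.add (Nat.add (Nat.add (Nat.add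 (Nat.mul k5 a5) a6) a7) a4) a2) a14) (Nat.add (Nat.add (Nat.add (Nat.add (Nat.mul k6 a6) a5) a8) a3) a15) (Nat.add (Nat.add (Nat.add (Nat.mul k7 a7) a8) a5) a16) (Nat.add (Nat.add (Nat.add (Nat.add (Nat.mul k8 a8) a9) a7) a6) a17) (Nat.add (Nat.add (Nat.mul k9 a9) a8) a18) (Nat.add (Nat.add (Nat.add (Nat.mul k10 a10) a11) a13) a1) (Nat.add (Nat.add (Nat.add (Nat.add (Nat.mul k11 a11) a12) a10) a14) a2) (Nat.add (Nat.add (Nat.add (Nat.mul k12 a12) a11) a15) a3) (Nat.add (Nat.add (Nat.add (Nat.add (Nat.mul k13 a13) a14) a10) a26) a4) (Nat.add (Nat.add (Nat.add (Nat.add (Nat.add (Nat.add (Nat.add (Nat.mul k14 a14) a15) a16) a13) a19) a11) a27) a5) (Nat.add (Nat.add (Nat.add (Nat.add (Nat.add (Nat.add (Nat.mul k15 a15) a14) a17) a20) a12) a28) a6) (Nat.add (Nat.add (Nat.add (Nat.add (Nat.add (Nat.mul k16 a16) a17) a14) a21) a29) a7) (Nat.add (Nat.add (Nat.add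 (Nat.add (Nat.add (Nat.add (Nat.mul k17 a17) a18) a16) a15) a22) a30) a8) (Nat.add (Nat.add (Nat.add (Nat.add (Nat.mul k18 a18) a17) a23) a31) a9) (Nat.add (Nat.add (Nat.add (Nat.add (Nat.mul k19 a19) a20) a21) a14) a32) (Nat.add (Nat.add (Nat.add (Nat.add (Nat.mul k20 a20) a19) a22) a15) a33) (Nat.add (Nat.add (Nat.add (Nat.add (Nat.mul k21 a21) a22) a19) a16) a34) (Nat.add (Nat.add (Nat.add (Nat.add (Nat.add (Nat.add (Nat.mul k22 a22) a23) a21) a24) a20) a17) a35) (Nat.add (Nat.add (Nat.add (Nat.add (Nat.mul k23 a23) a22) a25) a18) a36) (Nat.add (Nat.add (Nat.add (Nat.mul k24 a24) a25) a22) a37) (Nat.add (Nat.add (Nat.add (Nat.mul k25 a25) a24) a23) a38) (Nat.add (Nat.add (Nat.mul k26 a26) a27) a13) (Nat.add (Nat.add (Nat.add (Nat.add (Nat.add (Nat.mul k27 a27) a28) a29) a26) a32) a14) (Nat.add (Nat.add (Nat.add (Nat.add (Nat.mul k28 a28) a27) a30) a33)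 a15) (Nat.add (Nat.add (Nat.add (Nat.add (Nat.mul k29 a29) a30) a27) a34) a16) (Nat.add (Nat.add (Nat.add (Nat.add (Nat.add (Nat.mul k30 a30) a31) a29) a28) a35) a17) (Nat.add (Nat.add (Nat.add (Nat.mul k31 a31) a30) a36) a18) (Nat.add (Nat.add (Nat.add (Nat.add (Nat.mul k32 a32) a33) a34) a27) a19) (Nat.add (Nat.add (Nat.add (Nat.add (Nat.mul k33 a33) a32) a35) a28) a20) (Nat.add (Nat.add (Nat.add (Nat.add (Nat.add (Nat.mul k34 a34) a35) a32) a39) a29) a21) (Nat.add (Nat.add (Nat.add (Nat.add (Nat.add (Nat.add (Nat.add (Nat.mul k35 a35) a36) a34) a37) a33) a40) a30) a22) (Nat.add (Nat.add (Nat.add (Nat.add (Nat.add (Nat.mul k36 a36) a35) a38) a41) a31) a23) (Nat.add (Nat.add (Nat.add (Nat.add (Nat.mul k37 a37) a38) a35) a42) a24) (Nat.add (Nat.add (Nat.add (Nat.add (Nat.mul k38 a38) a37) a36) a43) a25) (Nat.add (Nat.add (Nat.mul k39 a39) a40) a34) (Nat.add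 (Nat.add (Nat.add (Nat.add (Nat.mul k40 a40) a41) a39) a42) a35) (Nat.add (Nat.add (Nat.add (Nat.mul k41 a41) a40) a43) a36) (Nat.add (Nat.add (Nat.add (Nat.mul k42 a42) a43) a40) a37) (Nat.add (Nat.add (Nat.add (Nat.add (Nat.mul k43 a43) a42) a44) a41) a38) (Nat.add (Nat.mul k44 a44) a43) 0 0 0 0 0 0
noncomputable def inn6 (a b : B) : B := B.rec (motive := fun _ => B) (B.rec (motive := fun _ => FB) inn6C a) b
noncomputable def upL6C (a0 a1 a2 a3 a4 a5 a6 a7 a8 a9 a10 a11 a12 a13 a14 a15 a16 a17 a18 a19 a20 a21 a22 a23 a24 a25 a26 a27 a28 a29 a30 a31 a32 a33 a34 a35 a36 a37 a38 a39 a40 a41 a42 a43 a44 a45 a46 a47 a48 a49 a50 b0 b1 b2 b3 b4 b5 b6 b7 b8 b9 b10 b11 b12 b13 b14 b15 b16 b17 b18 b19 b20 b21 b22 b23 b24 b25 b26 b27 b28 b29 b30 b31 b32 b33 b34 b35 b36 b37 b38 b39 b40 b41 b42 b43 b44 b45 b46 b47 b48 b49 b50 : Nat) : B := B.mk a0 a1 a2 (Nat.add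 a3 b0) a4 a5 (Nat.add a6 b1) a7 (Nat.add a8 b2) (Nat.add a9 b3) a10 a11 (Nat.add a12 b4) a13 a14 (Nat.add a15 b5) a16 (Nat.add a17 b6) (Nat.add a18 b7) a19 (Nat.add a20 b8) a21 (Nat.add a22 b9) (Nat.add a23 b10) (Nat.add a24 b11) (Nat.add a25 b12) a26 a27 (Nat.add a28 b14) a29 (Nat.add a30 b15) (Nat.add a31 b16) a32 (Nat.add a33 b17) a34 (Nat.add a35 b18) (Nat.add a36 b19) (Nat.add a37 b20) (Nat.add a38 b21) a39 (Nat.add a40 b23) (Nat.add a41 b24) (Nat.add a42 b25) (Nat.add a43 b26) (Nat.add a44 b28) 0 0 0 0 0 0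
noncomputable def upL6 (a b : B) : B := B.rec (motive := fun _ => B) (B.rec (motive := fun _ => FB) upL6C a) b
noncomputable def dnL6C (a0 a1 a2 a3 a4 a5 a6 a7 a8 a9 a10 a11 a12 a13 a14 a15 a16 a17 a18 a19 a20 a21 a22 a23 a24 a25 a26 a27 a28 a29 a30 a31 a32 a33 a34 a35 a36 a37 a38 a39 a40 a41 a42 a43 a44 a45 a46 a47 a48 a49 a50 b0 b1 b2 b3 b4 b5 b6 b7 b8 b9 b10 b11 b12 b13 b14 b15 b16 b17 b18 b19 b20 b21 b22 b23 b24 b25 b26 b27 b28 b29 b30 b31 b32 b33 b34 b35 b36 b37 b38 b39 b40 b41 b42 b43 b44 b45 b46 b47 b48 b49 b50 : Nat) : B := B.mk (Nat.add a0 b2) (Nat.add a1 b5) (Nat.add a2 b7) (Nat.add a3 b8) (Nat.add a4 b10) (Nat.add a5 b12) (Nat.add a6 b13) (Nat.add a7 b14) (Nat.add a8 b15) a9 (Nat.add a10 b18) (Nat.add a11 b20) (Nat.add a12 b21) (Nat.add a13 b23) (Nat.add a14 b25) (Nat.add a15 b26) (Nat.add a16 b27) (Nat.add a17 b28) a18 (Nat.add a19 b30) (Nat.add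 a20 b31) (Nat.add a21 b32) (Nat.add a22 b33) a23 (Nat.add a24 b34) a25 (Nat.add a26 b36) (Nat.add a27 b38) (Nat.add a28 b39) (Nat.add a29 b40) (Nat.add a30 b41) a31 (Nat.add a32 b43) (Nat.add a33 b44) (Nat.add a34 b45) (Nat.add a35 b46) a36 (Nat.add a37 b47) a38 (Nat.add a39 b48) (Nat.add a40 b49) a41 (Nat.add a42 b50) a43 a44 0 0 0 0 0 0
noncomputable def dnL6 (a b : B) : B := B.rec (motive := fun _ => B) (B.rec (motive := fun _ => FB) dnL6C a) b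
noncomputable def upR6C (a0 a1 a2 a3 a4 a5 a6 a7 a8 a9 a10 a11 a12 a13 a14 a15 a16 a17 a18 a19 a20 a21 a22 a23 a24 a25 a26 a27 a28 a29 a30 a31 a32 a33 a34 a35 a36 a37 a38 a39 a40 a41 a42 a43 a44 a45 a46 a47 a48 a49 a50 b0 b1 b2 b3 b4 b5 b6 b7 b8 b9 b10 b11 b12 b13 b14 b15 b16 b17 b18 b19 b20 b21 b22 b23 b24 b25 b26 b27 b28 b29 b30 b31 b32 b33 b34 b35 b36 b37 b38 b39 b40 b41 b42 b43 b44 b45 b46 b47 b48 b49 b50 : Nat) : B := B.mk (Nat.add a0 b4) (Nat.add a1 b5) (Nat.add a2 b6) (Nat.add a3 b7) (Nat.add a4 b8) (Nat.add a5 b9) (Nat.add a6 b10) (Nat.add a7 b11) (Nat.add a8 b12) (Nat.add a9 b13) (Nat.add a10 b14) (Nat.add a11 b15) (Nat.add a12 b16) (Nat.add a13 b17) (Nat.add a14 b18) (Nat.add a15 b19) (Nat.add a16 b20) (Nat.add a17 b21) (Nat.add a18 b22) (Nat.add a19 b23) (Nat.add a20 b24) (Nat.add a21 b25) (Nat.add a22 b26) (Nat.add a23 b27) (Nat.add a24 b28)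 (Nat.add a25 b29) a26 a27 a28 a29 a30 a31 a32 a33 a34 a35 a36 a37 a38 a39 a40 a41 a42 a43 a44 0 0 0 0 0 0
noncomputable def upR6 (a b : B) : B := B.rec (motive := fun _ => B) (B.rec (motive := fun _ => FB) upR6C a) b
noncomputable def dnR6C (a0 a1 a2 a3 a4 a5 a6 a7 a8 a9 a10 a11 a12 a13 a14 a15 a16 a17 a18 a19 a20 a21 a22 a23 a24 a25 a26 a27 a28 a29 a30 a31 a32 a33 a34 a35 a36 a37 a38 a39 a40 a41 a42 a43 a44 a45 a46 a47 a48 a49 a50 b0 b1 b2 b3 b4 b5 b6 b7 b8 b9 b10 b11 b12 b13 b14 b15 b16 b17 b18 b19 b20 b21 b22 b23 b24 b25 b26 b27 b28 b29 b30 b31 b32 b33 b34 b35 b36 b37 b38 b39 b40 b41 b42 b43 b44 b45 b46 b47 b48 b49 b50 : Nat) : B := B.mk a0 a1 a2 a3 a4 a5 a6 a7 a8 a9 (Nat.add a10 b0) (Nat.add a11 b1) (Nat.add a12 b2) (Nat.add a13 b3) (Nat.add a14 b4) (Nat.add a15 b5) (Nat.add a16 b6) (Nat.add a17 b7) (Nat.add a18 b8) (Nat.add a19 b9) (Nat.add a20 b10)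 (Nat.add a21 b11) (Nat.add a22 b12) (Nat.add a23 b13) (Nat.add a24 b14) (Nat.add a25 b15) (Nat.add a26 b16) (Nat.add a27 b17) (Nat.add a28 b18) (Nat.add a29 b19) (Nat.add a30 b20) (Nat.add a31 b21) (Nat.add a32 b22) (Nat.add a33 b23) (Nat.add a34 b24) (Nat.add a35 b25) (Nat.add a36 b26) (Nat.add a37 b27) (Nat.add a38 b28) (Nat.add a39 b29) (Nat.add a40 b30) (Nat.add a41 b31) (Nat.add a42 b32) (Nat.add a43 b33) (Nat.add a44 b34) 0 0 0 0 0 0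
noncomputable def dnR6 (a b : B) : B := B.rec (motive := fun _ => B) (B.rec (motive := fun _ => FB) dnR6C a) b
noncomputable def inn7C (k0 k1 k2 k3 k4 k5 k6 k7 k8 k9 k10 k11 k12 k13 k14 k15 k16 k17 k18 k19 k20 k21 k22 k23 k24 k25 k26 k27 k28 k29 k30 k31 k32 k33 k34 k35 k36 k37 k38 k39 k40 k41 k42 k43 k44 k45 k46 k47 k48 k49 k50 a0 a1 a2 a3 a4 a5 a6 a7 a8 a9 a10 a11 a12 a13 a14 a15 a16 a17 a18 a19 a20 a21 a22 a23 a24 a25 a26 a27 a28 a29 a30 a31 a32 a33 a34 a35 a36 a37 a38 a39 a40 a41 a42 a43 a44 a45 a46 a47 a48 a49 a50 : Nat) : B := B.mk (Nat.add (Nat.add (Nat.mul k0 a0) a1) a4) (Nat.add (Nat.add (Nat.add (Nat.mul k1 a1) a2) a0) a5) (Nat.add (Nat.add (Nat.add (Nat.mul k2 a2) a3) a1) a6) (Nat.add (Nat.add (Nat.mul k3 a3) a2) a7) (Nat.add (Nat.add (Nat.mul k4 a4) a5) a0) (Nat.add (Nat.add (Nat.add (Nat.add (Nat.add (Nat.mul k5 a5) a6) a8) a4) a14) a1) (Nat.add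 (Nat.add (Nat.add (Nat.add (Nat.add (Nat.mul k6 a6) a7) a5) a9) a15) a2) (Nat.add (Nat.add (Nat.add (Nat.add (Nat.mul k7 a7) a6) a10) a16) a3) (Nat.add (Nat.add (Nat.add (Nat.mul k8 a8) a9) a5) a17) (Nat.add (Nat.add (Nat.add (Nat.add (Nat.add (Nat.mul k9 a9) a10) a11) a8) a6) a18) (Nat.add (Nat.add (Nat.add (Nat.add (Nat.mul k10 a10) a9) a12) a7) a19) (Nat.add (Nat.add (Nat.add (Nat.mul k11 a11) a12) a9) a20) (Nat.add (Nat.add (Nat.add (Nat.add (Nat.mul k12 a12) a13) a11) a10) a21) (Nat.add (Nat.add (Nat.mul k13 a13) a12) a22) (Nat.add (Nat.add (Nat.add (Nat.mul k14 a14) a15) a17) a5) (Nat.add (Nat.add (Nat.add (Nat.add (Nat.mul k15 a15) a16) a14) a18) a6) (Nat.add (Nat.add (Nat.add (Nat.mul k16 a16) a15) a19) a7) (Nat.add (Nat.add (Nat.add (Nat.mul k17 a17) a18) a14) a8) (Nat.add (Nat.add (Nat.add (Nat.add (Nat.add (Nat.add (Nat.mul k18 a18) a19) a20)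 a17) a23) a15) a9) (Nat.add (Nat.add (Nat.add (Nat.add (Nat.add (Nat.mul k19 a19) a18) a21) a24) a16) a10) (Nat.add (Nat.add (Nat.add (Nat.add (Nat.mul k20 a20) a21) a18) a25) a11) (Nat.add (Nat.add (Nat.add (Nat.add (Nat.add (Nat.mul k21 a21) a22) a20) a19) a26) a12) (Nat.add (Nat.add (Nat.add (Nat.mul k22 a22) a21) a27) a13) (Nat.add (Nat.add (Nat.add (Nat.mul k23 a23) a24) a25) a18) (Nat.add (Nat.add (Nat.add (Nat.mul k24 a24) a23) a26) a19) (Nat.add (Nat.add (Nat.add (Nat.mul k25 a25) a26) a23) a20) (Nat.add (Nat.add (Nat.add (Nat.add (Nat.add (Nat.mul k26 a26) a27) a25) a28) a24) a21) (Nat.add (Nat.add (Nat.add (Nat.mul k27 a27) a26) a29) a22) (Nat.add (Nat.add (Nat.mul k28 a28) a29) a26) (Nat.add (Nat.add (Nat.mul k29 a29) a28) a27) 0 0 0 0 0 0 0 0 0 0 0 0 0 0 0 0 0 0 0 0 0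
noncomputable def inn7 (a b : B) : B := B.rec (motive := fun _ => B) (B.rec (motive := fun _ => FB) inn7C a) b
noncomputable def upL7C (a0 a1 a2 a3 a4 a5 a6 a7 a8 a9 a10 a11 a12 a13 a14 a15 a16 a17 a18 a19 a20 a21 a22 a23 a24 a25 a26 a27 a28 a29 a30 a31 a32 a33 a34 a35 a36 a37 a38 a39 a40 a41 a42 a43 a44 a45 a46 a47 a48 a49 a50 b0 b1 b2 b3 b4 b5 b6 b7 b8 b9 b10 b11 b12 b13 b14 b15 b16 b17 b18 b19 b20 b21 b22 b23 b24 b25 b26 b27 b28 b29 b30 b31 b32 b33 b34 b35 b36 b37 b38 b39 b40 b41 b42 b43 b44 b45 b46 b47 b48 b49 b50 : Nat) : B := B.mk a0 a1 a2 (Nat.add a3 b0) a4 a5 a6 (Nat.add a7 b1) a8 a9 (Nat.add a10 b2) a11 (Nat.add a12 b3) (Nat.add a13 b4) a14 a15 (Nat.add a16 b5) a17 a18 (Nat.add a19 b6) a20 (Nat.add a21 b7) (Nat.add a22 b8) a23 (Nat.add a24 b9) a25 (Nat.add a26 b10) (Nat.add a27 b11) (Nat.add a28 b12) (Nat.add a29 b13) 0 0 0 0 0 0 0 0 0 0 0 0 0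 0 0 0 0 0 0 0 0
noncomputable def upL7 (a b : B) : B := B.rec (motive := fun _ => B) (B.rec (motive := fun _ => FB) upL7C a) b
noncomputable def dnL7C (a0 a1 a2 a3 a4 a5 a6 a7 a8 a9 a10 a11 a12 a13 a14 a15 a16 a17 a18 a19 a20 a21 a22 a23 a24 a25 a26 a27 a28 a29 a30 a31 a32 a33 a34 a35 a36 a37 a38 a39 a40 a41 a42 a43 a44 a45 a46 a47 a48 a49 a50 b0 b1 b2 b3 b4 b5 b6 b7 b8 b9 b10 b11 b12 b13 b14 b15 b16 b17 b18 b19 b20 b21 b22 b23 b24 b25 b26 b27 b28 b29 b30 b31 b32 b33 b34 b35 b36 b37 b38 b39 b40 b41 b42 b43 b44 b45 b46 b47 b48 b49 b50 : Nat) : B := B.mk (Nat.add a0 b3) (Nat.add a1 b6) (Nat.add a2 b8) (Nat.add a3 b9) (Nat.add a4 b12) (Nat.add a5 b15) (Nat.add a6 b17) (Nat.add a7 b18) (Nat.add a8 b20) (Nat.add a9 b22) (Nat.add a10 b23) (Nat.add a11 b24) (Nat.add a12 b25) a13 (Nat.add a14 b28) (Nat.add a15 b30) (Nat.add a16 b31) (Nat.add a17 b33) (Nat.add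 a18 b35) (Nat.add a19 b36) (Nat.add a20 b37) (Nat.add a21 b38) a22 (Nat.add a23 b40) (Nat.add a24 b41) (Nat.add a25 b42) (Nat.add a26 b43) a27 (Nat.add a28 b44) a29 0 0 0 0 0 0 0 0 0 0 0 0 0 0 0 0 0 0 0 0 0
noncomputable def dnL7 (a b : B) : B := B.rec (motive := fun _ => B) (B.rec (motive := fun _ => FB) dnL7C a) b
noncomputable def upR7C (a0 a1 a2 a3 a4 a5 a6 a7 a8 a9 a10 a11 a12 a13 a14 a15 a16 a17 a18 a19 a20 a21 a22 a23 a24 a25 a26 a27 a28 a29 a30 a31 a32 a33 a34 a35 a36 a37 a38 a39 a40 a41 a42 a43 a44 a45 a46 a47 a48 a49 a50 b0 b1 b2 b3 b4 b5 b6 b7 b8 b9 b10 b11 b12 b13 b14 b15 b16 b17 b18 b19 b20 b21 b22 b23 b24 b25 b26 b27 b28 b29 b30 b31 b32 b33 b34 b35 b36 b37 b38 b39 b40 b41 b42 b43 b44 b45 b46 b47 b48 b49 b50 : Nat) : B := B.mk (Nat.add a0 b1) (Nat.add a1 b2) (Nat.add a2 b3) (Nat.add a3 b4) (Nat.add a4 b5) (Nat.add a5 b6) (Nat.add a6 b7) (Nat.add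 a7 b8) (Nat.add a8 b9) (Nat.add a9 b10) (Nat.add a10 b11) (Nat.add a11 b12) (Nat.add a12 b13) (Nat.add a13 b14) a14 a15 a16 a17 a18 a19 a20 a21 a22 a23 a24 a25 a26 a27 a28 a29 0 0 0 0 0 0 0 0 0 0 0 0 0 0 0 0 0 0 0 0 0
noncomputable def upR7 (a b : B) : B := B.rec (motive := fun _ => B) (B.rec (motive := fun _ => FB) upR7C a) b
noncomputable def dnR7C (a0 a1 a2 a3 a4 a5 a6 a7 a8 a9 a10 a11 a12 a13 a14 a15 a16 a17 a18 a19 a20 a21 a22 a23 a24 a25 a26 a27 a28 a29 a30 a31 a32 a33 a34 a35 a36 a37 a38 a39 a40 a41 a42 a43 a44 a45 a46 a47 a48 a49 a50 b0 b1 b2 b3 b4 b5 b6 b7 b8 b9 b10 b11 b12 b13 b14 b15 b16 b17 b18 b19 b20 b21 b22 b23 b24 b25 b26 b27 b28 b29 b30 b31 b32 b33 b34 b35 b36 b37 b38 b39 b40 b41 b42 b43 b44 b45 b46 b47 b48 b49 b50 : Nat) : B := B.mk a0 a1 a2 a3 (Nat.add a4 b0) (Nat.add a5 b1) (Nat.add a6 b2) (Nat.add a7 b3) (Nat.add a8 b4) (Nat.add a9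 b5) (Nat.add a10 b6) (Nat.add a11 b7) (Nat.add a12 b8) (Nat.add a13 b9) (Nat.add a14 b10) (Nat.add a15 b11) (Nat.add a16 b12) (Nat.add a17 b13) (Nat.add a18 b14) (Nat.add a19 b15) (Nat.add a20 b16) (Nat.add a21 b17) (Nat.add a22 b18) (Nat.add a23 b19) (Nat.add a24 b20) (Nat.add a25 b21) (Nat.add a26 b22) (Nat.add a27 b23) (Nat.add a28 b24) (Nat.add a29 b25) 0 0 0 0 0 0 0 0 0 0 0 0 0 0 0 0 0 0 0 0 0
noncomputable def dnR7 (a b : B) : B := B.rec (motive := fun _ => B) (B.rec (motive := fun _ => FB) dnR7C a) b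
noncomputable def inn8C (k0 k1 k2 k3 k4 k5 k6 k7 k8 k9 k10 k11 k12 k13 k14 k15 k16 k17 k18 k19 k20 k21 k22 k23 k24 k25 k26 k27 k28 k29 k30 k31 k32 k33 k34 k35 k36 k37 k38 k39 k40 k41 k42 k43 k44 k45 k46 k47 k48 k49 k50 a0 a1 a2 a3 a4 a5 a6 a7 a8 a9 a10 a11 a12 a13 a14 a15 a16 a17 a18 a19 a20 a21 a22 a23 a24 a25 a26 a27 a28 a29 a30 a31 a32 a33 a34 a35 a36 a37 a38 a39 a40 a41 a42 a43 a44 a45 a46 a47 a48 a49 a50 : Nat) : B := B.mk (Nat.add (Nat.mul k0 a0) a1) (Nat.add (Nat.add (Nat.add (Nat.mul k1 a1) a2) a5) a0) (Nat.add (Nat.add (Nat.add (Nat.mul k2 a2) a3) a1) a6) (Nat.add (Nat.add (Nat.add (Nat.mul k3 a3) a4) a2) a7) (Nat.add (Nat.add (Nat.mul k4 a4) a3) a8) (Nat.add (Nat.add (Nat.mul k5 a5) a6) a1) (Nat.add (Nat.add (Nat.add (Nat.add (Nat.mul k6 a6) a7) a9) a5) a2) (Nat.add (Nat.add (Nat.add (Nat.add (Nat.mul k7 a7) a8) a6) a10) a3) (Nat.add (Nat.add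 (Nat.add (Nat.mul k8 a8) a7) a11) a4) (Nat.add (Nat.add (Nat.mul k9 a9) a10) a6) (Nat.add (Nat.add (Nat.add (Nat.add (Nat.mul k10 a10) a11) a12) a9) a7) (Nat.add (Nat.add (Nat.add (Nat.mul k11 a11) a10) a13) a8) (Nat.add (Nat.add (Nat.mul k12 a12) a13) a10) (Nat.add (Nat.add (Nat.add (Nat.mul k13 a13) a14) a12) a11) (Nat.add (Nat.mul k14 a14) a13) 0 0 0 0 0 0 0 0 0 0 0 0 0 0 0 0 0 0 0 0 0 0 0 0 0 0 0 0 0 0 0 0 0 0 0 0
noncomputable def inn8 (a b : B) : B := B.rec (motive := fun _ => B) (B.rec (motive := fun _ => FB) inn8C a) b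
noncomputable def upL8C (a0 a1 a2 a3 a4 a5 a6 a7 a8 a9 a10 a11 a12 a13 a14 a15 a16 a17 a18 a19 a20 a21 a22 a23 a24 a25 a26 a27 a28 a29 a30 a31 a32 a33 a34 a35 a36 a37 a38 a39 a40 a41 a42 a43 a44 a45 a46 a47 a48 a49 a50 b0 b1 b2 b3 b4 b5 b6 b7 b8 b9 b10 b11 b12 b13 b14 b15 b16 b17 b18 b19 b20 b21 b22 b23 b24 b25 b26 b27 b28 b29 b30 b31 b32 b33 b34 b35 b36 b37 b38 b39 b40 b41 b42 b43 b44 b45 b46 b47 b48 b49 b50 : Nat) : B := B.mk a0 a1 a2 a3 (Nat.add a4 b0) a5 a6 a7 (Nat.add a8 b1) a9 a10 (Nat.add a11 b2) a12 (Nat.add a13 b3) (Nat.add a14 b4) 0 0 0 0 0 0 0 0 0 0 0 0 0 0 0 0 0 0 0 0 0 0 0 0 0 0 0 0 0 0 0 0 0 0 0 0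
noncomputable def upL8 (a b : B) : B := B.rec (motive := fun _ => B) (B.rec (motive := fun _ => FB) upL8C a) b
noncomputable def dnL8C (a0 a1 a2 a3 a4 a5 a6 a7 a8 a9 a10 a11 a12 a13 a14 a15 a16 a17 a18 a19 a20 a21 a22 a23 a24 a25 a26 a27 a28 a29 a30 a31 a32 a33 a34 a35 a36 a37 a38 a39 a40 a41 a42 a43 a44 a45 a46 a47 a48 a49 a50 b0 b1 b2 b3 b4 b5 b6 b7 b8 b9 b10 b11 b12 b13 b14 b15 b16 b17 b18 b19 b20 b21 b22 b23 b24 b25 b26 b27 b28 b29 b30 b31 b32 b33 b34 b35 b36 b37 b38 b39 b40 b41 b42 b43 b44 b45 b46 b47 b48 b49 b50 : Nat) : B := B.mk (Nat.add a0 b3) (Nat.add a1 b7) (Nat.add a2 b10) (Nat.add a3 b12) (Nat.add a4 b13) (Nat.add a5 b16) (Nat.add a6 b19) (Nat.add a7 b21) (Nat.add a8 b22) (Nat.add a9 b24) (Nat.add a10 b26) (Nat.add a11 b27) (Nat.add a12 b28) (Nat.add a13 b29) a14 0 0 0 0 0 0 0 0 0 0 0 0 0 0 0 0 0 0 0 0 0 0 0 0 0 0 0 0 0 0 0 0 0 0 0 0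
noncomputable def dnL8 (a b : B) : B := B.rec (motive := fun _ => B) (B.rec (motive := fun _ => FB) dnL8C a) b
noncomputable def upR8C (a0 a1 a2 a3 a4 a5 a6 a7 a8 a9 a10 a11 a12 a13 a14 a15 a16 a17 a18 a19 a20 a21 a22 a23 a24 a25 a26 a27 a28 a29 a30 a31 a32 a33 a34 a35 a36 a37 a38 a39 a40 a41 a42 a43 a44 a45 a46 a47 a48 a49 a50 b0 b1 b2 b3 b4 b5 b6 b7 b8 b9 b10 b11 b12 b13 b14 b15 b16 b17 b18 b19 b20 b21 b22 b23 b24 b25 b26 b27 b28 b29 b30 b31 b32 b33 b34 b35 b36 b37 b38 b39 b40 b41 b42 b43 b44 b45 b46 b47 b48 b49 b50 : Nat) : B := B.mk (Nat.add a0 b0) (Nat.add a1 b1) (Nat.add a2 b2) (Nat.add a3 b3) (Nat.add a4 b4) a5 a6 a7 a8 a9 a10 a11 a12 a13 a14 0 0 0 0 0 0 0 0 0 0 0 0 0 0 0 0 0 0 0 0 0 0 0 0 0 0 0 0 0 0 0 0 0 0 0 0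
noncomputable def upR8 (a b : B) : B := B.rec (motive := fun _ => B) (B.rec (motive := fun _ => FB) upR8C a) b
noncomputable def dnR8C (a0 a1 a2 a3 a4 a5 a6 a7 a8 a9 a10 a11 a12 a13 a14 a15 a16 a17 a18 a19 a20 a21 a22 a23 a24 a25 a26 a27 a28 a29 a30 a31 a32 a33 a34 a35 a36 a37 a38 a39 a40 a41 a42 a43 a44 a45 a46 a47 a48 a49 a50 b0 b1 b2 b3 b4 b5 b6 b7 b8 b9 b10 b11 b12 b13 b14 b15 b16 b17 b18 b19 b20 b21 b22 b23 b24 b25 b26 b27 b28 b29 b30 b31 b32 b33 b34 b35 b36 b37 b38 b39 b40 b41 b42 b43 b44 b45 b46 b47 b48 b49 b50 : Nat) : B := B.mk a0 (Nat.add a1 b0) (Nat.add a2 b1) (Nat.add a3 b2) (Nat.add a4 b3) (Nat.add a5 b4) (Nat.add a6 b5) (Nat.add a7 b6) (Nat.add a8 b7) (Nat.add a9 b8) (Nat.add a10 b9) (Nat.add a11 b10) (Nat.add a12 b11) (Nat.add a13 b12) (Nat.add a14 b13) 0 0 0 0 0 0 0 0 0 0 0 0 0 0 0 0 0 0 0 0 0 0 0 0 0 0 0 0 0 0 0 0 0 0 0 0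
noncomputable def dnR8 (a b : B) : B := B.rec (motive := fun _ => B) (B.rec (motive := fun _ => FB) dnR8C a) b
noncomputable def inn9C (k0 k1 k2 k3 k4 k5 k6 k7 k8 k9 k10 k11 k12 k13 k14 k15 k16 k17 k18 k19 k20 k21 k22 k23 k24 k25 k26 k27 k28 k29 k30 k31 k32 k33 k34 k35 k36 k37 k38 k39 k40 k41 k42 k43 k44 k45 k46 k47 k48 k49 k50 a0 a1 a2 a3 a4 a5 a6 a7 a8 a9 a10 a11 a12 a13 a14 a15 a16 a17 a18 a19 a20 a21 a22 a23 a24 a25 a26 a27 a28 a29 a30 a31 a32 a33 a34 a35 a36 a37 a38 a39 a40 a41 a42 a43 a44 a45 a46 a47 a48 a49 a50 : Nat) : B := B.mk (Nat.add (Nat.mul k0 a0) a1) (Nat.add (Nat.add (Nat.mul k1 a1) a2) a0) (Nat.add (Nat.add (Nat.mul k2 a2) a3) a1) (Nat.add (Nat.add (Nat.mul k3 a3) a4) a2) (Nat.add (Nat.mul k4 a4) a3) 0 0 0 0 0 0 0 0 0 0 0 0 0 0 0 0 0 0 0 0 0 0 0 0 0 0 0 0 0 0 0 0 0 0 0 0 0 0 0 0 0 0 0 0 0 0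
noncomputable def inn9 (a b : B) : B := B.rec (motive := fun _ => B) (B.rec (motive := fun _ => FB) inn9C a) b
noncomputable def upL9C (a0 a1 a2 a3 a4 a5 a6 a7 a8 a9 a10 a11 a12 a13 a14 a15 a16 a17 a18 a19 a20 a21 a22 a23 a24 a25 a26 a27 a28 a29 a30 a31 a32 a33 a34 a35 a36 a37 a38 a39 a40 a41 a42 a43 a44 a45 a46 a47 a48 a49 a50 b0 b1 b2 b3 b4 b5 b6 b7 b8 b9 b10 b11 b12 b13 b14 b15 b16 b17 b18 b19 b20 b21 b22 b23 b24 b25 b26 b27 b28 b29 b30 b31 b32 b33 b34 b35 b36 b37 b38 b39 b40 b41 b42 b43 b44 b45 b46 b47 b48 b49 b50 : Nat) : B := B.mk a0 a1 a2 a3 (Nat.add a4 b0) 0 0 0 0 0 0 0 0 0 0 0 0 0 0 0 0 0 0 0 0 0 0 0 0 0 0 0 0 0 0 0 0 0 0 0 0 0 0 0 0 0 0 0 0 0 0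
noncomputable def upL9 (a b : B) : B := B.rec (motive := fun _ => B) (B.rec (motive := fun _ => FB) upL9C a) b
noncomputable def dnL9C (a0 a1 a2 a3 a4 a5 a6 a7 a8 a9 a10 a11 a12 a13 a14 a15 a16 a17 a18 a19 a20 a21 a22 a23 a24 a25 a26 a27 a28 a29 a30 a31 a32 a33 a34 a35 a36 a37 a38 a39 a40 a41 a42 a43 a44 a45 a46 a47 a48 a49 a50 b0 b1 b2 b3 b4 b5 b6 b7 b8 b9 b10 b11 b12 b13 b14 b15 b16 b17 b18 b19 b20 b21 b22 b23 b24 b25 b26 b27 b28 b29 b30 b31 b32 b33 b34 b35 b36 b37 b38 b39 b40 b41 b42 b43 b44 b45 b46 b47 b48 b49 b50 : Nat) : B := B.mk (Nat.add a0 b4) (Nat.add a1 b8) (Nat.add a2 b11) (Nat.add a3 b13) (Nat.add a4 b14) 0 0 0 0 0 0 0 0 0 0 0 0 0 0 0 0 0 0 0 0 0 0 0 0 0 0 0 0 0 0 0 0 0 0 0 0 0 0 0 0 0 0 0 0 0 0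
noncomputable def dnL9 (a b : B) : B := B.rec (motive := fun _ => B) (B.rec (motive := fun _ => FB) dnL9C a) b
noncomputable def upR9C (a0 a1 a2 a3 a4 a5 a6 a7 a8 a9 a10 a11 a12 a13 a14 a15 a16 a17 a18 a19 a20 a21 a22 a23 a24 a25 a26 a27 a28 a29 a30 a31 a32 a33 a34 a35 a36 a37 a38 a39 a40 a41 a42 a43 a44 a45 a46 a47 a48 a49 a50 b0 b1 b2 b3 b4 b5 b6 b7 b8 b9 b10 b11 b12 b13 b14 b15 b16 b17 b18 b19 b20 b21 b22 b23 b24 b25 b26 b27 b28 b29 b30 b31 b32 b33 b34 b35 b36 b37 b38 b39 b40 b41 b42 b43 b44 b45 b46 b47 b48 b49 b50 : Nat) : B := B.mk (Nat.add a0 b0) a1 a2 a3 a4 0 0 0 0 0 0 0 0 0 0 0 0 0 0 0 0 0 0 0 0 0 0 0 0 0 0 0 0 0 0 0 0 0 0 0 0 0 0 0 0 0 0 0 0 0 0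
noncomputable def upR9 (a b : B) : B := B.rec (motive := fun _ => B) (B.rec (motive := fun _ => FB) upR9C a) b
noncomputable def dnR9C (a0 a1 a2 a3 a4 a5 a6 a7 a8 a9 a10 a11 a12 a13 a14 a15 a16 a17 a18 a19 a20 a21 a22 a23 a24 a25 a26 a27 a28 a29 a30 a31 a32 a33 a34 a35 a36 a37 a38 a39 a40 a41 a42 a43 a44 a45 a46 a47 a48 a49 a50 b0 b1 b2 b3 b4 b5 b6 b7 b8 b9 b10 b11 b12 b13 b14 b15 b16 b17 b18 b19 b20 b21 b22 b23 b24 b25 b26 b27 b28 b29 b30 b31 b32 b33 b34 b35 b36 b37 b38 b39 b40 b41 b42 b43 b44 b45 b46 b47 b48 b49 b50 : Nat) : B := B.mk (Nat.add a0 b0) (Nat.add a1 b1) (Nat.add a2 b2) (Nat.add a3 b3) (Nat.add a4 b4) 0 0 0 0 0 0 0 0 0 0 0 0 0 0 0 0 0 0 0 0 0 0 0 0 0 0 0 0 0 0 0 0 0 0 0 0 0 0 0 0 0 0 0 0 0 0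
noncomputable def dnR9 (a b : B) : B := B.rec (motive := fun _ => B) (B.rec (motive := fun _ => FB) dnR9C a) b
noncomputable def inn10C (k0 k1 k2 k3 k4 k5 k6 k7 k8 k9 k10 k11 k12 k13 k14 k15 k16 k17 k18 k19 k20 k21 k22 k23 k24 k25 k26 k27 k28 k29 k30 k31 k32 k33 k34 k35 k36 k37 k38 k39 k40 k41 k42 k43 k44 k45 k46 k47 k48 k49 k50 a0 a1 a2 a3 a4 a5 a6 a7 a8 a9 a10 a11 a12 a13 a14 a15 a16 a17 a18 a19 a20 a21 a22 a23 a24 a25 a26 a27 a28 a29 a30 a31 a32 a33 a34 a35 a36 a37 a38 a39 a40 a41 a42 a43 a44 a45 a46 a47 a48 a49 a50 : Nat) : B := B.mk (Nat.mul k0 a0) 0 0 0 0 0 0 0 0 0 0 0 0 0 0 0 0 0 0 0 0 0 0 0 0 0 0 0 0 0 0 0 0 0 0 0 0 0 0 0 0 0 0 0 0 0 0 0 0 0 0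
noncomputable def inn10 (a b : B) : B := B.rec (motive := fun _ => B) (B.rec (motive := fun _ => FB) inn10C a) b
noncomputable def upL10C (a0 a1 a2 a3 a4 a5 a6 a7 a8 a9 a10 a11 a12 a13 a14 a15 a16 a17 a18 a19 a20 a21 a22 a23 a24 a25 a26 a27 a28 a29 a30 a31 a32 a33 a34 a35 a36 a37 a38 a39 a40 a41 a42 a43 a44 a45 a46 a47 a48 a49 a50 b0 b1 b2 b3 b4 b5 b6 b7 b8 b9 b10 b11 b12 b13 b14 b15 b16 b17 b18 b19 b20 b21 b22 b23 b24 b25 b26 b27 b28 b29 b30 b31 b32 b33 b34 b35 b36 b37 b38 b39 b40 b41 b42 b43 b44 b45 b46 b47 b48 b49 b50 : Nat) : B := B.mk a0 0 0 0 0 0 0 0 0 0 0 0 0 0 0 0 0 0 0 0 0 0 0 0 0 0 0 0 0 0 0 0 0 0 0 0 0 0 0 0 0 0 0 0 0 0 0 0 0 0 0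
noncomputable def upL10 (a b : B) : B := B.rec (motive := fun _ => B) (B.rec (motive := fun _ => FB) upL10C a) b
noncomputable def dnL10C (a0 a1 a2 a3 a4 a5 a6 a7 a8 a9 a10 a11 a12 a13 a14 a15 a16 a17 a18 a19 a20 a21 a22 a23 a24 a25 a26 a27 a28 a29 a30 a31 a32 a33 a34 a35 a36 a37 a38 a39 a40 a41 a42 a43 a44 a45 a46 a47 a48 a49 a50 b0 b1 b2 b3 b4 b5 b6 b7 b8 b9 b10 b11 b12 b13 b14 b15 b16 b17 b18 b19 b20 b21 b22 b23 b24 b25 b26 b27 b28 b29 b30 b31 b32 b33 b34 b35 b36 b37 b38 b39 b40 b41 b42 b43 b44 b45 b46 b47 b48 b49 b50 : Nat) : B := B.mk (Nat.add a0 b4) 0 0 0 0 0 0 0 0 0 0 0 0 0 0 0 0 0 0 0 0 0 0 0 0 0 0 0 0 0 0 0 0 0 0 0 0 0 0 0 0 0 0 0 0 0 0 0 0 0 0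
noncomputable def dnL10 (a b : B) : B := B.rec (motive := fun _ => B) (B.rec (motive := fun _ => FB) dnL10C a) b
noncomputable def upR10C (a0 a1 a2 a3 a4 a5 a6 a7 a8 a9 a10 a11 a12 a13 a14 a15 a16 a17 a18 a19 a20 a21 a22 a23 a24 a25 a26 a27 a28 a29 a30 a31 a32 a33 a34 a35 a36 a37 a38 a39 a40 a41 a42 a43 a44 a45 a46 a47 a48 a49 a50 b0 b1 b2 b3 b4 b5 b6 b7 b8 b9 b10 b11 b12 b13 b14 b15 b16 b17 b18 b19 b20 b21 b22 b23 b24 b25 b26 b27 b28 b29 b30 b31 b32 b33 b34 b35 b36 b37 b38 b39 b40 b41 b42 b43 b44 b45 b46 b47 b48 b49 b50 : Nat) : B := B.mk a0 0 0 0 0 0 0 0 0 0 0 0 0 0 0 0 0 0 0 0 0 0 0 0 0 0 0 0 0 0 0 0 0 0 0 0 0 0 0 0 0 0 0 0 0 0 0 0 0 0 0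
noncomputable def upR10 (a b : B) : B := B.rec (motive := fun _ => B) (B.rec (motive := fun _ => FB) upR10C a) b
noncomputable def dnR10C (a0 a1 a2 a3 a4 a5 a6 a7 a8 a9 a10 a11 a12 a13 a14 a15 a16 a17 a18 a19 a20 a21 a22 a23 a24 a25 a26 a27 a28 a29 a30 a31 a32 a33 a34 a35 a36 a37 a38 a39 a40 a41 a42 a43 a44 a45 a46 a47 a48 a49 a50 b0 b1 b2 b3 b4 b5 b6 b7 b8 b9 b10 b11 b12 b13 b14 b15 b16 b17 b18 b19 b20 b21 b22 b23 b24 b25 b26 b27 b28 b29 b30 b31 b32 b33 b34 b35 b36 b37 b38 b39 b40 b41 b42 b43 b44 b45 b46 b47 b48 b49 b50 : Nat) : B := B.mk (Nat.add a0 b0) 0 0 0 0 0 0 0 0 0 0 0 0 0 0 0 0 0 0 0 0 0 0 0 0 0 0 0 0 0 0 0 0 0 0 0 0 0 0 0 0 0 0 0 0 0 0 0 0 0 0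
noncomputable def dnR10 (a b : B) : B := B.rec (motive := fun _ => B) (B.rec (motive := fun _ => FB) dnR10C a) b
noncomputable def inn (s : Nat) : B → B → B := (Bool.rec (motive := fun _ => B → B → B) (Bool.rec (motive := fun _ => B → B → B) (Bool.rec (motive := fun _ => B → B → B) inn0 inn1 (Nat.ble 1 s)) (Bool.rec (motive := fun _ => B → B → B) inn2 (Bool.rec (motive := fun _ => B → B → B) inn3 inn4 (Nat.ble 4 s)) (Nat.ble 3 s)) (Nat.ble 2 s)) (Bool.rec (motive := fun _ => B → B → B) (Bool.rec (motive := fun _ => B → B → B) inn5 (Bool.rec (motive := fun _ => B → B → B) inn6 inn7 (Nat.ble 7 s)) (Nat.ble 6 s)) (Bool.rec (motive := fun _ => B → B → B) inn8 (Bool.rec (motive := fun _ => B → B → B) inn9 inn10 (Nat.ble 10 s)) (Nat.ble 9 s)) (Nat.ble 8 s)) (Nat.ble 5 s))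
noncomputable def upL (s : Nat) : B → B → B := (Bool.rec (motive := fun _ => B → B → B) (Bool.rec (motive := fun _ => B → B → B) (Bool.rec (motive := fun _ => B → B → B) upL0 upL1 (Nat.ble 1 s)) (Bool.rec (motive := fun _ => B → B → B) upL2 (Bool.rec (motive := fun _ => B → B → B) upL3 upL4 (Nat.ble 4 s)) (Nat.ble 3 s)) (Nat.ble 2 s)) (Bool.rec (motive := fun _ => B → B → B) (Bool.rec (motive := fun _ => B → B → B) upL5 (Bool.rec (motive := fun _ => B → B → B) upL6 upL7 (Nat.ble 7 s)) (Nat.ble 6 s)) (Bool.rec (motive := fun _ => B → B → B) upL8 (Bool.rec (motive := fun _ => B → B → B) upL9 upL10 (Nat.ble 10 s)) (Nat.ble 9 s)) (Nat.ble 8 s)) (Nat.ble 5 s))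
noncomputable def dnL (s : Nat) : B → B → B := (Bool.rec (motive := fun _ => B → B → B) (Bool.rec (motive := fun _ => B → B → B) (Bool.rec (motive := fun _ => B → B → B) dnL0 dnL1 (Nat.ble 1 s)) (Bool.rec (motive := fun _ => B → B → B) dnL2 (Bool.rec (motive := fun _ => B → B → B) dnL3 dnL4 (Nat.ble 4 s)) (Nat.ble 3 s)) (Nat.ble 2 s)) (Bool.rec (motive := fun _ => B → B → B) (Bool.rec (motive := fun _ => B → B → B) dnL5 (Bool.rec (motive := fun _ => B → B → B) dnL6 dnL7 (Nat.ble 7 s)) (Nat.ble 6 s)) (Bool.rec (motive := fun _ => B → B → B) dnL8 (Bool.rec (motive := fun _ => B → B → B) dnL9 dnL10 (Nat.ble 10 s)) (Nat.ble 9 s)) (Nat.ble 8 s)) (Nat.ble 5 s))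
noncomputable def upR (s : Nat) : B → B → B := (Bool.rec (motive := fun _ => B → B → B) (Bool.rec (motive := fun _ => B → B → B) (Bool.rec (motive := fun _ => B → B → B) upR0 upR1 (Nat.ble 1 s)) (Bool.rec (motive := fun _ => B → B → B) upR2 (Bool.rec (motive := fun _ => B → B → B) upR3 upR4 (Nat.ble 4 s)) (Nat.ble 3 s)) (Nat.ble 2 s)) (Bool.rec (motive := fun _ => B → B → B) (Bool.rec (motive := fun _ => B → B → B) upR5 (Bool.rec (motive := fun _ => B → B → B) upR6 upR7 (Nat.ble 7 s)) (Nat.ble 6 s)) (Bool.rec (motive := fun _ => B → B → B) upR8 (Bool.rec (motive := fun _ => B → B → B) upR9 upR10 (Nat.ble 10 s)) (Nat.ble 9 s)) (Nat.ble 8 s)) (Nat.ble 5 s))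
noncomputable def dnR (s : Nat) : B → B → B := (Bool.rec (motive := fun _ => B → B → B) (Bool.rec (motive := fun _ => B → B → B) (Bool.rec (motive := fun _ => B → B → B) dnR0 dnR1 (Nat.ble 1 s)) (Bool.rec (motive := fun _ => B → B → B) dnR2 (Bool.rec (motive := fun _ => B → B → B) dnR3 dnR4 (Nat.ble 4 s)) (Nat.ble 3 s)) (Nat.ble 2 s)) (Bool.rec (motive := fun _ => B → B → B) (Bool.rec (motive := fun _ => B → B → B) dnR5 (Bool.rec (motive := fun _ => B → B → B) dnR6 dnR7 (Nat.ble 7 s)) (Nat.ble 6 s)) (Bool.rec (motive := fun _ => B → B → B) dnR8 (Bool.rec (motive := fun _ => B → B → B) dnR9 dnR10 (Nat.ble 10 s)) (Nat.ble 9 s)) (Nat.ble 8 s)) (Nat.ble 5 s))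
def cfg (s i : Nat) : Nat := Nat.land (Nat.shiftRight 3856538533050276285086122985739488229131337711631269452712776229167432338395948861044557014286337419410635464857421009506570529295707692936262306239816161699007643377501345805705691525935527106349824218741123541821351346251498704925166888393060277850937839263942104550843913392455001958592611966355023835382208485026106965266293686562052275738320381292956325381899756553477490280805753856695464542938367646741322720091491127064203580895543219448941914082988681946905065068389945771327334190839284099991114028775932606260806928726708088732805211970059777675348778593008626026368245905351446250662393373680917204540531063086686713382913696354069122492939001587678717081968577800436940716565438605289391989433950930525469875161479549720521089684349110410006247158011263445368685217144221608288616842932262494382606134038898976977010362745610882217613804934685846131709800195255184760013685079600527608637526803276784082432325269182316885415847602478198232715680170765203972386468727982720511862393720717664102484972446524055817054387045076500303228994510851808916506610836704177451424663562771453542595524088110753888799365420261547547964383934484115613402646057530482546053807806900156583969049814211476166953023824689376947578339328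 (Nat.mul 8 (Nat.add (Nat.mul s 51) i))) 255
def rk (c : Nat) : Nat := Nat.land (Nat.shiftRight 98581180644076143025981178382416349232634112018426629371741728653365916108746143300373272811554522185187484080957433698751838731846077998231020887833609060024044427145738099838141104198631087393815571593916553193030584936856170637350113806205361947609534827439932272617437716694971046664369202990058310200070545938933206334384412347882416582892141831761503749778059318267903498106034159061371577659681321336965421074956897116160020932390966201845039194901571315227017871096002282645009290523078149353923722570852460011655540608235934229392445976181059243901921056264768034302853120 (Nat.mul 8 c)) 255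
def sz (s : Nat) : Nat := Nat.land (Nat.shiftRight 1232816527640547004712193 (Nat.mul 8 s)) 255

def dk (c j : Nat) : Nat := Nat.mod (Nat.div c (Nat.pow 3 j)) 3
noncomputable def opt (b : Bool) (e v : Nat) : Nat := Bool.rec (motive := fun _ => Nat) e (Nat.add e v) b
noncomputable def cut (n : Nat) (f : Nat → Nat) (i : Nat) : Nat :=
  Bool.rec (motive := fun _ => Nat) 0 (f i) (Nat.ble (Nat.succ i) n)
noncomputable def hopS (a : B) (c j e : Nat) : Nat :=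
  opt (Nat.ble (dk c j) 1 && Nat.ble 1 (dk c (Nat.succ j)))
    (opt (Nat.ble 1 (dk c j) && Nat.ble (dk c (Nat.succ j)) 1) e
      (getB a (rk (Nat.add (Nat.sub c (Nat.pow 3 j)) (Nat.pow 3 (Nat.succ j))))))
    (getB a (rk (Nat.sub (Nat.add c (Nat.pow 3 j)) (Nat.pow 3 (Nat.succ j)))))
noncomputable def innS (k a : B) (c : Nat) : Nat :=
  hopS a c 3 (hopS a c 2 (hopS a c 1 (hopS a c 0 (Nat.mul (getB k (rk c)) (getB a (rk c))))))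
noncomputable def upS (j : Nat) (a b : B) (c : Nat) : Nat :=
  opt (Nat.ble (dk c j) 1) (getB a (rk c)) (getB b (rk (Nat.add c (Nat.pow 3 j))))
noncomputable def dnS (j : Nat) (a b : B) (c : Nat) : Nat :=
  opt (Nat.ble 1 (dk c j)) (getB a (rk c)) (getB b (rk (Nat.sub c (Nat.pow 3 j))))

theorem inn0_eq (a b : B) : inn0 a b = mkB (cut (sz 0) fun i => innS a b (cfg 0 i)) := by
  cases a; cases b; rfl
theorem inn1_eq (a b : B) : inn1 a b = mkB (cut (sz 1) fun i => innS a b (cfg 1 i)) := by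
  cases a; cases b; rfl
theorem inn2_eq (a b : B) : inn2 a b = mkB (cut (sz 2) fun i => innS a b (cfg 2 i)) := by
  cases a; cases b; rfl
theorem inn3_eq (a b : B) : inn3 a b = mkB (cut (sz 3) fun i => innS a b (cfg 3 i)) := by
  cases a; cases b; rfl
theorem inn4_eq (a b : B) : inn4 a b = mkB (cut (sz 4) fun i => innS a b (cfg 4 i)) := by
  cases a; cases b; rfl
theorem inn5_eq (a b : B) : inn5 a b = mkB (cut (sz 5) fun i => innS a b (cfg 5 i)) := by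
  cases a; cases b; rfl
theorem inn6_eq (a b : B) : inn6 a b = mkB (cut (sz 6) fun i => innS a b (cfg 6 i)) := by
  cases a; cases b; rfl
theorem inn7_eq (a b : B) : inn7 a b = mkB (cut (sz 7) fun i => innS a b (cfg 7 i)) := by
  cases a; cases b; rfl
theorem inn8_eq (a b : B) : inn8 a b = mkB (cut (sz 8) fun i => innS a b (cfg 8 i)) := by
  cases a; cases b; rfl
theorem inn9_eq (a b : B) : inn9 a b = mkB (cut (sz 9) fun i => innS a b (cfg 9 i)) := by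
  cases a; cases b; rfl
theorem inn10_eq (a b : B) : inn10 a b = mkB (cut (sz 10) fun i => innS a b (cfg 10 i)) := by
  cases a; cases b; rfl
theorem inn_eq (s : Nat) (hs : s ≤ 10) (a b : B) :
    inn s a b = mkB (cut (sz s) fun i => innS a b (cfg s i)) := by
  interval_cases s
  exacts [inn0_eq a b, inn1_eq a b, inn2_eq a b, inn3_eq a b, inn4_eq a b, inn5_eq a b, inn6_eq a b, inn7_eq a b, inn8_eq a b, inn9_eq a b, inn10_eq a b]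
theorem upL0_eq (a b : B) : upL0 a b = mkB (cut (sz 0) fun i => upS 0 a b (cfg 0 i)) := by
  cases a; cases b; rfl
theorem upL1_eq (a b : B) : upL1 a b = mkB (cut (sz 1) fun i => upS 0 a b (cfg 1 i)) := by
  cases a; cases b; rfl
theorem upL2_eq (a b : B) : upL2 a b = mkB (cut (sz 2) fun i => upS 0 a b (cfg 2 i)) := by
  cases a; cases b; rfl
theorem upL3_eq (a b : B) : upL3 a b = mkB (cut (sz 3) fun i => upS 0 a b (cfg 3 i)) := by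
  cases a; cases b; rfl
theorem upL4_eq (a b : B) : upL4 a b = mkB (cut (sz 4) fun i => upS 0 a b (cfg 4 i)) := by
  cases a; cases b; rfl
theorem upL5_eq (a b : B) : upL5 a b = mkB (cut (sz 5) fun i => upS 0 a b (cfg 5 i)) := by
  cases a; cases b; rfl
theorem upL6_eq (a b : B) : upL6 a b = mkB (cut (sz 6) fun i => upS 0 a b (cfg 6 i)) := by
  cases a; cases b; rfl
theorem upL7_eq (a b : B) : upL7 a b = mkB (cut (sz 7) fun i => upS 0 a b (cfg 7 i)) := by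
  cases a; cases b; rfl
theorem upL8_eq (a b : B) : upL8 a b = mkB (cut (sz 8) fun i => upS 0 a b (cfg 8 i)) := by
  cases a; cases b; rfl
theorem upL9_eq (a b : B) : upL9 a b = mkB (cut (sz 9) fun i => upS 0 a b (cfg 9 i)) := by
  cases a; cases b; rfl
theorem upL10_eq (a b : B) : upL10 a b = mkB (cut (sz 10) fun i => upS 0 a b (cfg 10 i)) := by
  cases a; cases b; rfl
theorem upL_eq (s : Nat) (hs : s ≤ 10) (a b : B) :
    upL s a b = mkB (cut (sz s) fun i => upS 0 a b (cfg s i)) := by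
  interval_cases s
  exacts [upL0_eq a b, upL1_eq a b, upL2_eq a b, upL3_eq a b, upL4_eq a b, upL5_eq a b, upL6_eq a b, upL7_eq a b, upL8_eq a b, upL9_eq a b, upL10_eq a b]
theorem dnL0_eq (a b : B) : dnL0 a b = mkB (cut (sz 0) fun i => dnS 0 a b (cfg 0 i)) := by
  cases a; cases b; rfl
theorem dnL1_eq (a b : B) : dnL1 a b = mkB (cut (sz 1) fun i => dnS 0 a b (cfg 1 i)) := by
  cases a; cases b; rfl
theorem dnL2_eq (a b : B) : dnL2 a b = mkB (cut (sz 2) fun i => dnS 0 a b (cfg 2 i)) := by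
  cases a; cases b; rfl
theorem dnL3_eq (a b : B) : dnL3 a b = mkB (cut (sz 3) fun i => dnS 0 a b (cfg 3 i)) := by
  cases a; cases b; rfl
theorem dnL4_eq (a b : B) : dnL4 a b = mkB (cut (sz 4) fun i => dnS 0 a b (cfg 4 i)) := by
  cases a; cases b; rfl
theorem dnL5_eq (a b : B) : dnL5 a b = mkB (cut (sz 5) fun i => dnS 0 a b (cfg 5 i)) := by
  cases a; cases b; rfl
theorem dnL6_eq (a b : B) : dnL6 a b = mkB (cut (sz 6) fun i => dnS 0 a b (cfg 6 i)) := by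
  cases a; cases b; rfl
theorem dnL7_eq (a b : B) : dnL7 a b = mkB (cut (sz 7) fun i => dnS 0 a b (cfg 7 i)) := by
  cases a; cases b; rfl
theorem dnL8_eq (a b : B) : dnL8 a b = mkB (cut (sz 8) fun i => dnS 0 a b (cfg 8 i)) := by
  cases a; cases b; rfl
theorem dnL9_eq (a b : B) : dnL9 a b = mkB (cut (sz 9) fun i => dnS 0 a b (cfg 9 i)) := by
  cases a; cases b; rfl
theorem dnL10_eq (a b : B) : dnL10 a b = mkB (cut (sz 10) fun i => dnS 0 a b (cfg 10 i)) := by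
  cases a; cases b; rfl
theorem dnL_eq (s : Nat) (hs : s ≤ 10) (a b : B) :
    dnL s a b = mkB (cut (sz s) fun i => dnS 0 a b (cfg s i)) := by
  interval_cases s
  exacts [dnL0_eq a b, dnL1_eq a b, dnL2_eq a b, dnL3_eq a b, dnL4_eq a b, dnL5_eq a b, dnL6_eq a b, dnL7_eq a b, dnL8_eq a b, dnL9_eq a b, dnL10_eq a b]
theorem upR0_eq (a b : B) : upR0 a b = mkB (cut (sz 0) fun i => upS 4 a b (cfg 0 i)) := by
  cases a; cases b; rfl
theorem upR1_eq (a b : B) : upR1 a b = mkB (cut (sz 1) fun i => upS 4 a b (cfg 1 i)) := by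
  cases a; cases b; rfl
theorem upR2_eq (a b : B) : upR2 a b = mkB (cut (sz 2) fun i => upS 4 a b (cfg 2 i)) := by
  cases a; cases b; rfl
theorem upR3_eq (a b : B) : upR3 a b = mkB (cut (sz 3) fun i => upS 4 a b (cfg 3 i)) := by
  cases a; cases b; rfl
theorem upR4_eq (a b : B) : upR4 a b = mkB (cut (sz 4) fun i => upS 4 a b (cfg 4 i)) := by
  cases a; cases b; rfl
theorem upR5_eq (a b : B) : upR5 a b = mkB (cut (sz 5) fun i => upS 4 a b (cfg 5 i)) := by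
  cases a; cases b; rfl
theorem upR6_eq (a b : B) : upR6 a b = mkB (cut (sz 6) fun i => upS 4 a b (cfg 6 i)) := by
  cases a; cases b; rfl
theorem upR7_eq (a b : B) : upR7 a b = mkB (cut (sz 7) fun i => upS 4 a b (cfg 7 i)) := by
  cases a; cases b; rfl
theorem upR8_eq (a b : B) : upR8 a b = mkB (cut (sz 8) fun i => upS 4 a b (cfg 8 i)) := by
  cases a; cases b; rfl
theorem upR9_eq (a b : B) : upR9 a b = mkB (cut (sz 9) fun i => upS 4 a b (cfg 9 i)) := by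
  cases a; cases b; rfl
theorem upR10_eq (a b : B) : upR10 a b = mkB (cut (sz 10) fun i => upS 4 a b (cfg 10 i)) := by
  cases a; cases b; rfl
theorem upR_eq (s : Nat) (hs : s ≤ 10) (a b : B) :
    upR s a b = mkB (cut (sz s) fun i => upS 4 a b (cfg s i)) := by
  interval_cases s
  exacts [upR0_eq a b, upR1_eq a b, upR2_eq a b, upR3_eq a b, upR4_eq a b, upR5_eq a b, upR6_eq a b, upR7_eq a b, upR8_eq a b, upR9_eq a b, upR10_eq a b]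
theorem dnR0_eq (a b : B) : dnR0 a b = mkB (cut (sz 0) fun i => dnS 4 a b (cfg 0 i)) := by
  cases a; cases b; rfl
theorem dnR1_eq (a b : B) : dnR1 a b = mkB (cut (sz 1) fun i => dnS 4 a b (cfg 1 i)) := by
  cases a; cases b; rfl
theorem dnR2_eq (a b : B) : dnR2 a b = mkB (cut (sz 2) fun i => dnS 4 a b (cfg 2 i)) := by
  cases a; cases b; rfl
theorem dnR3_eq (a b : B) : dnR3 a b = mkB (cut (sz 3) fun i => dnS 4 a b (cfg 3 i)) := by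
  cases a; cases b; rfl
theorem dnR4_eq (a b : B) : dnR4 a b = mkB (cut (sz 4) fun i => dnS 4 a b (cfg 4 i)) := by
  cases a; cases b; rfl
theorem dnR5_eq (a b : B) : dnR5 a b = mkB (cut (sz 5) fun i => dnS 4 a b (cfg 5 i)) := by
  cases a; cases b; rfl
theorem dnR6_eq (a b : B) : dnR6 a b = mkB (cut (sz 6) fun i => dnS 4 a b (cfg 6 i)) := by
  cases a; cases b; rfl
theorem dnR7_eq (a b : B) : dnR7 a b = mkB (cut (sz 7) fun i => dnS 4 a b (cfg 7 i)) := by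
  cases a; cases b; rfl
theorem dnR8_eq (a b : B) : dnR8 a b = mkB (cut (sz 8) fun i => dnS 4 a b (cfg 8 i)) := by
  cases a; cases b; rfl
theorem dnR9_eq (a b : B) : dnR9 a b = mkB (cut (sz 9) fun i => dnS 4 a b (cfg 9 i)) := by
  cases a; cases b; rfl
theorem dnR10_eq (a b : B) : dnR10 a b = mkB (cut (sz 10) fun i => dnS 4 a b (cfg 10 i)) := by
  cases a; cases b; rfl
theorem dnR_eq (s : Nat) (hs : s ≤ 10) (a b : B) :
    dnR s a b = mkB (cut (sz s) fun i => dnS 4 a b (cfg s i)) := by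
  interval_cases s
  exacts [dnR0_eq a b, dnR1_eq a b, dnR2_eq a b, dnR3_eq a b, dnR4_eq a b, dnR5_eq a b, dnR6_eq a b, dnR7_eq a b, dnR8_eq a b, dnR9_eq a b, dnR10_eq a b]

theorem addB_eq (a b : B) : addB a b = mkB fun i => Nat.add (getB a i) (getB b i) := by
  cases a; cases b; rfl
theorem negB_eq (M : Nat) (a : B) : negB M a = mkB fun i => Nat.sub M (getB a i) := by
  cases a; rfl
theorem zeroB_eq : zeroB = mkB fun _ => 0 := rfl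
theorem getB_mkB (f : Nat → Nat) (i : Nat) (hi : i < 51) : getB (mkB f) i = f i := by
  interval_cases i <;> rfl
theorem tab (c : Nat) (hc : c < 243) :
    dsC 5 c ≤ 10 ∧ rk c < sz (dsC 5 c) ∧ rk c < 51 ∧ cfg (dsC 5 c) (rk c) = c := by
  revert c; decide +kernel

end Vale.Agent.P348
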