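import Vale.Agent.P348.Pure

/-! The space-time bootstrap. `Z n L` is a power sum both in `n` and in `L`. -/

namespace Vale.Agent.P348

/-- One doubling step. `Z (2n) L ^ 2 ≤ Z n L ^ 4 ≤ (1+e) ^ 2 * Z n (2L) ^ 2 ≤ (1+e) ^ 3 * Z (2n) (2L)`;
`sq_step` in `L` with `τ = (1+e) ^ 3 - 1 ≤ 3.4 e` gives the first claim (even with `6.8 e ^ 2`). Symmetrically
`Z n (4L) ^ 2 ≤ Z n (2L) ^ 4 ≤ (1+e) ^ 2 * Z (2n) (2L) ^ 2 ≤ (1+e) ^ 2 (1 + 7 e ^ 2) * Z (2n) (4L)` and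
`sq_step` in `n` with `τ ≤ 3.25 e`. -/
theorem boot_step (Z : ℕ → ℕ → ℝ) (hT : ∀ L, 2 ≤ L → LimPS fun n => Z n L)
    (hS : ∀ n, 1 ≤ n → LimPS (Z n))
    (hpos : ∀ n L, 2 ≤ n → 2 ≤ L → Even n → Even L → 0 < Z n L)
    {n L : ℕ} (hn : 2 ≤ n) (hL : 2 ≤ L) (en : Even n) (eL : Even L) {e : ℝ} (h0 : 0 ≤ e)
    (h1 : e ≤ 1 / 8) (hX : Z n L ^ 2 ≤ (1 + e) * Z n (2 * L))
    (hY : Z n (2 * L) ^ 2 ≤ (1 + e) * Z (2 * n) (2 * L)) :
    Z (2 * n) (2 * L) ^ 2 ≤ (1 + 7 * e ^ 2) * Z (2 * n) (4 * L) ∧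
    Z (2 * n) (4 * L) ^ 2 ≤ (1 + 7 * e ^ 2) * Z (4 * n) (4 * L) := by
  have e2n : Even (2 * n) := even_two_mul n
  have e2L : Even (2 * L) := even_two_mul L
  have e4L : Even (4 * L) := Even.mul_left eL 4
  have p1 := hpos n L hn hL en eL
  have p2 := hpos n (2 * L) hn (by omega) en e2L
  have p3 := hpos (2 * n) L (by omega) hL e2n eL
  have p4 := hpos (2 * n) (2 * L) (by omega) (by omega) e2n e2L
  have p5 := hpos n (4 * L) hn (by omega) en e4L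
  have p6 := hpos (2 * n) (4 * L) (by omega) (by omega) e2n e4L
  have p7 := hpos (4 * n) (4 * L) (by omega) (by omega) (Even.mul_left en 4) e4L
  have first : Z (2 * n) (2 * L) ^ 2 ≤ (1 + 7 * e ^ 2) * Z (2 * n) (4 * L) := by
    obtain ⟨l, hl⟩ := (hT L hL).lead
    have k1 : Z (2 * n) L ≤ Z n L ^ 2 := by
      have := hl.pow_le (k := 2) hn en (by norm_num)
      rwa [mul_comm n 2] at this
    have k2 : Z (2 * n) L ^ 2 ≤ (1 + 17 / 5 * e) * Z (2 * n) (2 * L) := by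
      calc Z (2 * n) L ^ 2 ≤ ((1 + e) * Z n (2 * L)) ^ 2 := pow_le_pow_left₀ p3.le (k1.trans hX) 2
        _ = (1 + e) ^ 2 * Z n (2 * L) ^ 2 := by ring
        _ ≤ (1 + e) ^ 2 * ((1 + e) * Z (2 * n) (2 * L)) :=
          mul_le_mul_of_nonneg_left hY (by positivity)
        _ = (1 + e) ^ 3 * Z (2 * n) (2 * L) := by ring
        _ ≤ _ := mul_le_mul_of_nonneg_right (by nlinarith [mul_nonneg h0 h0]) p4.le
    have k3 := (hS (2 * n) (by omega)).sq_step hL eL p3 (by positivity) (by linarith) k2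
    refine k3.trans (mul_le_mul_of_nonneg_right ?_ p6.le)
    have k4 : e ^ 2 ≤ 1 / 64 := by nlinarith
    nlinarith [sq_nonneg e]
  refine ⟨first, ?_⟩
  obtain ⟨l, hl⟩ := (hS n (by omega)).lead
  have k1 : Z n (4 * L) ≤ Z n (2 * L) ^ 2 := by
    have := hl.pow_le (n := 2 * L) (k := 2) (by omega) e2L (by norm_num)
    rwa [show 2 * L * 2 = 4 * L by ring] at this
  have k2 : Z n (4 * L) ^ 2 ≤ (1 + 13 / 4 * e) * Z (2 * n) (4 * L) := by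
    calc Z n (4 * L) ^ 2 ≤ ((1 + e) * Z (2 * n) (2 * L)) ^ 2 :=
          pow_le_pow_left₀ p5.le (k1.trans hY) 2
      _ = (1 + e) ^ 2 * Z (2 * n) (2 * L) ^ 2 := by ring
      _ ≤ (1 + e) ^ 2 * ((1 + 7 * e ^ 2) * Z (2 * n) (4 * L)) :=
        mul_le_mul_of_nonneg_left first (by positivity)
      _ = ((1 + e) ^ 2 * (1 + 7 * e ^ 2)) * Z (2 * n) (4 * L) := by ring
      _ ≤ _ := by
        refine mul_le_mul_of_nonneg_right ?_ p6.le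
        have k4 : e ^ 2 ≤ e / 8 := by nlinarith
        have k5 : e ^ 3 ≤ e / 64 := by nlinarith
        have k6 : e ^ 4 ≤ e / 512 := by nlinarith
        nlinarith
  have k3 := (hT (4 * L) (by omega)).sq_step hn en p5 (by positivity) (by linarith) k2
  refine k3.trans (mul_le_mul_of_nonneg_right ?_ p7.le)
  have k4 : e ^ 2 ≤ 1 / 64 := by nlinarith
  nlinarith [sq_nonneg e]

/-- Intermediate lengths. Let `l1`, `l2` lead `Z n` and `Z (2n)`. By `defect_le` and `le_mul`,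
`Z n M ≤ (1+e) l1 ^ M`; `l2 ^ M ≤ Z (2n) M`; and
`l1 ^ (4L) ≤ Z n (2L) ^ 2 ≤ (1+e) Z (2n) (2L) ≤ (1+e) ^ 2 l2 ^ (2L)`, so `(l1 ^ 2 / l2) ^ M ≤ (1+e) ^ 2`. -/
theorem boot_mid (Z : ℕ → ℕ → ℝ) (hS : ∀ n, 1 ≤ n → LimPS (Z n))
    (hpos : ∀ n L, 2 ≤ n → 2 ≤ L → Even n → Even L → 0 < Z n L)
    {n L M : ℕ} (hn : 2 ≤ n) (hL : 2 ≤ L) (en : Even n) (eL : Even L) (eM : Even M)
    (hLM : L ≤ M) (hM : M ≤ 2 * L) {e : ℝ} (h0 : 0 ≤ e)
    (hX : Z n L ^ 2 ≤ (1 + e) * Z n (2 * L))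
    (hY : Z n (2 * L) ^ 2 ≤ (1 + e) * Z (2 * n) (2 * L))
    (hX' : Z (2 * n) (2 * L) ^ 2 ≤ (1 + e) * Z (2 * n) (4 * L)) :
    Z n M ^ 2 ≤ (1 + e) ^ 4 * Z (2 * n) M := by
  have e2n : Even (2 * n) := even_two_mul n
  have e2L : Even (2 * L) := even_two_mul L
  have p1 := hpos n L hn hL en eL
  have p4 := hpos (2 * n) (2 * L) (by omega) (by omega) e2n e2L
  have p5 := hpos n M hn (by omega) en eM
  obtain ⟨l1, h1⟩ := (hS n (by omega)).lead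
  obtain ⟨l2, h2⟩ := (hS (2 * n) (by omega)).lead
  obtain ⟨q1, d1⟩ := h1.defect_le hL eL p1 hX
  obtain ⟨q2, d2⟩ := h2.defect_le (n := 2 * L) (by omega) e2L p4
    (by rw [show 2 * (2 * L) = 4 * L by ring]; exact hX')
  have k1 : Z n M ≤ (1 + e) * l1 ^ M := by
    obtain ⟨m, rfl⟩ := Nat.exists_eq_add_of_le hLM
    have em : Even m := (Nat.even_add.mp eM).mp eL
    calc Z n (L + m) ≤ l1 ^ m * Z n L := h1.le_mul hL eL em
      _ ≤ l1 ^ m * ((1 + e) * l1 ^ L) := mul_le_mul_of_nonneg_left d1 (by positivity)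
      _ = _ := by ring
  have k2 : l2 ^ M ≤ Z (2 * n) M := h2.le M (by omega) eM
  have k3 : (l1 ^ 2 / l2) ^ (2 * L) ≤ (1 + e) ^ 2 := by
    rw [div_pow, div_le_iff₀ (by positivity), ← pow_mul, mul_comm 2 (2 * L), pow_mul l1]
    calc (l1 ^ (2 * L)) ^ 2 ≤ Z n (2 * L) ^ 2 :=
          pow_le_pow_left₀ (by positivity) (h1.le _ (by omega) e2L) 2
      _ ≤ (1 + e) * Z (2 * n) (2 * L) := hY
      _ ≤ (1 + e) * ((1 + e) * l2 ^ (2 * L)) := mul_le_mul_of_nonneg_left d2 (by positivity)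
      _ = _ := by ring
  have k4 : (l1 ^ 2 / l2) ^ M ≤ (1 + e) ^ 2 := by
    rcases le_total (l1 ^ 2 / l2) 1 with h | h
    · exact (pow_le_one₀ (by positivity) h).trans (one_le_pow₀ (by linarith))
    · exact (pow_le_pow_right₀ h hM).trans k3
  rw [div_pow, div_le_iff₀ (by positivity), ← pow_mul, mul_comm 2 M, pow_mul] at k4
  calc Z n M ^ 2 ≤ ((1 + e) * l1 ^ M) ^ 2 := pow_le_pow_left₀ p5.le k1 2
    _ = (1 + e) ^ 2 * (l1 ^ M) ^ 2 := by ring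
    _ ≤ (1 + e) ^ 2 * ((1 + e) ^ 2 * l2 ^ M) := mul_le_mul_of_nonneg_left k4 (by positivity)
    _ = (1 + e) ^ 4 * l2 ^ M := by ring
    _ ≤ _ := mul_le_mul_of_nonneg_left k2 (by positivity)

/-- Induction with `e j = (7/8) ^ (2 ^ j) / 7`, so that `e (j+1) = 7 * e j ^ 2` and `e 0 = 1/8`;
`(1 + e) ^ 4 ≤ 1 + 7 e` for `e ≤ 1/8`; choose `j` with `60 * 2 ^ j ≤ M ≤ 60 * 2 ^ (j + 1)`. -/
theorem boot_all (Z : ℕ → ℕ → ℝ) (hT : ∀ L, 2 ≤ L → LimPS fun n => Z n L)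
    (hS : ∀ n, 1 ≤ n → LimPS (Z n))
    (hpos : ∀ n L, 2 ≤ n → 2 ≤ L → Even n → Even L → 0 < Z n L)
    (hX : Z 8 60 ^ 2 ≤ (1 + 1 / 8) * Z 8 120) (hY : Z 8 120 ^ 2 ≤ (1 + 1 / 8) * Z 16 120)
    (M : ℕ) (eM : Even M) (hM : 60 ≤ M) :
    ∃ j : ℕ, Z (8 * 2 ^ j) M ^ 2 ≤ (1 + (7 / 8) ^ (2 ^ j)) * Z (2 * (8 * 2 ^ j)) M := by
  have hb : ∀ j : ℕ, 0 ≤ ((7 : ℝ) / 8) ^ (2 ^ j) / 7 ∧ ((7 : ℝ) / 8) ^ (2 ^ j) / 7 ≤ 1 / 8 := by
    intro j
    refine ⟨by positivity, ?_⟩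
    have : ((7 : ℝ) / 8) ^ (2 ^ j) ≤ (7 / 8) ^ 1 :=
      pow_le_pow_of_le_one (by norm_num) (by norm_num) Nat.one_le_two_pow
    linarith
  have hstep : ∀ j : ℕ, ((7 : ℝ) / 8) ^ (2 ^ (j + 1)) / 7 = 7 * (((7 : ℝ) / 8) ^ (2 ^ j) / 7) ^ 2 := by
    intro j
    rw [pow_succ, pow_mul]
    ring
  have hev : ∀ c j : ℕ, Even c → 2 ≤ c → 2 ≤ c * 2 ^ j ∧ Even (c * 2 ^ j) := by
    intro c j hc h2
    exact ⟨h2.trans (Nat.le_mul_of_pos_right c (by positivity)), hc.mul_right _⟩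
  have key : ∀ j : ℕ,
      Z (8 * 2 ^ j) (60 * 2 ^ j) ^ 2 ≤
        (1 + ((7 : ℝ) / 8) ^ (2 ^ j) / 7) * Z (8 * 2 ^ j) (2 * (60 * 2 ^ j)) ∧
      Z (8 * 2 ^ j) (2 * (60 * 2 ^ j)) ^ 2 ≤
        (1 + ((7 : ℝ) / 8) ^ (2 ^ j) / 7) * Z (2 * (8 * 2 ^ j)) (2 * (60 * 2 ^ j)) := by
    intro j
    induction j with
    | zero =>
      norm_num at hX hY ⊢
      exact ⟨hX, hY⟩
    | succ j ih =>
      have h := boot_step Z hT hS hpos (hev 8 j (by decide) (by norm_num)).1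
        (hev 60 j (by decide) (by norm_num)).1 (hev 8 j (by decide) (by norm_num)).2
        (hev 60 j (by decide) (by norm_num)).2 (hb j).1 (hb j).2 ih.1 ih.2
      rw [hstep, show 2 * (8 * 2 ^ (j + 1)) = 4 * (8 * 2 ^ j) by ring,
        show 2 * (60 * 2 ^ (j + 1)) = 4 * (60 * 2 ^ j) by ring,
        show 8 * 2 ^ (j + 1) = 2 * (8 * 2 ^ j) by ring,
        show 60 * 2 ^ (j + 1) = 2 * (60 * 2 ^ j) by ring]
      exact h
  have hj : ∃ j : ℕ, 60 * 2 ^ j ≤ M ∧ M ≤ 2 * (60 * 2 ^ j) := by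
    refine ⟨Nat.log 2 (M / 60), ?_, ?_⟩
    · have := Nat.pow_log_le_self 2 (show M / 60 ≠ 0 by omega)
      omega
    · have := Nat.lt_pow_succ_log_self (b := 2) (by norm_num) (M / 60)
      rw [pow_succ] at this
      omega
  obtain ⟨j, hj1, hj2⟩ := hj
  refine ⟨j, ?_⟩
  have h := boot_step Z hT hS hpos (hev 8 j (by decide) (by norm_num)).1
    (hev 60 j (by decide) (by norm_num)).1 (hev 8 j (by decide) (by norm_num)).2
    (hev 60 j (by decide) (by norm_num)).2 (hb j).1 (hb j).2 (key j).1 (key j).2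
  have p6 := hpos (2 * (8 * 2 ^ j)) (4 * (60 * 2 ^ j)) (by omega) (by omega) (even_two_mul _)
    (Even.mul_right (by decide) _)
  have pM := hpos (2 * (8 * 2 ^ j)) M (by omega) (by omega) (even_two_mul _) eM
  obtain ⟨h0, h1⟩ := hb j
  have h3 := boot_mid Z hS hpos (hev 8 j (by decide) (by norm_num)).1
    (hev 60 j (by decide) (by norm_num)).1 (hev 8 j (by decide) (by norm_num)).2
    (hev 60 j (by decide) (by norm_num)).2 eM hj1 hj2 h0 (key j).1 (key j).2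
    (h.1.trans (mul_le_mul_of_nonneg_right (by nlinarith) p6.le))
  refine h3.trans (mul_le_mul_of_nonneg_right ?_ pM.le)
  set e := ((7 : ℝ) / 8) ^ (2 ^ j) / 7 with he
  have h7 : ((7 : ℝ) / 8) ^ (2 ^ j) = 7 * e := by rw [he]; ring
  rw [h7]
  have k4 : e ^ 2 ≤ e / 8 := by nlinarith
  have k5 : e ^ 3 ≤ e / 64 := by nlinarith
  have k6 : e ^ 4 ≤ e / 512 := by nlinarith
  nlinarith

/-- For a finite positive family with largest member `x i0`: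
`∑ x ^ (2n) ≤ x i0 ^ n * ∑ x ^ n`, so `x i0 ^ n + x i ^ n ≤ ∑ x ^ n ≤ (1 + η) x i0 ^ n`. -/
theorem gap_of_pure {κ : Type} [Fintype κ] [Nonempty κ] (x : κ → ℝ) (hx : ∀ i, 0 < x i) (n : ℕ) (η : ℝ)
    (h : (∑ i, x i ^ n) ^ 2 ≤ (1 + η) * ∑ i, x i ^ (2 * n)) :
    ∃ i0, ∀ i, i ≠ i0 → x i ^ n ≤ η * x i0 ^ n := by
  classical
  obtain ⟨i0, -, hi0⟩ := Finset.exists_max_image Finset.univ x Finset.univ_nonempty
  refine ⟨i0, fun i hi => ?_⟩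
  have hp : ∀ j, 0 < x j ^ n := fun j => pow_pos (hx j) n
  have hS : 0 < ∑ j, x j ^ n := Finset.sum_pos (fun j _ => hp j) Finset.univ_nonempty
  have h1 : ∑ j, x j ^ (2 * n) ≤ x i0 ^ n * ∑ j, x j ^ n := by
    rw [Finset.mul_sum]
    refine Finset.sum_le_sum fun j _ => ?_
    rw [two_mul, pow_add]
    exact mul_le_mul_of_nonneg_right
      (pow_le_pow_left₀ (hx j).le (hi0 j (Finset.mem_univ j)) n) (hp j).le
  have h2 : 0 ≤ ∑ j, x j ^ (2 * n) := Finset.sum_nonneg fun j _ => (pow_pos (hx j) _).le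
  have h3 : 0 ≤ 1 + η := by
    by_contra hc
    have := mul_nonpos_of_nonpos_of_nonneg (not_le.mp hc).le h2
    nlinarith
  have h4 : (∑ j, x j ^ n) * ∑ j, x j ^ n ≤ ((1 + η) * x i0 ^ n) * ∑ j, x j ^ n := by
    have := mul_le_mul_of_nonneg_left h1 h3
    nlinarith
  have h5 := le_of_mul_le_mul_right h4 hS
  have h6 : ∑ j ∈ ({i, i0} : Finset κ), x j ^ n ≤ ∑ j, x j ^ n :=
    Finset.sum_le_sum_of_subset_of_nonneg (Finset.subset_univ _) fun j _ _ => (hp j).le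
  rw [Finset.sum_pair hi] at h6
  linarith

end Vale.Agent.P348
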