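import Vale.Agent.P348.Pure

/-! The first step of the bootstrap, resolved in symmetry sectors.
`Z, Zt, Zs, Zd, Zo` are the partition functions with no twist, a time twist, a space twist, equal twists
and different twists. Time sectors: `a = (Z + 3 Zt)/4`, `b = (Z - Zt)/4`, `a0 = (Zs + Zd + 2 Zo)/4`,
`az = (Zs + Zd - 2 Zo)/4`, `ax = (Zs - Zd)/4`, so `Z = a + 3 b`, `Zs = a0 + az + 2 ax`.
Space sectors: `A = (Z + 3 Zs)/4`, `B = (Z - Zs)/4`, `P = (Zt + Zd + 2 Zo)/4`, `Q = (Zt + Zd - 2 Zo)/4`,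
`X = (Zt - Zd)/4`, so `Z = A + 3 B`, `Zs = A - B`, `Zt = P + Q + 2 X`, `az = (A - B - P + 3 Q - 2 X)/4`,
`a0 = (A - B + 3 P - Q - 2 X)/4`, `ax = (A - B - P - Q + 2 X)/4`; all sectors are `≥ 0` at even arguments.
Second claim: `sector_pure` for `a, b` at `L = 120`, `n = 2`, `k = 4`, `t = 1.0403`, `d = 0.2453`,
`w = d ^ 4 + 3 (t/3) ^ 4 < 0.048`.
First claim: at `L = 30`: `a 2 ≤ 1.07748`, `a 2 ≥ l ^ 2 ≥ 1` (`lead_ge_one`), so `b 2 ≤ 0.078` and
`Z 8 30 ≤ a 2 ^ 4 + 3 b 2 ^ 4 ≤ 1.348`; `az 2 ≤ 1.045`, `o = a0 2 + 2 ax 2 ≤ 1.045`, `az 2 + o ≤ 1.195`, so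
`Zs 8 30 ≤ az ^ 4 + o ^ 4 ≤ 1.045 ^ 4 + 0.15 ^ 4 ≤ 1.1931` (`maj2`). Then `sector_pure` for `A, B` at
`n = 8` as functions of `L`, with `30`, `k = 2`, `t = 0.348`, `d = 0.2319`, `w = 0.0585`. -/

namespace Vale.Agent.P348

theorem boot0 (Z Zt Zs Zd Zo : ℕ → ℕ → ℝ)
    (ta : ∀ L, 2 ≤ L → LimPS fun n => (Z n L + 3 * Zt n L) / 4)
    (tb : ∀ L, 2 ≤ L → LimPS fun n => (Z n L - Zt n L) / 4)
    (t0 : ∀ L, 2 ≤ L → LimPS fun n => (Zs n L + Zd n L + 2 * Zo n L) / 4)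
    (tz : ∀ L, 2 ≤ L → LimPS fun n => (Zs n L + Zd n L - 2 * Zo n L) / 4)
    (tx : ∀ L, 2 ≤ L → LimPS fun n => (Zs n L - Zd n L) / 4)
    (sA : ∀ n, 1 ≤ n → LimPS fun L => (Z n L + 3 * Zs n L) / 4)
    (sB : ∀ n, 1 ≤ n → LimPS fun L => (Z n L - Zs n L) / 4)
    (sP : ∀ n, 1 ≤ n → LimPS fun L => (Zt n L + Zd n L + 2 * Zo n L) / 4)
    (sQ : ∀ n, 1 ≤ n → LimPS fun L => (Zt n L + Zd n L - 2 * Zo n L) / 4)
    (sX : ∀ n, 1 ≤ n → LimPS fun L => (Zt n L - Zd n L) / 4)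
    (hlow : ∀ n L, 2 ≤ n → 2 ≤ L → Even n → Even L → 1 ≤ Z n L)
    (A30 : (Z 2 30 + 3 * Zs 2 30) / 4 ≤ 1195 / 1000) (B30 : (Z 2 30 - Zs 2 30) / 4 ≤ 13 / 1000)
    (P30 : (Zt 2 30 + Zd 2 30 + 2 * Zo 2 30) / 4 ≤ 133 / 10000)
    (Q30 : (Zt 2 30 + Zd 2 30 - 2 * Zo 2 30) / 4 ≤ 995 / 1000)
    (X30 : (Zt 2 30 - Zd 2 30) / 4 ≤ 85 / 10000)
    (A120 : (Z 2 120 + 3 * Zs 2 120) / 4 ≤ 204 / 100) (B120 : (Z 2 120 - Zs 2 120) / 4 ≤ 1 / 10000)
    (P120 : (Zt 2 120 + Zd 2 120 + 2 * Zo 2 120) / 4 ≤ 1 / 10000)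
    (Q120 : (Zt 2 120 + Zd 2 120 - 2 * Zo 2 120) / 4 ≤ 98 / 100)
    (X120 : (Zt 2 120 - Zd 2 120) / 4 ≤ 1 / 10000) :
    Z 8 60 ^ 2 ≤ (1 + 1 / 8) * Z 8 120 ∧ Z 8 120 ^ 2 ≤ (1 + 1 / 8) * Z 16 120 := by
  have nn : ∀ {t : ℕ → ℝ}, LimPS t → ∀ n, 2 ≤ n → Even n → 0 ≤ t n := fun h n hn he => by
    obtain ⟨l, hl⟩ := h.lead
    exact hl.nonneg_even hn he
  have p4 : ∀ {t : ℕ → ℝ}, LimPS t → t 8 ≤ t 2 ^ 4 := fun h => by
    obtain ⟨l, hl⟩ := h.lead
    exact hl.pow_le (n := 2) (k := 4) le_rfl (by decide) (by norm_num)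
  constructor
  · have nA := nn (sA 2 (by norm_num)) 30 (by norm_num) (by decide)
    have nB := nn (sB 2 (by norm_num)) 30 (by norm_num) (by decide)
    have nP := nn (sP 2 (by norm_num)) 30 (by norm_num) (by decide)
    have nQ := nn (sQ 2 (by norm_num)) 30 (by norm_num) (by decide)
    have nX := nn (sX 2 (by norm_num)) 30 (by norm_num) (by decide)
    have na := nn (ta 30 (by norm_num)) 2 le_rfl (by decide)
    have nb := nn (tb 30 (by norm_num)) 2 le_rfl (by decide)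
    have n0 := nn (t0 30 (by norm_num)) 2 le_rfl (by decide)
    have nz := nn (tz 30 (by norm_num)) 2 le_rfl (by decide)
    have nx := nn (tx 30 (by norm_num)) 2 le_rfl (by decide)
    have qa := p4 (ta 30 (by norm_num))
    have qb := p4 (tb 30 (by norm_num))
    have q0 := p4 (t0 30 (by norm_num))
    have qz := p4 (tz 30 (by norm_num))
    have qx := p4 (tx 30 (by norm_num))
    obtain ⟨l, hl⟩ := (ta 30 (by norm_num)).lead
    have hl1 : 1 ≤ l := lead_ge_one hl (tb 30 (by norm_num)) (n := 2) le_rfl (by decide)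
      (by linarith) (fun k hk => by
        have := hlow (2 * k) 30 (by omega) (by norm_num) (even_two_mul k) (by decide)
        linarith)
    have ha1 : 1 ≤ (Z 2 30 + 3 * Zt 2 30) / 4 :=
      (one_le_pow₀ hl1).trans (hl.le 2 le_rfl (by decide))
    beta_reduce at nA nB nP nQ nX na nb n0 nz nx qa qb q0 qz qx
    have ra : ((Z 2 30 + 3 * Zt 2 30) / 4) ^ 4 ≤ (107748 / 100000) ^ 4 :=
      pow_le_pow_left₀ na (by linarith) 4
    have rb : ((Z 2 30 - Zt 2 30) / 4) ^ 4 ≤ (78 / 1000) ^ 4 :=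
      pow_le_pow_left₀ nb (by linarith) 4
    have hZ : Z 8 30 ≤ 1348 / 1000 := by
      norm_num at ra rb
      linarith
    have ro : ((Zs 2 30 + Zd 2 30 + 2 * Zo 2 30) / 4) ^ 4 + 2 * ((Zs 2 30 - Zd 2 30) / 4) ^ 4 ≤
        ((Zs 2 30 + Zd 2 30 + 2 * Zo 2 30) / 4 + 2 * ((Zs 2 30 - Zd 2 30) / 4)) ^ 4 := by
      refine le_trans ?_ (pow_add_pow_le n0 (by linarith) (by norm_num))
      rw [mul_pow]
      have := pow_nonneg nx 4
      linarith
    have rz := maj2 (s := 1045 / 1000) (m := 1195 / 1000) 4 (by norm_num) nz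
      (show 0 ≤ (Zs 2 30 + Zd 2 30 + 2 * Zo 2 30) / 4 + 2 * ((Zs 2 30 - Zd 2 30) / 4) by linarith)
      (by linarith) (by linarith) (by linarith) (by norm_num) (by norm_num)
    have hZs : Zs 8 30 ≤ 11931 / 10000 := by
      have e : ((1045 : ℝ) / 1000) ^ 4 + (1195 / 1000 - 1045 / 1000) ^ 4 ≤ 11931 / 10000 := by
        norm_num
      linarith
    have h := sector_pure (sA 8 (by norm_num)) (sB 8 (by norm_num)) (n := 30) (k := 2)
      (by norm_num) (by decide) (by norm_num) (d := 2319 / 10000) (t := 348 / 1000)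
      (w := 585 / 10000) (by linarith) (by linarith) (by norm_num)
      (fun k hk => by
        have := hlow 8 (30 * k) (by norm_num) (by omega) (by decide) (Even.mul_right (by decide) k)
        linarith)
      (fun u h0 h1 _ => by nlinarith)
    have hp := hlow 8 120 (by norm_num) (by norm_num) (by decide) (by decide)
    have e1 : (Z 8 60 + 3 * Zs 8 60) / 4 + 3 * ((Z 8 60 - Zs 8 60) / 4) = Z 8 60 := by ring
    have e2 : (Z 8 120 + 3 * Zs 8 120) / 4 + 3 * ((Z 8 120 - Zs 8 120) / 4) = Z 8 120 := by ring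
    change ((Z 8 60 + 3 * Zs 8 60) / 4 + 3 * ((Z 8 60 - Zs 8 60) / 4)) ^ 2 ≤
      _ * ((Z 8 120 + 3 * Zs 8 120) / 4 + 3 * ((Z 8 120 - Zs 8 120) / 4)) at h
    rw [e1, e2] at h
    exact h.trans (mul_le_mul_of_nonneg_right (by norm_num) (by linarith))
  · have h := sector_pure (ta 120 (by norm_num)) (tb 120 (by norm_num)) (n := 2) (k := 4)
      le_rfl (by decide) (by norm_num) (d := 2453 / 10000) (t := 10403 / 10000)
      (w := 48 / 1000) (by linarith) (by linarith) (by norm_num)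
      (fun k hk => by
        have := hlow (2 * k) 120 (by omega) (by norm_num) (even_two_mul k) (by decide)
        linarith)
      (fun u h0 h1 h2 => by
        have k1 : u ^ 4 ≤ (2453 / 10000) ^ 4 := pow_le_pow_left₀ h0 h1 4
        have k2 : ((10403 / 10000 - u) / 3) ^ 4 ≤ (10403 / 30000) ^ 4 :=
          pow_le_pow_left₀ (by linarith) (by linarith) 4
        have e : ((2453 : ℝ) / 10000) ^ 4 + 3 * (10403 / 30000) ^ 4 ≤ 48 / 1000 := by norm_num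
        linarith)
    have hp := hlow 16 120 (by norm_num) (by norm_num) (by decide) (by decide)
    have e1 : (Z 8 120 + 3 * Zt 8 120) / 4 + 3 * ((Z 8 120 - Zt 8 120) / 4) = Z 8 120 := by ring
    have e2 : (Z 16 120 + 3 * Zt 16 120) / 4 + 3 * ((Z 16 120 - Zt 16 120) / 4) = Z 16 120 := by
      ring
    change ((Z 8 120 + 3 * Zt 8 120) / 4 + 3 * ((Z 8 120 - Zt 8 120) / 4)) ^ 2 ≤
      _ * ((Z 16 120 + 3 * Zt 16 120) / 4 + 3 * ((Z 16 120 - Zt 16 120) / 4)) at h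
    rw [e1, e2] at h
    exact h.trans (mul_le_mul_of_nonneg_right (by norm_num) (by linarith))

end Vale.Agent.P348
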