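import Vale.Agent.P348.Run
import Vale.Agent.P348.R9

/-! Generated: kernel runs. -/

set_option maxRecDepth 100000

namespace Vale.Agent.P348

def p9b_0_0 : List ℤ :=
  [3139, 30537, 335637, 4031991, 51941385, 708518907, 10140619797, 151230038319, 2337208463097, 37266735740139, 
   610834839947757, 10260660139502499, 176176336560547149, 3085127513935054731, 54993924804183130053, 
   996189182877336333651, 18310998107093900557401, 341080019417122915453227, 6430832813366617395704805, 
   122599776892577096652122547, 2361093511158282403077274125, 45895054893202826790154290207, 
   899724797341421097876509396205, 17776090523659843516370823046287, 353723411848637033588292788891277, 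
   7084911649662321770354292580217607, 142761751203136485632968793192539257, 
   2892540853746205635171002913445251123, 58903186129972126437714124096197240093, 
   1205057358785816461461194437751717102307, 24758225971553284029123653527102617451497]
def f9b_0_0 : List ℤ :=
  [1, 9, 117, 1755, 29169, 522099, 9878337, 195005043, 3977842113, 83413056231, 1796578769457, 39797662207851, 
   907212661860609, 21236075205318099, 507922532638297425, 12331791102922201935, 301911795809669571777, 
   7411685103118065388707, 181682688240958454456193, 4434501534411444500492163, 107589805967623455498132369, 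
   2592435793114816996039969239, 62017321621448110766577168249, 1472988666378813374332366380531, 
   34743620766802211218764863702433, 814143745042467656442949307061099, 18961150299823681844306949093773385, 
   439098639642686841048909768842714367, 10115516623648681707511530816159272721, 
   231915456280258371175785543142904217771, 5293745235458281913780266282891413520137]
theorem c9b_0_0 : run 3 9 144 false R9_0_0 p9b_0_0 f9b_0_0 = true := by
  decide +kernel

def p9b_3_0 : List ℤ :=
  [3108, 26838, 263826, 2840166, 32779170, 400008438, 5110672410, 67859301510, 931023789570, 13138257749742, 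
   189987173147106, 2806693028495838, 42252516467727354, 646817928954080526, 10051120557665129106, 
   158306830952139213786, 2523968493162915491586]
theorem c9b_3_0 : run 3 12 78 false R9_3_0 p9b_3_0 [] = true := by
  decide +kernel

def p9b_5_0 : List ℤ :=
  [828, 5544, 43164, 370152, 3406068, 33099084, 336043368, 3537068724, 38375843796, 427276434744, 4864896145764, 
   56484348096132, 667228581352584, 8003658675900348, 97337456201153268, 1198573113253941972, 
   14925910486206112020]
theorem c9b_5_0 : run 3 14 78 false R9_5_0 p9b_5_0 [] = true := by
  decide +kernel

def p9b_6_0 : List ℤ :=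
  [312, 1674, 10710, 75942, 579006, 4663674, 39224970, 341695782, 3064491774, 28167040242, 264384967410, 
   2526960542922, 24536104755354, 241552194569982, 2407154807321082, 24248436885332982, 246625477619314014]
theorem c9b_6_0 : run 3 15 78 false R9_6_0 p9b_6_0 [] = true := by
  decide +kernel

def p9b_7_0 : List ℤ :=
  [90, 342, 1638, 8766, 50526, 307602, 1952442, 12798666, 86032926, 589879098, 4108931118, 28991534958, 
   206740114794, 1487517998958, 10785213478494, 78721551301446, 577983902020830]
theorem c9b_7_0 : run 3 16 78 false R9_7_0 p9b_7_0 [] = true := by
  decide +kernel

def p9b_8_0 : List ℤ :=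
  [18, 36, 108, 360, 1260, 4536, 16632, 61776, 231660, 875196, 3326328, 12706092, 48747672, 187749000, 
   725636880, 2813491260, 10940617836]
theorem c9b_8_0 : run 3 17 78 false R9_8_0 p9b_8_0 [] = true := by
  decide +kernel

def p9a_8_0 : List ℤ :=
  [18, 36, 108, 360, 1260, 4536, 16632, 61776, 231660, 875124, 3324888, 12689460, 48601944, 186672600, 
   718560720]
theorem c9a_8_0 : run 3 17 68 true R9_8_0 p9a_8_0 [] = true := by
  decide +kernel

def p9b_9_0 : List ℤ :=
  [2, 0, 0, 0, 0, 0, 0, 0, 0, 0, 0, 0, 0, 0, 0, 0, 0]
theorem c9b_9_0 : run 3 18 78 false R9_9_0 p9b_9_0 [] = true := by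
  decide +kernel

end Vale.Agent.P348
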