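import Vale.Agent.P348.Run
import Vale.Agent.P348.R10
import Vale.Agent.P348.C9x0

/-! Generated: kernel runs. -/

set_option maxRecDepth 100000

namespace Vale.Agent.P348

def p10b_0_3 : List ℤ :=
  [920, 9460, 107280, 1308300, 16908760, 229333380, 3240989520, 47466778660, 717401483000, 11151297713060, 
   177782579234720, 2900541661447180, 48338002030257160, 821568058275392060, 14222405289549300560, 
   250488660759056222860, 4483974569202729357160, 81512143281471093886940, 1503585060130434398235920, 
   28123691750033379031047660, 533053186529617756800298680, 10231897129213462370166734260, 
   198782209445998500737106236560, 3906567464899577036614128336580, 77621352147902637984109855649000, 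
   1558535109951360866003734276380460, 31607647782169227082014221119295040, 
   647153755204305360649309599621099260, 13371203276316636827023332303254309480, 
   278674609397312330886986985639208219380, 5856149934283239921646760552204927203840, 
   124035559832508926675876056148745696890860, 2646901183739890444552591847245716368172840]
def f10b_0_3 : List ℤ :=
  [0, 0, 0, 0, 0, 0, 0, 0, 880, 81280, 4919080, 244947160, 5759865680, -329511977080, -48364717127360, 
   -3455132788256720, -187398889846896120, -8624129128120892160, -354250780996214086040, 
   -13371806335354856063560, -472649671174462773766200, -15851175373414417259659440, 
   -509244449520457788150748880, -15786680322190392702831566040, -474907442570322772894355731520, 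
   -13926067520907015034352315185600, -399504569734817950318134984853960, -11245434292838974402754519454421160, 
   -311357223399015794175209314868496120, -8496956781510658290218268520392784160, 
   -228952123420251982776176631037609480240, -6100225689401355700141680458753318118760, 
   -160923261603893406505962643877705086032440]
theorem c10b_0_3 : run 4 10 159 true R10_0_3 p10b_0_3 f10b_0_3 = true := by
  decide +kernel

end Vale.Agent.P348
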