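import Vale.Agent.P348.Run
import Vale.Agent.P348.R10
import Vale.Agent.P348.C10x6

/-! Generated: kernel runs. -/

set_option maxRecDepth 100000

namespace Vale.Agent.P348

def p10a_0_3 : List ℤ :=
  [920, 9460, 107280, 1308300, 16908760, 229333380, 3240989520, 47466778660, 717401483000, 11151297713060, 
   177782846900640, 2900572342784140, 48340009342159880, 821666858367904380, 14226481060012004560, 
   250637717546534865260, 4488971959512895589800, 81669122492164518160860, 1508274830036698721018800, 
   28258380476612731618029420, 536801421011614042498102200, 10333580428327564505946771220, 
   201483800808766518708163144560, 3977122057812410020289750020900, 79437844472884284299330429630120, 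
   1604748470525094810894076976332300, 32771672277018932420645851802849120, 
   676227768817068237901957270368406940, 14092256620571339086699601922236580840, 
   296450336419337374860315979713435763220, 6292151105628699246593374698479698336480, 
   134684088457594254718280777037509812285100, 2906035016721307573050950594907744337221480]
def f10a_0_3 : List ℤ :=
  [0, 0, 0, 0, 0, 0, 0, 0, 880, 81280, 4919080, 244947160, 16297900880, 1271820784520, 87354081448000, 
   5024984927631280, 248790166118943240, 10949341858266641920, 439417296176717191720, 16388717642243853718040, 
   576139686573777705078760, 19295744122751499285565840, 620742996597131822891191920, 
   19304973442608340068224760360, 583381358094660225512938613920, 17200910630186968584305524590080, 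
   496509574462356274397512731807320, 14069821208925188378149964086143480, 392321202343390636816996218924599240, 
   10785379799094713673905889705157984960, 292812405633589785757642993310362542000, 
   7861751793823639059085098886474026506840, 209004024523521426867950319148389115272680]
theorem c10a_0_3 : run 4 10 159 false R10_0_3 p10a_0_3 f10a_0_3 = true := by
  decide +kernel

end Vale.Agent.P348
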