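import Vale.Agent.P348.Run
import Vale.Agent.P348.R10
import Vale.Agent.P348.C10x16

/-! Generated: kernel runs. -/

set_option maxRecDepth 100000

namespace Vale.Agent.P348

def p10b_0_9 : List ℤ :=
  [670, 8000, 105920, 1513740, 22981760, 366643780, 6097775640, 105078361380, 1867132288720, 34077109664460, 
   636767895897480, 12149666265934380, 236170607881077800, 4667909014847024300, 93654099660366562920, 
   1904616020733228998660, 39211387867729730939520, 816311705335485511414020, 17167641067525103052070280, 
   364415139519621713311391100, 7801454682234583256875077880, 168324163863942653033606560340, 
   3657957166149797986123217430320, 80021886585642055815443999649260, 1761316448978344986941401938377520, 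
   38987511692712264009895796121384940, 867545707481507064369640342634126440, 
   19398718871265173421066555797081097540, 435729264773432799055148173625752828960, 
   9828449382788308375199310947422165600300, 222561760365327338618025597249564004502880, 
   5058199174603241404535169705961523043755660, 115348674431304917536009920659476563600295800]
def f10b_0_9 : List ℤ :=
  [0, 0, 20, 640, 16300, 388680, 9075820, 210990400, 4916623980, 115152964120, 2710771867380, 63991623395760, 
   1508787416945020, 35357041792127120, 819230092245740020, 18668499915922273320, 416006587699354064540, 
   9002137904196608448520, 187292703780375947895740, 3684654108174001237651840, 66316256438527930831144820, 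
   1003859282286470819734616560, 8814393531072427447884102180, -178355403258435109099666797760, 
   -14077740293224238762726222923500, -580842256776210605634468873512840, -19899584462941332082368776338742540, 
   -622375067681459681068297419863019280, -18426223638899076687448712515920426180, 
   -525734631696756900776004230862067325240, -14604185415152110519803212437965281829900, 
   -397516444653573599368413445845063415583800, -10648176484134712763064775726915363308520300]
theorem c10b_0_9 : run 4 10 159 true R10_0_9 p10b_0_9 f10b_0_9 = true := by
  decide +kernel

end Vale.Agent.P348
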