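import Vale.Agent.P348.Run
import Vale.Agent.P348.R9

/-! Generated: kernel runs. -/

set_option maxRecDepth 100000

namespace Vale.Agent.P348

def p9b_1_0 : List ℤ :=
  [2970, 25722, 251946, 2695518, 30886290, 374180742, 4749004782, 62711043606, 857032374582, 12070863173250, 
   174624675150726, 2587716944115606, 39193132718543778, 605619695914903638, 9533317881146282586, 
   152691424063681450014, 2485859774956930194570, 41102501282170248197358, 689738543532688165808418, 
   11739852390285731679228738, 202567449620890117235378754, 3541533914355835212924924042, 
   62708069061313420366418377770, 1123993092480168029392807787718, 20384814652494752447982498761514, 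
   373887195112735864052918205332250, 6931767445350323459290654345614450, 129833415414423845088525470293992018, 
   2455439430701020118156693365825125558, 46862659302351089291684169177929683554, 
   902049881098715538981274518998977951038]
theorem c9b_1_0 : run 3 10 144 false R9_1_0 p9b_1_0 [] = true := by
  decide +kernel

def p9b_2_0 : List ℤ :=
  [4608, 42588, 446076, 5110596, 62776476, 815933988, 11115500004, 157579758504, 2311633547244, 34930736450784, 
   541677073324536, 8593301086193556, 139098265598804004, 2292196890453821208, 38381085764024662296, 
   651929445206810794116, 11217137993713376045964]
theorem c9b_2_0 : run 3 11 78 false R9_2_0 p9b_2_0 [] = true := by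
  decide +kernel

end Vale.Agent.P348
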