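import Vale.Agent.P348.Run
import Vale.Agent.P348.R10
import Vale.Agent.P348.C9x2

/-! Generated: kernel runs. -/

set_option maxRecDepth 100000

namespace Vale.Agent.P348

def p10b_0_2 : List ℤ :=
  [820, 8040, 86440, 997160, 12174920, 155834640, 2076330880, 28643982400, 407439046600, 5956006022560, 
   89242625115080, 1367732257112320, 21404510911370120, 341577554338470600, 5552252076285196480, 
   91843743104742155480, 1544916405806514393080, 26409714943013829839680, 458558089158749899292320, 
   8083401793979721533312160, 144603591298051091829054480, 2624069871600718809220669480, 
   48285086973554756758733804200, 900575880119682777176664651280, 17018470843710121431531254077680, 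
   325709029416780494647719087898840, 6310392555649064168171338725213920, 123708966691498758740855246627253600, 
   2452782867570687188975734205724291480, 49161030675887384178787810876879150880, 
   995579197955908818386586827897455775800, 20361655687774499805722033418520025744960, 
   420363404383839117776345652363848299129040]
def f10b_0_2 : List ℤ :=
  [0, 0, 0, 0, 0, 0, 0, 0, 0, 0, 158400, 18705280, 1334043360, 74483172160, 3500869082480, 141664230333520, 
   4959681384167880, 148598680529910440, 3633288212383080520, 59437525986045702720, -317885597366834039240, 
   -84316981335067777948120, -4893597614499025729343800, -214794043399322269294279680, 
   -8237675229147587919049081800, -290398302480785121670255486560, -9645647720906023104703085031800, 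
   -306243912490039583507365854515400, -9381342088762078728398166671414760, 
   -279105903112793635779683172436463000, -8103641256193606636853832504977288920, 
   -230468095787924645095248079813824039560, -6439248091742739689523867466317852828400]
theorem c10b_0_2 : run 4 10 159 true R10_0_2 p10b_0_2 f10b_0_2 = true := by
  decide +kernel

end Vale.Agent.P348
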