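import Vale.Agent.P348.Run
import Vale.Agent.P348.R10
import Vale.Agent.P348.C10x7

/-! Generated: kernel runs. -/

set_option maxRecDepth 100000

namespace Vale.Agent.P348

def p10a_0_2 : List ℤ :=
  [820, 8040, 86440, 997160, 12174920, 155834640, 2076330880, 28643982400, 407439046600, 5956006022560, 
   89242713609880, 1367741956176800, 21405118431133640, 341606224647894760, 5553387850333069040, 
   91883694188105941880, 1546206713285550046120, 26448819172826802181280, 459686837511086312696560, 
   8114766727379265616228640, 145449223871932099300117040, 2646323069280637120391158120, 
   48859295619299483526273933640, 915156550582521043040014812560, 17383863924383844365195758690960, 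
   334766789912534423608458377912600, 6532915779777174988805210027685280, 129135152400601827537391586824559360, 
   2584285523379722370359675826563812200, 52331757020060988490776387020963788480, 
   1071709390946917197113882188281403143640, 22183277083005865786480015298684345772000, 
   463828608397833111133249753829473094882640]
def f10a_0_2 : List ℤ :=
  [0, 0, 0, 0, 0, 0, 0, 0, 0, 0, 158400, 18705280, 1334043360, 74483172160, 3657790006640, 168451133603920, 
   7474291034671560, 320560332800574120, 13215610548089399880, 521197841581297017280, 19636538444114149579800, 
   707854607265396357225000, 24491905932805944502420200, 816524040999047560858247840, 
   26332050585441495955169307160, 824473632989499957071800972800, 25148077258011232974964450601320, 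
   749491809595841228863273737751000, 21882914848700722098522425450817560, 627363330307893490573412733410742600, 
   17696274683918098006782282914827950280, 491989772105251069222273103794050006840, 
   13502340174435911046276480818162334902960]
theorem c10a_0_2 : run 4 10 159 false R10_0_2 p10a_0_2 f10a_0_2 = true := by
  decide +kernel

end Vale.Agent.P348
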