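import Vale.Agent.P348.Run
import Vale.Agent.P348.R10
import Vale.Agent.P348.C10x17

/-! Generated: kernel runs. -/

set_option maxRecDepth 100000

namespace Vale.Agent.P348

def p10b_0_8 : List ℤ :=
  [760, 9160, 120680, 1698440, 25192480, 390221680, 6269787560, 103955973280, 1771382600880, 30915839225440, 
   551114162866320, 10010873127004360, 184928314827005600, 3468103286011770480, 65932143919525108960, 
   1269009303065187677120, 24700950630100473842640, 485763103067118821886960, 9643415873099167680982440, 
   193112963374677415312036960, 3898373335297168575492252240, 79286159670797634732176376080, 
   1623799095213602341518159195720, 33472773668347964282419094491160, 694225037628230608769129405571240, 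
   14481078812297261490837011074994480, 303705249535511574396921324206176080, 
   6402162976964266572427863236736442000, 135615193209344499511795829902300589520, 
   2885968706068876565221215181029751531200, 61685059506081560078562844368358618028040, 
   1323990264412156506643056762339601385346160, 28531479620218907489306975053981337998919400]
def f10b_0_8 : List ℤ :=
  [0, 0, 0, 0, 120, 6800, 268000, 9103360, 285409880, 8509783600, 245087279400, 6881154480920, 189435152780200, 
   5132910732403280, 137232012462589440, 3626244279945441680, 94811279902346937480, 2454802307920677775800, 
   62979440446306779791440, 1601899219094112440635440, 40413883724665057225849520, 1011758003283251569400831400, 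
   25145253414244429394105169400, 620645053360195155936831899080, 15219644407764572125296941446800, 
   370933416785408467400585649473760, 8988001933380523548856944188260680, 216590708487466799667107901218982000, 
   5192149776449313500741044323021534640, 123849327786983621499622564342706335320, 
   2940182261764323609766250368974556722080, 69481744211692429320518446856804767317000, 
   1634749377402653914173879500700105793232480]
theorem c10b_0_8 : run 4 10 159 true R10_0_8 p10b_0_8 f10b_0_8 = true := by
  decide +kernel

end Vale.Agent.P348
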