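import Vale.Agent.P348.Run
import Vale.Agent.P348.R10

/-! Generated: kernel runs. -/

set_option maxRecDepth 100000

namespace Vale.Agent.P348

def p10b_0_1 : List ℤ :=
  [950, 8900, 92240, 1030960, 12234440, 152517200, 1981952880, 26692345720, 370897591040, 5298665517840, 
   77608204840280, 1162790681847000, 17789438249769760, 277495415923611000, 4408299888903695480, 
   71251835879936374160, 1170840053701910784120, 19548099042568497163200, 331430529218279089284720, 
   5703878799781061424099960, 99601962460083433292580760, 1764112249292570987371872040, 
   31680225679187511304106464280, 576623428975710515206484468280, 10633267159768110987579240850800, 
   198576212598389929039768320512600, 3753837033997966456015591771290120, 71795868217897172251435926302684680, 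
   1388595955499976186938345436851058520, 27143923916725737828703419765502436520, 
   535984693623274534679658365766157190120, 10685049399859395319204596325311255143200, 
   214935795676842002265052777194709860145480]
def f10b_0_1 : List ℤ :=
  [0, 0, 0, 0, 0, 0, 0, 0, 0, 0, 0, 0, 8712000, 1249751360, 105244745840, 6788846780160, 368513837586000, 
   17593926964994000, 757923727599331320, 29978027803821479640, 1103023515538906112240, 38147569657654449708120, 
   1250484278191498481462800, 39117424367505986606057040, 1174208061310463058471210040, 
   33974138878407067931111092640, 950906748699727224705147127480, 25818452012960216829149341299240, 
   681443749806820581726164918798120, 17508113818848751387017681463907200, 438170750105527699337975851890390080, 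
   10679821403949596078403130712470076920, 253199305854522318580347965777013888320]
theorem c10b_0_1 : run 4 10 159 true R10_0_1 p10b_0_1 f10b_0_1 = true := by
  decide +kernel

end Vale.Agent.P348
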