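import Vale.Agent.P348.Run
import Vale.Agent.P348.R10
import Vale.Agent.P348.C10x8

/-! Generated: kernel runs. -/

set_option maxRecDepth 100000

namespace Vale.Agent.P348

def p10a_0_1 : List ℤ :=
  [950, 8900, 92240, 1030960, 12234440, 152517200, 1981952880, 26692345720, 370897591040, 5298665517840, 
   77608250884600, 1162795612806200, 17789740921226320, 277509444604863480, 4408846627274206760, 
   71270779856418910640, 1171443320358581727080, 19566138895525828923360, 331944627439795062303840, 
   5717988757990869156949560, 99977841659758637592363640, 1773888392936347120405494440, 
   31929601774022375793857904840, 582884629515139522921289715160, 10788437429016140903008056154160, 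
   202380746153242944285207943152120, 3846295464637985660348528013607240, 74026411243278458464038349288014120, 
   1442082823905191070269499011657897880, 28420125235627504247668790276337675080, 
   566310795424843271552317530807286921880, 11403289764597339394178658895818764809120, 
   231901051359392916221197233228248557366040]
def f10a_0_1 : List ℤ :=
  [0, 0, 0, 0, 0, 0, 0, 0, 0, 0, 0, 0, 8712000, 1249751360, 105244745840, 6788846780160, 371960378283600, 
   18249459826024400, 825860761724351480, 35065476798249377880, 1411224581625070453680, 54189968258722015844120, 
   1994973746432763623322960, 70691171205955504668710000, 2419467425318298544749843160, 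
   80239568519273775768725538720, 2586133172643751399823137680920, 81223644981256509352067980980520, 
   2492052722559494525608757239076200, 74860004925241445413638209151648960, 
   2206178611537612160417374571215840160, 63903102572389330789555919944644744440, 
   1822237989667400817621921713312239669280]
theorem c10a_0_1 : run 4 10 159 false R10_0_1 p10a_0_1 f10a_0_1 = true := by
  decide +kernel

end Vale.Agent.P348
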