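import Vale.Agent.P348.Run
import Vale.Agent.P348.R10
import Vale.Agent.P348.C10x18

/-! Generated: kernel runs. -/

set_option maxRecDepth 100000

namespace Vale.Agent.P348

def p10a_0_9 : List ℤ :=
  [670, 8000, 105920, 1513740, 22981760, 366643780, 6097775640, 105078361380, 1867132288720, 34077109664460, 
   636768930148680, 12149798297047660, 236180199781820840, 4668431730515694060, 93677906127913794600, 
   1905574555825142893060, 39246673819774267825440, 817525572711372767780100, 17207255609956392743263560, 
   365654920229671108784249500, 7838962172642961897424191640, 169427769169919144412075393140, 
   3689687729643453242667134785120, 80916678505157265377016439353260, 1786138355647836172758571595276880, 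
   39666495909920403323619738342790540, 885896226665071954247421947001453800, 
   19889519444440536964289761696513246820, 448737420585713647667767793437858579040, 
   10170485350694002852792968817806268211980, 231492514964289907702576198999419820903920, 
   5289947940016384448035485346428965568269900, 121329496351079714726662647622462831766447800]
def f10a_0_9 : List ℤ :=
  [0, 0, 20, 640, 16300, 388680, 9075820, 210990400, 4916623980, 115152964120, 2715271579380, 64599955427760, 
   1555250359255420, 38001966570623120, 944346336023064820, 23874377811863905320, 613151672284993365660, 
   15950611831685054005000, 418777947355258043260220, 11055889635744500525056960, 292550738946848677721506580, 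
   7738987968934806409529955600, 204275981856192513914233162180, 5373271139209499987362478357600, 
   140733929168476603964551555502420, 3668662302417721648785106623781080, 95167921858515166561148267852311220, 
   2456695699312302453259707044894654960, 63116959568902020191244341479098251260, 
   1614221537132190515897759237558723285480, 41106421182212313337459793240267107141460, 
   1042562099968441250959341722825342367156360, 26342621442859675078612058956922816631179540]
theorem c10a_0_9 : run 4 10 159 false R10_0_9 p10a_0_9 f10a_0_9 = true := by
  decide +kernel

end Vale.Agent.P348
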