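import Vale.Agent.P348.Run
import Vale.Agent.P348.R9

/-! Generated: kernel runs. -/

set_option maxRecDepth 100000

namespace Vale.Agent.P348

def p9b_1_1 : List ℤ :=
  [2844, 30132, 354744, 4508424, 60841872, 862364232, 12736947492, 194863794552, 3073589630316, 49791735837864, 
   825848077024044, 13987112717054412, 241360103145481488, 4235194970457711012, 75443852434698059544, 
   1362324013002851344488, 24904809513115950088152, 460402017670898357711076, 8598103620790957843105332, 
   162064393823535201476535924, 3080643959650448785130142768, 59013329397931801087759553976, 
   1138494778112024480109003186348, 22107009999100533257633020271244, 431834785225649899463467859395464, 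
   8481771945488919840428076551251524, 167436163640200423201400782169391636, 
   3320744810120233482320275594265408376, 66144050413577095751879528800570789404, 
   1322740209169772830321431205388341466844, 26549646465680899865775034720502831039556]
theorem c9b_1_1 : run 3 10 144 false R9_1_1 p9b_1_1 [] = true := by
  decide +kernel

def p9a_2_0 : List ℤ :=
  [4608, 42588, 446076, 5110596, 62776476, 815933988, 11115500004, 157579758504, 2311633547244, 34930557510048, 
   541659846571416, 8592341538332196, 139057621523816292, 2290741631605001016, 38334579034653005112]
theorem c9a_2_0 : run 3 11 68 true R9_2_0 p9a_2_0 [] = true := by
  decide +kernel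

end Vale.Agent.P348
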