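import Vale.Agent.P348.Run
import Vale.Agent.P348.R10
import Vale.Agent.P348.C9x3

/-! Generated: kernel runs. -/

set_option maxRecDepth 100000

namespace Vale.Agent.P348

def p10b_0_0 : List ℤ :=
  [840, 6280, 53760, 507180, 5164300, 56025780, 641872580, 7715637300, 96819709140, 1263109214060, 
   17072585917580, 238362719921180, 3428589628461580, 50689769575844220, 768702878338537140, 
   11935524744267339460, 189442641163943103140, 3069472632571355696100, 50707804840480332073500, 
   853206536341618999199260, 14608377530091039450448020, 254310141980102935224560380, 
   4497993123504634725984056180, 80773800280588318445383817900, 1471758953874918697742924031660, 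
   27192074251826477591179674737780, 509113094053570025650036360854340, 9653339202958965334836142006905420, 
   185248225476934817158824180928064460, 3595525516981658697560554098502945020, 
   70537390375821574018599045959359744900, 1397791848360498894428780568467040511180, 
   27960986625544131623767368457758727490700]
def f10b_0_0 : List ℤ :=
  [0, 0, 0, 0, 0, 0, 0, 0, 0, 0, 0, 0, 0, 0, 232552320, 36601789760, 3338194543360, 231322506534080, 
   13455191287785880, 689228267044000280, 31951785837010083720, 1364655726985797079600, 54393716373595786759080, 
   2043682956205904020972520, 72965903746700289433914240, 2492064281595637851356593800, 
   81874904501662962420942049840, 2599786746348435549916866382600, 80104484583235133988364162771280, 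
   2403215946032590360751352302730320, 70407823955094801192966480265554840, 
   2019489009573852912514728078470384960, 56833928969460661815890598951327660520]
theorem c10b_0_0 : run 4 10 159 true R10_0_0 p10b_0_0 f10b_0_0 = true := by
  decide +kernel

end Vale.Agent.P348
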