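import Vale.Agent.P348.Run
import Vale.Agent.P348.R10
import Vale.Agent.P348.C10x9

/-! Generated: kernel runs. -/

set_option maxRecDepth 100000

namespace Vale.Agent.P348

def p10a_0_0 : List ℤ :=
  [840, 6280, 53760, 507180, 5164300, 56025780, 641872580, 7715637300, 96819709140, 1263109214060, 
   17072618042940, 238365836557020, 3428763211530460, 50697083572299580, 768962554000896660, 
   11943740015784148900, 189682087781900455220, 3076043008954542973700, 50880082134969223303900, 
   857569235247052908270460, 14715925556850846651980340, 256906560089218338110660540, 
   4559665370356453786630310900, 82220359140793104343359329740, 1505362044752538508542108631980, 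
   27966958912290067873807205988980, 526884992737728556121332415887460, 10059351927527456289077748536044620, 
   194499474676486024898134238783346300, 3805981160108479684734650735042793340, 
   75321283200332367437313876216518466980, 1506523315486251642866185138876535946700, 
   30433376944682470193251002889505541747740]
def f10a_0_0 : List ℤ :=
  [0, 0, 0, 0, 0, 0, 0, 0, 0, 0, 0, 0, 0, 0, 232552320, 36601789760, 3338194543360, 231322506534080, 
   13488305393186200, 696103273087986200, 32724653512396973320, 1427079663589718195120, 58451561710454454776520, 
   2269260074779542988466600, 84097974503828715304980960, 2992117767711719288082426920, 
   102688269414934258848464230160, 3413131400993694965643365147080, 110247527514464419067379619678480, 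
   3471061080252456267019984014331600, 106797735934136496715253240997626360, 
   3218537547970675098770404243893591360, 95197306087086051876622203915206188360]
theorem c10a_0_0 : run 4 10 159 false R10_0_0 p10a_0_0 f10a_0_0 = true := by
  decide +kernel

end Vale.Agent.P348
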