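import Vale.Agent.P348.Run
import Vale.Agent.P348.R10
import Vale.Agent.P348.C10x19

/-! Generated: kernel runs. -/

set_option maxRecDepth 100000

namespace Vale.Agent.P348

def p10a_0_8 : List ℤ :=
  [760, 9160, 120680, 1698440, 25192480, 390221680, 6269787560, 103955973280, 1771382600880, 30915839225440, 
   551114734544400, 10010943559605480, 184933256103989600, 3468363531628841040, 65943609633561839920, 
   1269456345734412368480, 24716904018762824655600, 486295733993484147996720, 9660305422611150138237000, 
   193627154424531934139758080, 3913523592349093580911434080, 79720807952681998826160414480, 
   1635997807782441348466254242760, 33808934509977787005796362259480, 703347466649612950831911074299400, 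
   14725438462642682762452034750861360, 310178734897625935546251647202234480, 
   6572034589588102707905723088004412400, 140036423625257975273358923815843699920, 
   3000223945392629881939549902067228687040, 64619424946084440268484336448070449538920, 
   1398943376786886049097023064280484626957040, 30436869944589208824958747838051234748211800]
def f10a_0_8 : List ℤ :=
  [0, 0, 0, 0, 120, 6800, 268000, 9103360, 285409880, 8509783600, 245087279400, 6881154480920, 189461018866600, 
   5136986268096080, 137589397826284800, 3649304512389854480, 96034127316324655240, 2511290767992387235000, 
   65334277125608350025040, 1692575668634872111385040, 43692066637089670387376080, 1124355906372934315253114280, 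
   28852594192283070628614724280, 738465371001841241790085387720, 18853416679360269108305171322160, 
   480168061158957534256683980868160, 12199885950154830160141385443017000, 309234371790179834309401723945840560, 
   7819845992060264055753212502737358480, 197286665597866317149021557482886941720, 
   4965926752590174810592803411465391612160, 124716495219450935099806886343745208619720, 
   3125291806359673286696210227429286056301280]
theorem c10a_0_8 : run 4 10 159 false R10_0_8 p10a_0_8 f10a_0_8 = true := by
  decide +kernel

end Vale.Agent.P348
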