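import Vale.Agent.P348.Run
import Vale.Agent.P348.R10
import Vale.Agent.P348.C8x0

/-! Generated: kernel runs. -/

set_option maxRecDepth 100000

namespace Vale.Agent.P348

def p10b_0_7 : List ℤ :=
  [820, 10500, 144140, 2089380, 31662580, 498028620, 8087097740, 134999502980, 2308940645700, 40350310318380, 
   718875080692940, 13032013518667420, 240008581708283820, 4484419779782016820, 84906223260763713620, 
   1627360780244589608180, 31546611162040861689460, 618025831794446377044260, 12227725917264758853809860, 
   244176340018199047360503300, 4918611468539069692803403820, 99896246387736758486766629260, 
   2044707202065543489624837097500, 42161296272148584016516953639260, 875464766869920274015998552126900, 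
   18300357870857591063580823106312100, 384983758584085719392432437290268740, 
   8148218772356791889991214165011410660, 173462000093375947667990118468939463140, 
   3713287553750547412404804699872552736740, 79913975216739325909050473572389528866220, 
   1728619778722366998833793476450745898880340, 37574746090312074054704895992256783518844540]
def f10b_0_7 : List ℤ :=
  [0, 0, 0, 0, 120, 6600, 257800, 8790160, 278571880, 8430755520, 247120607200, 7072617215000, 198605440305400, 
   5488240785464080, 149522875144552000, 4020961655954037720, 106821235321054065800, 2805230360561407500560, 
   72862673914521736545280, 1872820899250872926013560, 47661337806235347590148600, 1201534276849078015458224640, 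
   30020785672321363928234598520, 743757861048617185524997663120, 18279350518359313078462863396000, 
   445852472296098937181471099671920, 10796613389983904720717027591322400, 259654565276076746496018828278342360, 
   6203580601486604779715534862251617920, 147275888966876767740564643790682851880, 
   3474928110682815955272629463110136033880, 81497308537884746793493359335947290698720, 
   1900013700316096318462884395655516065837680]
theorem c10b_0_7 : run 4 10 159 true R10_0_7 p10b_0_7 f10b_0_7 = true := by
  decide +kernel

end Vale.Agent.P348
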