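import Vale.Agent.P348.Run
import Vale.Agent.P348.R10
import Vale.Agent.P348.C10x2

/-! Generated: kernel runs. -/

set_option maxRecDepth 100000

namespace Vale.Agent.P348

def p10a_0_7 : List ℤ :=
  [820, 10500, 144140, 2089380, 31662580, 498028620, 8087097740, 134999502980, 2308940645700, 40350310318380, 
   718875313347980, 13032043656636220, 240010799769002860, 4484542063137448180, 84911850905537393620, 
   1627589519315526061620, 31555104209806762415860, 618320299127720948225060, 12237405046437729309368260, 
   244481258492912663984213700, 4927892154855485558613126380, 100170836907677173426357301740, 
   2052642494803751831532810446780, 42386118468058789643634302201500, 881728246353840872527745188505780, 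
   18472364950531715250810363931549060, 389649212354047920126271427867750980, 
   8273409232893273361519259382616145540, 176789916366447110280109796983381629060, 
   3801027244917205336574564420410996068740, 82210462224098372928028802297077936139020, 
   1788341831605650822514524445933270361927060, 39118987404222176811486025331816076958180860]
def f10a_0_7 : List ℤ :=
  [0, 0, 0, 0, 120, 6600, 257800, 8790160, 278571880, 8430755520, 247120607200, 7072617215000, 198635138404600, 
   5493024027012880, 149950536804577600, 4049036681960556120, 108333153913186023560, 2876046561588549895440, 
   75851884523557435440000, 1989231424688607394618200, 51913141819113629230999480, 1348936774359474452791148480, 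
   34915285840721664278596908920, 900509833461060183305192068400, 23147987247575289411082895158080, 
   593153925976785337199026450881040, 15153443055232409690611015218151840, 386006486123438077551584705585667640, 
   9805298900055282766209151157868615360, 248399513622544996515518791233968082440, 
   6276306965584200794814461511936255448280, 158183543468804215073436244943863090330560, 
   3977068797467057573271891496411009810225680]
theorem c10a_0_7 : run 4 10 159 false R10_0_7 p10a_0_7 f10a_0_7 = true := by
  decide +kernel

end Vale.Agent.P348
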