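import Vale.Agent.P348.Run
import Vale.Agent.P348.R10
import Vale.Agent.P348.C7x0

/-! Generated: kernel runs. -/

set_option maxRecDepth 100000

namespace Vale.Agent.P348

def p10b_0_6 : List ℤ :=
  [880, 9740, 117900, 1530180, 21020500, 302858700, 4545265860, 70679095860, 1133943347900, 18704965257460, 
   316329679819820, 5471283173340300, 96584337351629540, 1737064583033775020, 31778843001851792220, 
   590573368472694411380, 11135001318304596561460, 212769896834936454483820, 4116275564795099388429340, 
   80553745259202756768011420, 1593322541148885745916319980, 31830311289620991662813885740, 
   641814314514853249389262188740, 13054130947342104952961581039020, 267682098216756187014988212957700, 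
   5531054000750347687840836519088980, 115111204526745897888285697215358460, 
   2411958729015816891602155222174557980, 50862986113825437511198850299151074100, 
   1079107398914676165785877283920048360740, 23026179679450531842244387689334572554900, 
   494024051524425464618485623880362029423380, 10654365408154250611285633541360581758029300]
def f10b_0_6 : List ℤ :=
  [0, 0, 0, 0, 0, 0, 2400, 180320, 8908000, 365697600, 13490283520, 463481171040, 15116386206880, 
   473178725133360, 14310290316793040, 419956446140888080, 11996465279131266000, 334406467895219634840, 
   9115557412387540244720, 243433976071416213775920, 6379377853068102344481760, 164285333885857083418118800, 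
   4162774312465724783211867760, 103893127575904238945334875200, 2556124036226705367442589264960, 
   62037204467808703633083610279080, 1485902498361413395911408474506200, 35130952828994080027171817198085680, 
   819848182993242952453087866657409560, 18878681515454363767944422685662865720, 
   428638858153144506993902612584920861080, 9584382647297924418429353033984390029840, 
   210648878338459092102516771713176281060600]
theorem c10b_0_6 : run 4 10 159 true R10_0_6 p10b_0_6 f10b_0_6 = true := by
  decide +kernel

end Vale.Agent.P348
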