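import Vale.Agent.P348.Run
import Vale.Agent.P348.R10
import Vale.Agent.P348.C10x3

/-! Generated: kernel runs. -/

set_option maxRecDepth 100000

namespace Vale.Agent.P348

def p10a_0_6 : List ℤ :=
  [880, 9740, 117900, 1530180, 21020500, 302858700, 4545265860, 70679095860, 1133943347900, 18704965257460, 
   316329900496060, 5471310005717260, 96586195515731780, 1737161211368322700, 31783047723037741180, 
   590735344799598929300, 11140714541382021106180, 212958498306312696296460, 4122191139204282215172460, 
   80731957724134109438439580, 1598520678822544081154379740, 31978005812089416492199673100, 
   645921347185560388978898375140, 13166317864983275492267281680940, 270701236543694733221262744977140, 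
   5611291652339963216990628726893940, 117221109912632851018244204343297660, 
   2466940855009139177976252152984394940, 52284719875235066080948673187223464180, 
   1115626633730371194637632135406321758180, 23958838039438694444505275347129956756180, 
   517724074643135650212144279630071617244500, 11253985569435368014469078191096202770148340]
def f10a_0_6 : List ℤ :=
  [0, 0, 0, 0, 0, 0, 2400, 180320, 8908000, 365697600, 13490283520, 463481171040, 15131714258080, 
   475580180646960, 14519720117212880, 433397350118916880, 12705435436116348880, 366983791034078883480, 
   10466421054334359686000, 295173884754207721532880, 8239853940269405649362240, 227841443083014344150965840, 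
   6243914666739663231222236720, 169666186112811913158425017280, 4573349605194596366948796601760, 
   122336168741270854068363282148680, 3248894718038607549330423543542680, 85694883716745057154097726558441680, 
   2245894629720020766802457692468624280, 58507684145631624927761076556721118200, 
   1515635768054492339245547575101191415640, 39056984922259714439394347830759462721840, 
   1001569604634806024825367075919077602899160]
theorem c10a_0_6 : run 4 10 159 false R10_0_6 p10a_0_6 f10a_0_6 = true := by
  decide +kernel

end Vale.Agent.P348
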