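import Mathlib.Data.Nat.Notation
import Mathlib.Data.List.Defs

/-! Generated: orbit representatives with orbit sizes. -/

set_option maxRecDepth 100000

namespace Vale.Agent.P348

def R6_0_0 : List (ℕ × ℕ) :=
  [(26, 6), (44, 12), (50, 24), (52, 6), (62, 12), (68, 12), (104, 6), (122, 12), (124, 12), (128, 12), 
   (130, 6), (140, 6), (142, 12), (182, 2), (364, 1)]
def R6_1_0 : List (ℕ × ℕ) :=
  [(53, 24), (71, 24), (107, 12), (125, 24), (131, 24), (133, 24), (143, 24), (149, 24), (151, 12), (155, 24), 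
   (185, 12), (203, 12), (365, 12)]
def R6_2_0 : List (ℕ × ℕ) :=
  [(80, 12), (134, 24), (152, 24), (158, 24), (160, 12), (188, 12), (206, 24), (212, 12), (224, 6), (368, 12), 
   (374, 12), (392, 6)]
def R6_3_0 : List (ℕ × ℕ) :=
  [(161, 24), (215, 24), (233, 12), (377, 12), (395, 24), (455, 4)]
def R6_4_0 : List (ℕ × ℕ) :=
  [(242, 12), (404, 12), (458, 12), (476, 6)]
def R6_5_0 : List (ℕ × ℕ) :=
  [(485, 12)]
def R6_6_0 : List (ℕ × ℕ) :=
  [(728, 2)]

end Vale.Agent.P348
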