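import Vale.Agent.P348.Run
import Vale.Agent.P348.R6

/-! Generated: kernel runs. -/

set_option maxRecDepth 100000

namespace Vale.Agent.P348

def p6a_0_0 : List ℤ :=
  [141, 954, 7620, 67812, 653568, 6707004, 72477672, 818204172, 9589489488, 116077078428, 1444620875520, 
   18411424341780, 239451365452824, 3168111956352660, 42527502086105208, 577859890667373492, 
   7932421340835456144, 109824865321610322468, 1531459197307395425616, 21484175721608578684884, 
   302917435622414198599968, 4289209904868230268112308, 60952603683182006466096192]
def f6a_0_0 : List ℤ :=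
  [1, 6, 60, 684, 8592, 115236, 1660560, 25690356, 418457280, 6992620956, 117472899840, 1960871530668, 
   32350065184704, 526677239426604, 8464464282135264, 134441066101025364, 2113225574279073792, 
   32918796071246682804, 508837701037853719392, 7813375319515084026204, 119300192269703756121792, 
   1812770422946535148803516, 27431172827578833247460784]
theorem c6a_0_0 : run 0 6 93 false R6_0_0 p6a_0_0 f6a_0_0 = true := by
  decide +kernel

def p6b_0_0 : List ℤ :=
  [141, 954, 7620, 67812, 653568, 6707004, 72426984, 815761452, 9517136208, 114368406972, 1409198766720, 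
   17735611987860, 227264386394520, 2956955433442548, 38974535047909752, 519379478949070932, 
   6986016334286718096, 94710630686743965828, 1292617199962998219408, 17741966020550666459700, 
   244693053790446851199648]
def f6b_0_0 : List ℤ :=
  [1, 6, 60, 684, 8592, 115236, 1568400, 20851956, 264596160, 3142415772, 33855740160, 305950296108, 
   1650455901120, -16602322272660, -815685033894048, -19829256896285676, -397297531975391232, 
   -7250213601771632748, -125163786813016754208, -2082589562466505121604, -33755569670291934232128]
theorem c6b_0_0 : run 0 6 85 true R6_0_0 p6b_0_0 f6b_0_0 = true := by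
  decide +kernel

def p6b_1_0 : List ℤ :=
  [252, 1656, 12864, 111240, 1039824, 10320936, 107422992, 1161457896, 12949952016, 148047275304, 1727533929024, 
   20500909784856, 246705357734688, 3003489825503640, 36922579474866384, 457620188267513400, 
   5711054443921905168, 71692474686178155960, 904489607804312261952, 11460309953458962822072, 
   145744952825147699337264]
theorem c6b_1_0 : run 0 7 85 true R6_1_0 p6b_1_0 [] = true := by
  decide +kernel

def p6b_2_0 : List ℤ :=
  [180, 1080, 7716, 61380, 526716, 4783500, 45379284, 445466940, 4493477148, 46330426116, 486305960556, 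
   5180202549084, 55860178706340]
theorem c6b_2_0 : run 0 8 52 true R6_2_0 p6b_2_0 [] = true := by
  decide +kernel

def p6a_2_0 : List ℤ :=
  [180, 1080, 7716, 61380, 526716, 4783500, 45419220, 447176508, 4538443548, 47272093956, 503581452396, 
   5471163243900, 60479649236772]
theorem c6a_2_0 : run 0 8 52 false R6_2_0 p6a_2_0 [] = true := by
  decide +kernel

def p6b_3_0 : List ℤ :=
  [100, 504, 3072, 20856, 152544, 1178904, 9499584, 79054920, 674708256, 5874944952, 51984781152, 466025231208, 
   4222474639584]
theorem c6b_3_0 : run 0 9 52 true R6_3_0 p6b_3_0 [] = true := by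
  decide +kernel

def p6b_4_0 : List ℤ :=
  [42, 156, 732, 3828, 21516, 127596, 787932, 5015628, 32655756, 216184908, 1448824812, 9797998476, 66708374796]
theorem c6b_4_0 : run 0 10 52 true R6_4_0 p6b_4_0 [] = true := by
  decide +kernel

def p6a_4_0 : List ℤ :=
  [42, 156, 732, 3828, 21516, 127596, 789468, 5056620, 33328524, 224956524, 1548643692, 10836442476, 
   76849227276]
theorem c6a_4_0 : run 0 10 52 false R6_4_0 p6a_4_0 [] = true := by
  decide +kernel

def p6b_5_0 : List ℤ :=
  [12, 24, 72, 240, 840, 3024, 11064, 40848, 151560, 563856, 2100792, 7833168, 29219592]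
theorem c6b_5_0 : run 0 11 52 true R6_5_0 p6b_5_0 [] = true := by
  decide +kernel

def p6b_6_0 : List ℤ :=
  [2, 0, 0, 0, 0, 0, 0, 0, 0, 0, 0, 0, 0]
theorem c6b_6_0 : run 0 12 52 true R6_6_0 p6b_6_0 [] = true := by
  decide +kernel

def p6a_6_0 : List ℤ :=
  [2, 0, 0, 0, 0, 0, 0, 0, 0, 0, 0, 0, 0]
theorem c6a_6_0 : run 0 12 52 false R6_6_0 p6a_6_0 [] = true := by
  decide +kernel

end Vale.Agent.P348
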