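import Vale.Agent.P348.Run
import Vale.Agent.P348.R9
import Vale.Agent.P348.C6x0

/-! Generated: kernel runs. -/

set_option maxRecDepth 100000

namespace Vale.Agent.P348

def p9a_0_0 : List ℤ :=
  [3139, 30537, 335637, 4031991, 51941385, 708518907, 10140619797, 151230038319, 2337208463097, 37266567439635, 
   610817807983437, 10259662855000923, 176131919862432909, 3083454626922324603, 54937657353410979813, 
   994443714266151854331, 18260015001923625754329, 339657952394052308748411, 6392573916992505189844389, 
   121599690170493541974494283, 2335553799682366524591106605, 45255189859364301322468144383, 
   883946096167925120119460460333, 17392134118108342824539223877143, 344484678218602438598801871946509, 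
   6864729240143509378531133689128807, 137557255346388378879791182483303593, 
   2770394059748521573859740065642497259, 56054193413979752181991342329450038109, 
   1138966920390982037333063248159140671523, 23232408217054312549896335369613181640697]
def f9a_0_0 : List ℤ :=
  [1, 9, 117, 1755, 29169, 522099, 9878337, 195005043, 3977842113, 83041467111, 1754774993457, 37107589222251, 
   776907365804289, 15948504039458259, 317939487577208145, 6084565749281075535, 109828356224641977537, 
   1807228424941561512099, 24856293582229099483521, 192625092338612339360259, -3979477073250439184400111, 
   -274342435783043762627910153, -10209544695259799558079459591, -316527739983581008347750895677, 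
   -8962468485957780074477966282463, -240168249383377816687812799973301, -6199583592808682960123513346524919, 
   -155734008986453434846275815597363841, -3831492895373184173816514025051068975, 
   -92726233614846794377250911916481456405, -2214263191911233976656537616258335592183]
theorem c9a_0_0 : run 3 9 144 true R9_0_0 p9a_0_0 f9a_0_0 = true := by
  decide +kernel

def p9b_4_0 : List ℤ :=
  [1764, 13734, 122670, 1202382, 12636630, 140316894, 1629380754, 19637447634, 244223095302, 3120041501226, 
   40797853839270, 544440241129626, 7397141974561530, 102123280709941302, 1430281972241751582, 
   20293491436691748642, 291354680330451544806]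
theorem c9b_4_0 : run 3 13 78 false R9_4_0 p9b_4_0 [] = true := by
  decide +kernel

def p9a_4_0 : List ℤ :=
  [1764, 13734, 122670, 1202382, 12636630, 140316894, 1629380754, 19637447634, 244223095302, 3120017625162, 
   40795909254630, 544348583964378, 7393858190534394, 102023927961262326, 1427602484590991550]
theorem c9a_4_0 : run 3 13 68 true R9_4_0 p9a_4_0 [] = true := by
  decide +kernel

def p9a_6_0 : List ℤ :=
  [312, 1674, 10710, 75942, 579006, 4663674, 39224970, 341695782, 3064491774, 28166568498, 264358331730, 
   2526089642298, 24514471192410, 241098928718814, 2398703557616730]
theorem c9a_6_0 : run 3 15 68 true R9_6_0 p9a_6_0 [] = true := by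
  decide +kernel

end Vale.Agent.P348
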