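import Vale.Agent.P348.Run
import Vale.Agent.P348.R10
import Vale.Agent.P348.C9x1

/-! Generated: kernel runs. -/

set_option maxRecDepth 100000

namespace Vale.Agent.P348

def p10b_0_5 : List ℤ :=
  [900, 10180, 124880, 1632140, 22473440, 323470820, 4838717200, 74883440020, 1194561631600, 19582746717620, 
   329045167668120, 5654347110642220, 99175451851770720, 1772429727351167660, 32226053818226214040, 
   595275460028627431580, 11157348585447341402880, 211957286834724338423700, 4076986290440331068685160, 
   79329620775829829870309660, 1560188129603964199945266160, 30991271313443471048616164540, 
   621341028948722292953195241800, 12565662683572582482947567838260, 256193662616236900531631473411360, 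
   5263391552711161275210867797300940, 108914402619922852241999586129871040, 
   2269103614130442393995638628638567140, 47579141258157688130256105324791757840, 
   1003762166847682139154844065916395540940, 21299462346380048690779302254597871651720, 
   454478085896605550197362103952124087046060, 9748916382481797716069646899046276243447520]
def f10b_0_5 : List ℤ :=
  [0, 0, 0, 0, 0, 0, 0, 0, 134400, 13991040, 886615200, 44352855360, 1915298622400, 74325995963520, 
   2649800358381920, 88040616612036560, 2754702155621870680, 81816684970906273720, 2320820595565392906680, 
   63163285170818265846440, 1654612231680802145567320, 41794365771786895231334520, 1018216893165599285530793680, 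
   23884955408714795800596863800, 537011001831391825712437560440, 11463035079672794338709157268840, 
   227855144058691408340129659750200, 4035414366367546604739535891640720, 55759349438985978754446910919574880, 
   205068971676604823535197328855369520, -25438733210180080024555505657828806520, 
   -1406021858688172194812466099157935347840, -54220163299033445548540197803144364690240]
theorem c10b_0_5 : run 4 10 159 true R10_0_5 p10b_0_5 f10b_0_5 = true := by
  decide +kernel

end Vale.Agent.P348
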