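import Vale.Agent.P348.Run
import Vale.Agent.P348.R10
import Vale.Agent.P348.C10x4

/-! Generated: kernel runs. -/

set_option maxRecDepth 100000

namespace Vale.Agent.P348

def p10a_0_5 : List ℤ :=
  [900, 10180, 124880, 1632140, 22473440, 323470820, 4838717200, 74883440020, 1194561631600, 19582746717620, 
   329045326302040, 5654366435271500, 99176793541945280, 1772499708294489260, 32229108905247132920, 
   595393543233121846460, 11161527467571872225120, 212095683493922177178580, 4081340568645563314211400, 
   79461179382152604453243260, 1564035874802514097642294000, 31100871769486283376837433020, 
   624395792922109918185430575560, 12649282202820088275901407886740, 258448331694464020108543683546720, 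
   5323417060978129722464534982919340, 110495314805749966785584890598518080, 
   2310359783115896147749302789880462180, 48647335037319331188345181454026780560, 
   1031232625358240437605852153392452997740, 22001779781264399665688493899433466414440, 
   472342393315484802462696736543934927081580, 10201298589492752989218802852591794828307360]
def f10a_0_5 : List ℤ :=
  [0, 0, 0, 0, 0, 0, 0, 0, 134400, 13991040, 886615200, 44352855360, 1933500683200, 77188349857920, 
   2899609894037600, 104046728209294160, 3595997343908826200, 120280133982580515000, 3905889654959392009720, 
   123443495981617807565480, 3805366806617487365429720, 114660678800324503382366680, 
   3383726047182097304805484240, 97987064812086313365593425880, 2789416813683249068340357943000, 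
   78189618356091192632718587015880, 2161397198866980842855298517203000, 59002160254462274984459421887293520, 
   1592534356364335370196100574036466240, 42548326613919490597116471139328876240, 
   1126377670558336698997460479717458687240, 29572160573790734446887375595269420030560, 
   770598561537670434825142899490751266551520]
theorem c10a_0_5 : run 4 10 159 false R10_0_5 p10a_0_5 f10a_0_5 = true := by
  decide +kernel

end Vale.Agent.P348
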