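import Vale.Agent.P348.Run
import Vale.Agent.P348.R10

/-! Generated: kernel runs. -/

set_option maxRecDepth 100000

namespace Vale.Agent.P348

def p10b_0_4 : List ℤ :=
  [990, 10300, 119060, 1489220, 19839940, 278499140, 4086894140, 62322754260, 982957863940, 15973584281420, 
   266612909132300, 4558479570768660, 79658940791370260, 1419946347666391820, 25774220250786215180, 
   475681231781846039940, 8914100414186287510980, 169413131219126092546300, 3261792522881678966395940, 
   63560176874370552779674740, 1252437029784681486194778260, 24936156472725738344896744340, 
   501303851711296534686751561500, 10169425852253244161760198269020, 208050783486317603540858243895780, 
   4290405000792568692343690056914580, 89142305781665867638246621428649500, 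
   1865289933185600622990325246479634220, 39293736387984291331594523850721146140, 
   833043247133071391645740922838342043260, 17768260154551602510551884936101504767780, 
   381182195604604881449087076577961295613700, 8222758149219064301302102446413672957043940]
def f10b_0_4 : List ℤ :=
  [0, 0, 0, 0, 0, 0, 0, 0, 49280, 4857600, 302247600, 15186022080, 661233926960, 25642503093680, 
   899695831181520, 28887763074222680, 855615502511429920, 23468902250550505720, 595124091577227469680, 
   13795657332504228363280, 283148961949384598949880, 4671852224031627596371120, 36429077309645201453637600, 
   -1544909672919477030757852000, -109335627433216451006848176480, -4683563652153474186078983367360, 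
   -169112942826338391449118371614560, -5579170821693629895595888093228400, 
   -173818623454656902097586168225623400, -5202013485805572963033794785264500720, 
   -151075487481780820902443313290980074720, -4285715113230375944712799553803323823080, 
   -119300563484583702200334433348130844432840]
theorem c10b_0_4 : run 4 10 159 true R10_0_4 p10b_0_4 f10b_0_4 = true := by
  decide +kernel

end Vale.Agent.P348
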