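import Vale.Agent.P348.Run
import Vale.Agent.P348.R10
import Vale.Agent.P348.C10x5

/-! Generated: kernel runs. -/

set_option maxRecDepth 100000

namespace Vale.Agent.P348

def p10a_0_4 : List ℤ :=
  [990, 10300, 119060, 1489220, 19839940, 278499140, 4086894140, 62322754260, 982957863940, 15973584281420, 
   266613250852300, 4558519269827860, 79661572569000180, 1420077592160835180, 25779706011159733900, 
   475884533265879825540, 8921008988414909506180, 169633154041020549322940, 3268459131149575308743300, 
   63754434426297636167632980, 1257924164396929894672880820, 25087313736773168670509467220, 
   505383790109270732665381197180, 10277721268323973634323277829500, 210885858346719217303819870301060, 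
   4363777966671068031004374724381940, 91023149733621418897846242205146300, 
   1913119099739714119389037718960382700, 40501871297803268797258265129501308220, 
   863388049982139431375822696478509093980, 18526812853659148267093278727050917472740, 
   400068316986424577860599712248467656550180, 8691384099767224829547321758135381207049060]
def f10a_0_4 : List ℤ :=
  [0, 0, 0, 0, 0, 0, 0, 0, 49280, 4857600, 302247600, 15186022080, 679435987760, 28424992975280, 
   1136561950591440, 43735360507691480, 1621093061765906720, 57876064150823550200, 1991979505620425062000, 
   66223859970164657647280, 2132261542399161315222200, 66687174014072958894475760, 2031900582007904418152208640, 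
   60483254376904452464518313920, 1763407187143603991007961575840, 50472382879333518849227618459520, 
   1421104005695670588539653192144320, 39432247190281277304285412139475440, 
   1079988941350561937932252596490523640, 29237090451848571886576758511008425680, 
   783299245451766473117693683956559045280, 20790633896956101962756913036029156402040, 
   547225626394763511620503911867080880548920]
theorem c10a_0_4 : run 4 10 159 false R10_0_4 p10a_0_4 f10a_0_4 = true := by
  decide +kernel

end Vale.Agent.P348
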