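import Vale.Agent.P348.Run
import Vale.Agent.P348.R10
import Vale.Agent.P348.C10x1

/-! Generated: kernel runs. -/

set_option maxRecDepth 100000

namespace Vale.Agent.P348

def p10b_1_9 : List ℤ :=
  [1460, 17320, 225000, 3130440, 46022000, 708374200, 11338941840, 187782089320, 3204267606480, 56149227596800, 
   1007594060598480, 18472300762191560, 345268088184589920, 6567637844226015840, 126936428900706194480, 
   2489252372288558312920, 49465338616520997476960, 994901220474900953700920, 20232529247495549350563920, 
   415620825474962350928385680, 8616759741347538228506637400, 180154963828101405723611097480, 
   3795686648487658565582645795160, 80536044435984542636674413288320, 1719829192155560781122592745570000, 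
   36943484381525236339619853411170560, 797869006271254624187294207972855600, 
   17316881465706218527408532734453451840, 377548776353691237878664106978987497920, 
   8265686777276612406975553497831797898160, 181651644808309389564492520973485421952640]
theorem c10b_1_9 : run 4 11 149 true R10_1_9 p10b_1_9 [] = true := by
  decide +kernel

end Vale.Agent.P348
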