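import Vale.Agent.P348.Run
import Vale.Agent.P348.R10
import Vale.Agent.P348.C10x10

/-! Generated: kernel runs. -/

set_option maxRecDepth 100000

namespace Vale.Agent.P348

def p10b_1_8 : List ℤ :=
  [1460, 16080, 198120, 2650960, 37854760, 570031360, 8973091640, 146672048240, 2476440534840, 43007481082120, 
   765580550915400, 13929035365714600, 258397437084761080, 4877597699727611080, 93522604925776809600, 
   1818724710872557556800, 35825319458919217091520, 713986935448259180498720, 14382406617730816875694040, 
   292568910072576679503133080, 6005328783193907128502341160, 124294026543872169717163387480, 
   2592342394729022619445798429240, 54451958464138914269890015184320, 1151296311430893188646599411011280, 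
   24491008153997558928086182288507960, 523941969212933028804045208475260880, 
   11267905814908489285041698906638882880, 243515713645765316326431310378420480400, 
   5286729515012614178451558295672110162440, 115262257259261446390377941023362525824040]
theorem c10b_1_8 : run 4 11 149 true R10_1_8 p10b_1_8 [] = true := by
  decide +kernel

end Vale.Agent.P348
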