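import Vale.Agent.P348.Run
import Vale.Agent.P348.R10
import Vale.Agent.P348.C10x11

/-! Generated: kernel runs. -/

set_option maxRecDepth 100000

namespace Vale.Agent.P348

def p10b_1_7 : List ℤ :=
  [1340, 14760, 178920, 2328240, 32046880, 461932560, 6921933920, 107227094480, 1709612675040, 27955541948640, 
   467472636272680, 7974807366800840, 138512380796808200, 2445273214635424360, 43814149041121473040, 
   795827986909694378160, 14638195308667253577760, 272413274282347169404480, 5125108070241334999332760, 
   97413126831968542117497240, 1869450793774736245612143000, 36204761807520521236643765440, 
   707246587751964080413672295520, 13929930515779463073917604652600, 276526433796336987058817427984840, 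
   5530759690568663456266219036958320, 111418078267164850670563060116454360, 
   2260064643657273663935041281001943160, 46148695248758615491875717766173338280, 
   948323216966773503718339298935901630280, 19606566495117254530061293757479217732840]
theorem c10b_1_7 : run 4 11 149 true R10_1_7 p10b_1_7 [] = true := by
  decide +kernel

end Vale.Agent.P348
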