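import Vale.Agent.P348.Run
import Vale.Agent.P348.R10
import Vale.Agent.P348.C10x12

/-! Generated: kernel runs. -/

set_option maxRecDepth 100000

namespace Vale.Agent.P348

def p10b_1_2 : List ℤ :=
  [1480, 14320, 153760, 1785480, 22082160, 287863560, 3925434400, 55669708440, 817306815920, 12375669093240, 
   192676814542640, 3076354238926200, 50259704626997680, 838569601665405520, 14264526643855884720, 
   247016321976972268720, 4348804110848809369760, 77746542823263473372000, 1409964037876651048777760, 
   25914946468300670894780640, 482339307953631875363988400, 9084467727543956489334394720, 
   173025393963463508455188575280, 3330677275167455301374654046840, 64765189681417211483927791505440, 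
   1271546085126724632997029192181800, 25195094667538009962582183955485360, 
   503638487136409936914546362575690600, 10152592059573064414097164802745144800, 
   206316533413159311174062745717928453000, 4225128394461987808841706559371364300960]
theorem c10b_1_2 : run 4 11 149 true R10_1_2 p10b_1_2 [] = true := by
  decide +kernel

end Vale.Agent.P348
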