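import Vale.Agent.P348.Run
import Vale.Agent.P348.R10
import Vale.Agent.P348.C10x27

/-! Generated: kernel runs. -/

set_option maxRecDepth 100000

namespace Vale.Agent.P348

def p10b_1_6 : List ℤ :=
  [1400, 15680, 191320, 2488960, 34081960, 486894680, 7209660720, 110099496320, 1727132805560, 27742843579480, 
   455125045127920, 7609088867605520, 129413897519371480, 2235759853638500720, 39184707302646251120, 
   695968352677078056160, 12515442767273070966360, 227690819600047446477720, 4187866130387383883662720, 
   77827331301770829937253040, 1460628584444387341842390720, 27670600896757461493611760680, 
   528924029841532071588087611960, 10197804828417161733637080290600, 198251377441139153252435056253440, 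
   3885000546918163188552958404339160, 76720235729528676460345559246136880, 
   1526366102582166769805497819054639880, 30586447762103148725303412089275051880, 
   617186974047535732955861372333604087520, 12537783460445901237288638153800909037760]
theorem c10b_1_6 : run 4 11 149 true R10_1_6 p10b_1_6 [] = true := by
  decide +kernel

end Vale.Agent.P348
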