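import Vale.Agent.P348.Run
import Vale.Agent.P348.R10
import Vale.Agent.P348.C10x13

/-! Generated: kernel runs. -/

set_option maxRecDepth 100000

namespace Vale.Agent.P348

def p10b_1_10 : List ℤ :=
  [1420, 17360, 230960, 3276880, 48975200, 764541600, 12388285000, 207345449880, 3570742587200, 63068587430120, 
   1139447520679040, 21009348182943960, 394562052614183520, 7534593641850537960, 146080703835438834200, 
   2871672608681404307080, 57170032416386796556760, 1151405282491615374136600, 23436573901214556734090760, 
   481709424902943051843179600, 9989749899860382362670597600, 208874939366505444960103889560, 
   4400391673794229055939629438600, 93348029132528553711944221210160, 1992900176418538234325206494422560, 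
   42796718585094277649177945897838400, 924009294581672806532852993826791080, 
   20049172549198918115603791060161302120, 437018278712373915235178805828094429000, 
   9565965094143257906770258466738235404800, 210203567729246200341968162639074635215120]
theorem c10b_1_10 : run 4 11 149 true R10_1_10 p10b_1_10 [] = true := by
  decide +kernel

end Vale.Agent.P348
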