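import Vale.Agent.P348.Run
import Vale.Agent.P348.R10
import Vale.Agent.P348.C10x28

/-! Generated: kernel runs. -/

set_option maxRecDepth 100000

namespace Vale.Agent.P348

def p10b_1_5 : List ℤ :=
  [1440, 15120, 174120, 2151600, 28160040, 386877760, 5542387560, 82367432400, 1264567629560, 19987994972280, 
   324334871004840, 5389686515292720, 91533699644348240, 1585893841161478440, 27988167088197623640, 
   502458032889547321960, 9165147434152573057720, 169684543215898814175720, 3185711323526567574918000, 
   60599724191977897633215200, 1167097278600047669057277040, 22741276817680298973317075920, 
   448038320346971237763019459520, 8919630599726804544797441081920, 179334217775252667316627559010880, 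
   3639392824106123490490581138939320, 74510730001679180770928017572438920, 
   1538210675194009608419159125816689920, 32004455467595874671645282496444010840, 
   670811030544102857652519339074636642280, 14157593310591844944055609678924712791200]
theorem c10b_1_5 : run 4 11 149 true R10_1_5 p10b_1_5 [] = true := by
  decide +kernel

end Vale.Agent.P348
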