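import Vale.Agent.P348.Run
import Vale.Agent.P348.R10
import Vale.Agent.P348.C10x14

/-! Generated: kernel runs. -/

set_option maxRecDepth 100000

namespace Vale.Agent.P348

def p10b_1_1 : List ℤ :=
  [1460, 12560, 121800, 1288280, 14585520, 174622160, 2192163240, 28679816240, 389231545360, 5460402402360, 
   78960129846080, 1174282591344160, 17926768279512760, 280478414414177280, 4491110511355498000, 
   73504455078332532200, 1228202934590302154840, 20928807176818757196160, 363313362530517544457000, 
   6418672720174405099729400, 115297258397068698610009320, 2103798680541636294844525200, 
   38960251690084989137517424720, 731665763321186998949561175640, 13923185514087990312684530100360, 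
   268275587470698288349513407592760, 5230481288535086966385232934593840, 103119221440390466934999608762975760, 
   2054523845410102588441825546706079640, 41343496192310919585046924899885203920, 
   839830043849889462142164828193261051680]
theorem c10b_1_1 : run 4 11 149 true R10_1_1 p10b_1_1 [] = true := by
  decide +kernel

end Vale.Agent.P348
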