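import Vale.Agent.P348.Run
import Vale.Agent.P348.R10
import Vale.Agent.P348.C10x29

/-! Generated: kernel runs. -/

set_option maxRecDepth 100000

namespace Vale.Agent.P348

def p10b_1_4 : List ℤ :=
  [1460, 16800, 208440, 2742080, 37835360, 543387680, 8076757880, 123696820120, 1945103001360, 31314335366520, 
   514910734770720, 8630812476803400, 147225486904483720, 2552225964430417880, 44910332909928525520, 
   801360427083670913240, 14487438677372936511560, 265166300789441389412840, 4910581263175464489708720, 
   91959396451660746644326080, 1740594960734115850884081600, 33285142576388057514929258000, 
   642812886128274143538258874520, 12532672175575445186674416495480, 246592868408378845343185094653000, 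
   4895013569752874011032682049981080, 98000009997917923602892187086498440, 
   1978157600342105063597609574320838680, 40245925304873092374767696070608309280, 
   825034260069295345731077468583720430480, 17036190474440479839772115827641414785880]
theorem c10b_1_4 : run 4 11 149 true R10_1_4 p10b_1_4 [] = true := by
  decide +kernel

end Vale.Agent.P348
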