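import Vale.Agent.P348.Run
import Vale.Agent.P348.R10
import Vale.Agent.P348.C10x15

/-! Generated: kernel runs. -/

set_option maxRecDepth 100000

namespace Vale.Agent.P348

def p10b_1_0 : List ℤ :=
  [1420, 11040, 97680, 947520, 9867000, 108834520, 1259746880, 15197985720, 190141664600, 2457560066200, 
   32720621199320, 447810340738720, 6289575908745280, 90547831417721280, 1334950750934999080, 
   20140447393063551680, 310760861287164841240, 4901120302688981348000, 78964901653180356719520, 
   1298923334237785235750600, 21800074726150909092820160, 373028064381665275276171160, 
   6502633851430204788377880680, 115380728102867837706880077400, 2082044576993851690726205953720, 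
   38174183261353511479738755114640, 710534036652337786243138749634160, 13413971466447686500498155611024520, 
   256639940794504066448812856868401040, 4972114685320803112052133131987569880, 
   97472938788032541975699638556119652560]
theorem c10b_1_0 : run 4 11 149 true R10_1_0 p10b_1_0 [] = true := by
  decide +kernel

end Vale.Agent.P348
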