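import Vale.Agent.P348.Run
import Vale.Agent.P348.R10
import Vale.Agent.P348.C10x30

/-! Generated: kernel runs. -/

set_option maxRecDepth 100000

namespace Vale.Agent.P348

def p10b_1_3 : List ℤ :=
  [1480, 14520, 157080, 1835000, 22828440, 299453120, 4111247480, 58738254320, 869335985080, 13278547542920, 
   208665446606200, 3364546261863440, 55535533282100200, 936481607172448320, 16103806734050601320, 
   281943974836171330360, 5018593500465721891000, 90705520985883717300680, 1662747020344074433373640, 
   30883195765431873049663800, 580675764985882097000477080, 11043735841899459728852865000, 
   212306408383020785395601671160, 4122897586320586682315864714720, 80833413174270512631735309599800, 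
   1599224732401805759273210107626360, 31912463600373202358069308373355720, 
   642040862338985751862018475066578440, 13018166303604303446172561622648716040, 
   265929436888293489364237640855171450400, 5470992827950271161679810446568669461720]
theorem c10b_1_3 : run 4 11 149 true R10_1_3 p10b_1_3 [] = true := by
  decide +kernel

end Vale.Agent.P348
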