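import Vale.Agent.P348.Run
import Vale.Agent.P348.R10
import Vale.Agent.P348.C10x0

/-! Generated: kernel runs. -/

set_option maxRecDepth 100000

namespace Vale.Agent.P348

def p10b_0_10 : List ℤ :=
  [403, 5430, 78860, 1214540, 19631180, 330537100, 5764502420, 103660117460, 1915022219060, 36234462294780, 
   700382858210820, 13799264010214140, 276600229943971260, 5631171238041891860, 116266134168673291660, 
   2431340695773325577420, 51435895110207546756420, 1099653512177739156853740, 23735601586458719107894820, 
   516802081968881389750202260, 11341940701838813779965282460, 250714857772468585231111923340, 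
   5578542704772173651783804092820, 124868577718759574084438049987460, 2810244016332658979014687876269500, 
   63559595129135695591297226416347540, 1444013959402827079059189154502360700, 
   32941194739899451927375815493510023940, 754267749925734081990736792928700930220, 
   17329466161967812115817763409555770856980, 399380525561009180260025920983660262686740, 
   9230207162373828537652018994888736731987660, 213870461891499515935396959710761832837422620]
def f10b_0_10 : List ℤ :=
  [1, 10, 120, 1620, 23860, 376220, 6270620, 109484540, 1989409220, 37443702460, 726134706860, 14358829134300, 
   283576433912420, 5383768041716540, 90883201964888940, 1059100954395823700, -8205863163596526100, 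
   -1194527416323245822980, -57586615281742689187860, -2198533078558391031905180, -75239907913160397881707460, 
   -2410506103462322127224769500, -73802959479503848957184803300, -2184793263777563601535025606380, 
   -62997611428741397083300157381580, -1778324634850015932614693631600380, -49324632243075728186757423285704260, 
   -1347992194188967872809228266629240940, -36376645218641526865626444156367748500, 
   -971008125533802951297424744934846766060, -25674534447622840770758250443250574894300, 
   -673241550306255352683302751427780744069020, -17524874968593234077720672455983939992920660]
theorem c10b_0_10 : run 4 10 159 true R10_0_10 p10b_0_10 f10b_0_10 = true := by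
  decide +kernel

def p10b_6_0 : List ℤ :=
  [1230, 8400, 66420, 577380, 5380700, 52933100, 543979140, 5796032060, 63667063740, 717840773940, 
   8278544603860, 97377655873780, 1165527080289380, 14167139363326380, 174583105895221580, 2177931820934005340, 
   27469405315508421820]
theorem c10b_6_0 : run 4 16 80 true R10_6_0 p10b_6_0 [] = true := by
  decide +kernel

def p10b_7_0 : List ℤ :=
  [420, 2280, 14720, 105240, 808800, 6566680, 55680440, 489092280, 4423982240, 41018549880, 388431701000, 
   3745687672840, 36691139691480, 364333426695880, 3660767819091760, 37163459790917080, 380677537100772000]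
theorem c10b_7_0 : run 4 17 80 true R10_7_0 p10b_7_0 [] = true := by
  decide +kernel

def p10b_8_0 : List ℤ :=
  [110, 420, 2020, 10860, 62900, 384820, 2454340, 16163140, 109127220, 751342020, 5254115740, 37205429340, 
   266168885540, 1920346263060, 13952965817900, 101984628633100, 749191643812020]
theorem c10b_8_0 : run 4 18 80 true R10_8_0 p10b_8_0 [] = true := by
  decide +kernel

def p10a_8_0 : List ℤ :=
  [110, 420, 2020, 10860, 62900, 384820, 2454340, 16163140, 109127220, 751342020, 5254156700, 37207222780, 
   266213682980, 1921186435380, 13966133756460, 102166933765420, 751496186654900]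
theorem c10a_8_0 : run 4 18 80 false R10_8_0 p10a_8_0 [] = true := by
  decide +kernel

def p10b_9_0 : List ℤ :=
  [20, 40, 120, 400, 1400, 5040, 18480, 68640, 257400, 972400, 3695080, 14107760, 54072080, 207908000, 
   801513000, 3096650160, 11985360120]
theorem c10b_9_0 : run 4 19 80 true R10_9_0 p10b_9_0 [] = true := by
  decide +kernel

def p10b_10_0 : List ℤ :=
  [2, 0, 0, 0, 0, 0, 0, 0, 0, 0, 0, 0, 0, 0, 0, 0, 0]
theorem c10b_10_0 : run 4 20 80 true R10_10_0 p10b_10_0 [] = true := by
  decide +kernel

def p10a_10_0 : List ℤ :=
  [2, 0, 0, 0, 0, 0, 0, 0, 0, 0, 0, 0, 0, 0, 0, 0, 0]
theorem c10a_10_0 : run 4 20 80 false R10_10_0 p10a_10_0 [] = true := by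
  decide +kernel

end Vale.Agent.P348
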