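import Vale.Agent.P348.Run
import Vale.Agent.P348.R10
import Vale.Agent.P348.C10x26

/-! Generated: kernel runs. -/

set_option maxRecDepth 100000

namespace Vale.Agent.P348

def p10a_0_10 : List ℤ :=
  [403, 5430, 78860, 1214540, 19631180, 330537100, 5764502420, 103660117460, 1915022219060, 36234462294780, 
   700383063037140, 13799291236666620, 276602288498945500, 5631287924947710900, 116271658514178720700, 
   2431571761469104305100, 51444725327753472564900, 1099968632692270524182220, 23746262309507157176887700, 
   517147697814181372283463060, 11352764378179473775888628860, 251044294433098574687492570860, 
   5588333844415519263713605372820, 125153793589949252477442935625060, 2818411435896536241490903884810060, 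
   63790064151501860373986015781843060, 1450435107218074091550331839018429500, 
   33118121038228013280113009814713559300, 759095458979078506081260401400967642540, 
   17460069337930521362475859559462971446420, 402886825081349481974036617301789755665940, 
   9323701083446404740905976038111398586152940, 216348238648447324480721771117563952952632460]
def f10a_0_10 : List ℤ :=
  [1, 10, 120, 1620, 23860, 376220, 6270620, 109484540, 1989409220, 37443702460, 729066777260, 14772367182300, 
   316394962424420, 7318302591092540, 185365690783687020, 5107677439664921300, 149339100904855831020, 
   4500261076791296021500, 136654760895335761388140, 4124650321398382458533380, 122890793979010996073952220, 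
   3604278723354311000369981540, 104006648152815618588209252380, 2954689275497484335308729320980, 
   82727749546061457717582329381940, 2285780364698496746838986294750820, 62405114536416817013988296723190780, 
   1685529923322061785607211455600128980, 45088654990653323066636968370104552460, 
   1195772059265785364004417022503552052500, 31467953899236811015277232792086183265060, 
   822379907438623862005947873701558114682180, 21358250248710056938578683711249545379853580]
theorem c10a_0_10 : run 4 10 159 false R10_0_10 p10a_0_10 f10a_0_10 = true := by
  decide +kernel

def p10a_6_0 : List ℤ :=
  [1230, 8400, 66420, 577380, 5380700, 52933100, 543979140, 5796032060, 63667063740, 717840773940, 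
   8278565165780, 97379286767220, 1165601017281380, 14169660328701100, 174655033825553740, 2179746627341615420, 
   27511249385809470140]
theorem c10a_6_0 : run 4 16 80 false R10_6_0 p10a_6_0 [] = true := by
  decide +kernel

end Vale.Agent.P348
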