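import Vale.Agent.P348.Run
import Vale.Agent.P348.R10
import Vale.Agent.P348.C10x24

/-! Generated: kernel runs. -/

set_option maxRecDepth 100000

namespace Vale.Agent.P348

def p10b_1_11 : List ℤ :=
  [880, 11680, 168040, 2569440, 41247280, 689199440, 11909794760, 211799393720, 3861035928240, 71922579260440, 
   1365453574740360, 26362948430094560, 516674795509595000, 10262739596173890120, 206320162566129076520, 
   4193128035633760872160, 86060059452354887288880, 1782109363507982827939280, 37203481861391475724009600, 
   782412013166790498677786920, 16565704545967972639974708200, 352903449137693030121933829520, 
   7560461411755799779799056212240, 162811303873845778006521589907200, 3522752316576734938099031545530800, 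
   76555453197650456121856126357799080, 1670388635535360032414504646738475760, 
   36582316590302419002733163861218579160, 803923196682873118984611175026410211880, 
   17722955265627467235537360293926095666760, 391863185271724613261085727978103582573960]
theorem c10b_1_11 : run 4 11 149 true R10_1_11 p10b_1_11 [] = true := by
  decide +kernel

end Vale.Agent.P348
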