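import Vale.Agent.P348.Run
import Vale.Agent.P348.R10
import Vale.Agent.P348.C10x21

/-! Generated: kernel runs. -/

set_option maxRecDepth 100000

namespace Vale.Agent.P348

def p10b_2_0 : List ℤ :=
  [6930, 64160, 666760, 7537240, 91011480, 1159805160, 15464574200, 214367311680, 3073926547240, 45420285123560, 
   689407628782520, 10722090280633320, 170516501306531040, 2768200833069015800, 45809241957372209320, 
   771800476406523285040, 13224996721850395372880]
theorem c10b_2_0 : run 4 12 80 true R10_2_0 p10b_2_0 [] = true := by
  decide +kernel

end Vale.Agent.P348
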