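import Vale.Agent.P348.Run
import Vale.Agent.P348.R10
import Vale.Agent.P348.C10x22

/-! Generated: kernel runs. -/

set_option maxRecDepth 100000

namespace Vale.Agent.P348

def p10a_2_0 : List ℤ :=
  [6930, 64160, 666760, 7537240, 91011480, 1159805160, 15464574200, 214367311680, 3073926547240, 45420285123560, 
   689408442589720, 10722180288431560, 170522195775801040, 2768472349346387000, 45820107746984826040, 
   772186399876814722800, 13237573474793583307680]
theorem c10a_2_0 : run 4 12 80 false R10_2_0 p10a_2_0 [] = true := by
  decide +kernel

end Vale.Agent.P348
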