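import Vale.Agent.P348.Run
import Vale.Agent.P348.R10
import Vale.Agent.P348.C10x31

/-! Generated: kernel runs. -/

set_option maxRecDepth 100000

namespace Vale.Agent.P348

def p10b_2_1 : List ℤ :=
  [6600, 75040, 938880, 12616160, 179446320, 2674979840, 41487852080, 665738040360, 11003603601120, 
   186655837911520, 3239789439672200, 57393079045936920, 1035452883751842840, 18989756318851694800, 
   353445590875374940240, 6666890444963151445600, 127285380003668589480120]
theorem c10b_2_1 : run 4 12 80 true R10_2_1 p10b_2_1 [] = true := by
  decide +kernel

end Vale.Agent.P348
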