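import Vale.Agent.P348.Run
import Vale.Agent.P348.R10
import Vale.Agent.P348.C10x20

/-! Generated: kernel runs. -/

set_option maxRecDepth 100000

namespace Vale.Agent.P348

def p10a_2_1 : List ℤ :=
  [6600, 75040, 938880, 12616160, 179446320, 2674979840, 41487852080, 665738040360, 11003603601120, 
   186655837911520, 3239792239929640, 57393416808947640, 1035476106729337640, 18990955718315775120, 
   353497422146451357760, 6668872582421377415360, 127354740723006219754600]
theorem c10a_2_1 : run 4 12 80 false R10_2_1 p10a_2_1 [] = true := by
  decide +kernel

end Vale.Agent.P348
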