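import Vale.Agent.P348.Run
import Vale.Agent.P348.R10
import Vale.Agent.P348.C10x23

/-! Generated: kernel runs. -/

set_option maxRecDepth 100000

namespace Vale.Agent.P348

def p10b_3_0 : List ℤ :=
  [9480, 92400, 1013040, 12098400, 154499200, 2083717600, 29415065880, 431672113600, 6550201422720, 
   102325245688320, 1639764858615560, 26875005948092720, 449346368378842840, 7647813944508265680, 
   132252901465195021280, 2319964198776011344240, 41224182814276950653440]
theorem c10b_3_0 : run 4 13 80 true R10_3_0 p10b_3_0 [] = true := by
  decide +kernel

def p10b_5_0 : List ℤ :=
  [2904, 23280, 212920, 2131080, 22832200, 258190440, 3051395440, 37416575320, 473389323400, 6152640150120, 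
   81859595683120, 1111732230175560, 15375336135492160, 216112154541549640, 3081976160000302440, 
   44528939808387975480, 650980251084721452680]
theorem c10b_5_0 : run 4 15 80 true R10_5_0 p10b_5_0 [] = true := by
  decide +kernel

end Vale.Agent.P348
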