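import Vale.Agent.P348.Run
import Vale.Agent.P348.R10
import Vale.Agent.P348.C10x34

/-! Generated: kernel runs. -/

set_option maxRecDepth 100000

namespace Vale.Agent.P348

def p10b_4_0 : List ℤ :=
  [5700, 51240, 520940, 5779380, 68582900, 859196940, 11257434020, 153176451260, 2152608105620, 31106786156940, 
   460591509895700, 6967416373602940, 107413136351615540, 1684121377254404940, 26807280469828091380, 
   432549224522798671140, 7065600793117716878740]
theorem c10b_4_0 : run 4 14 80 true R10_4_0 p10b_4_0 [] = true := by
  decide +kernel

def p10a_4_0 : List ℤ :=
  [5700, 51240, 520940, 5779380, 68582900, 859196940, 11257434020, 153176451260, 2152608105620, 31106786156940, 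
   460592108239380, 6967478478645500, 107416818558204980, 1684285601215837900, 26813414031484805620, 
   432752029909262213220, 7071737187241219608980]
theorem c10a_4_0 : run 4 14 80 false R10_4_0 p10a_4_0 [] = true := by
  decide +kernel

end Vale.Agent.P348
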