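import Vale.Agent.P348.Defs

/-! Kernel checkers (definitions only). -/

namespace Vale.Agent.P348

open Matrix

/-! ### Gauss type bounds from moments -/

/-- value of a coefficient list (low degree first) -/
def evalL (l : List ℕ) (u : ℝ) : ℝ := l.foldr (fun c r => (c : ℝ) + u * r) 0

/-- scaled Taylor coefficients: `cf s K 1 [top]` lists `s ^ (K - k) * K ! / k !` for `k < K`, then `top` -/
noncomputable def cf (s k : ℕ) : ℕ → List ℕ → List ℕ :=
  Nat.rec (motive := fun _ => ℕ → List ℕ → List ℕ) (fun _ l => l)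
    (fun k r cur l => r (Nat.mul cur (Nat.mul s (Nat.succ k))) (Nat.mul cur (Nat.mul s (Nat.succ k)) :: l)) k

noncomputable def hd (l : List ℕ) : ℕ := List.rec (motive := fun _ => ℕ) 0 (fun x _ _ => x) l
noncomputable def tl (l : List ℕ) : List ℕ := List.rec (motive := fun _ => List ℕ) [] (fun _ r _ => r) l
noncomputable def hdZ (l : List ℤ) : ℤ := List.rec (motive := fun _ => ℤ) 0 (fun x _ _ => x) l

/-- Horner partial sums: head is the remainder, tail the quotient of the division by `u - a` -/
noncomputable def sdiv (a : ℕ) (l : List ℕ) : List ℕ :=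
  List.rec (motive := fun _ => List ℕ) [] (fun c _ r => Nat.add c (Nat.mul a (hd r)) :: r) l

/-- moments of the measure multiplied by `B * η + c`; the list gets shorter by one -/
noncomputable def msh (B c : ℤ) (m : List ℤ) : List ℤ :=
  List.rec (motive := fun _ => List ℤ) []
    (fun x t r => List.rec (motive := fun _ => List ℤ) []
      (fun y _ _ => Int.add (Int.mul B y) (Int.mul c x) :: r) t) m

/-- integral of the Newton interpolation polynomial; the variable is `u = B * (η + L)` -/
noncomputable def newton (B L : ℕ) (nodes : List ℕ) : List ℕ → List ℤ → ℤ :=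
  List.rec (motive := fun _ => List ℕ → List ℤ → ℤ) (fun _ _ => 0)
    (fun a _ r l m => Int.add (Int.mul (Int.ofNat (hd (sdiv a l))) (hdZ m))
      (r (tl (sdiv a l)) (msh (Int.ofNat B) (Int.subNatNat (Nat.mul B L) a) m))) nodes

/-- every node twice, then `e` -/
noncomputable def dbl (nodes e : List ℕ) : List ℕ :=
  List.rec (motive := fun _ => List ℕ) e (fun a _ r => a :: a :: r) nodes

/-- integral of the node polynomial -/
noncomputable def nodeInt (B L : ℕ) (nodes : List ℕ) : List ℤ → ℤ :=
  List.rec (motive := fun _ => List ℤ → ℤ) hdZ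
    (fun a _ r m => r (msh (Int.ofNat B) (Int.subNatNat (Nat.mul B L) a) m)) nodes

/-- lower bound check (`B = 8 * s`) -/
noncomputable def lowChk (s K L : ℕ) (m : List ℤ) (nodes : List ℕ) (lo : ℕ) : Bool :=
  decide (2 * nodes.length ≤ m.length) &&
  decide (Int.ofNat (Nat.mul lo (hd (cf s K 1 [1]))) ≤ newton (8 * s) L (dbl nodes []) (cf s K 1 [1]) m)

/-- upper bound check -/
noncomputable def upChk (s K L : ℕ) (m : List ℤ) (nodes : List ℕ) (Y hi : ℕ) : Bool :=
  decide (2 * nodes.length + 1 ≤ m.length) && decide (2 * Y ≤ s * (K + 1)) &&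
  decide (newton (8 * s) L (dbl nodes [Y]) (cf s K 1 [2]) m ≤ Int.ofNat (Nat.mul hi (hd (cf s K 1 [2]))))

/-- spectral edge check for a counting measure -/
noncomputable def edgeChk (s L : ℕ) (m : List ℤ) (nodes : List ℕ) (Y : ℕ) : Bool :=
  decide (2 * nodes.length + 1 ≤ m.length) && nodes.all (fun a => decide (a ≤ Y)) &&
  decide (nodeInt (8 * s) L (dbl nodes []) m < Int.ofNat ((nodes.map fun a => (Y - a) ^ 2).prod))

/-! ### Orbit counting on codes -/

def rotC (L c : ℕ) : ℕ := Nat.add (Nat.div c 3) (Nat.mul (Nat.mod c 3) (Nat.pow 3 (Nat.sub L 1)))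
def flipC (L c : ℕ) : ℕ := Nat.sub (Nat.sub (Nat.pow 3 L) 1) c
noncomputable def revA (n : ℕ) : ℕ → ℕ → ℕ :=
  Nat.rec (motive := fun _ => ℕ → ℕ → ℕ) (fun _ a => a)
    (fun _ r c a => r (Nat.div c 3) (Nat.add (Nat.mul a 3) (Nat.mod c 3))) n
/-- reverses the `L` digits -/
noncomputable def revC (L c : ℕ) : ℕ := revA L c 0
/-- digit sum of a code -/
noncomputable def dsC (n : ℕ) : ℕ → ℕ :=
  Nat.rec (motive := fun _ => ℕ → ℕ) (fun _ => 0)
    (fun _ r c => Nat.add (Nat.mod c 3) (r (Nat.div c 3))) n

/-- mark `x`, count it if it is new, and continue -/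
noncomputable def visit (x : ℕ) (k : ℕ → ℕ → Bool) (mask cnt : ℕ) : Bool :=
  Bool.rec (motive := fun _ => Bool) (k mask cnt)
    (k (Nat.lor mask (Nat.shiftLeft 1 x)) (Nat.succ cnt))
    (Nat.beq (Nat.land (Nat.shiftRight mask x) 1) 0)

/-- visit `n` successive rotations of `c` and their flips -/
noncomputable def visRot (L : ℕ) (k : ℕ → ℕ → Bool) (n : ℕ) : ℕ → ℕ → ℕ → Bool :=
  Nat.rec (motive := fun _ => ℕ → ℕ → ℕ → Bool) (fun _ => k)
    (fun _ r c => visit c (visit (flipC L c) (r (rotC L c)))) n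

/-- run through representatives with claimed weights, from `mask` to the mask `fin` -/
noncomputable def orbRun (L fin : ℕ) (reps : List (ℕ × ℕ)) : ℕ → Bool :=
  List.rec (motive := fun _ => ℕ → Bool) (fun mask => Nat.beq mask fin)
    (fun x _ r mask => Bool.rec (motive := fun _ => Bool) false
      (visRot L (visRot L (fun mask' cnt => Bool.rec (motive := fun _ => Bool) false (r mask') (Nat.beq cnt x.2))
        L (revC L x.1)) L x.1 mask 0)
      (Nat.ble (Nat.succ x.1) (Nat.pow 3 L))) reps

/-! ### Matrix product states -/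

/-- transfer map with an inserted on-site operator -/
def Phi {D : ℕ} (A : Fin 3 → Matrix (Fin D) (Fin D) ℝ) (O : M3 ℝ) (X : Matrix (Fin D) (Fin D) ℝ) :
    Matrix (Fin D) (Fin D) ℝ :=
  ∑ a, ∑ b, O a b • ((A a)ᵀ * X * A b)

/-- bond energy as an operator on the virtual space -/
def hA {D : ℕ} (A : Fin 3 → Matrix (Fin D) (Fin D) ℝ) : Matrix (Fin D) (Fin D) ℝ :=
  Phi A Zm (Phi A Zm 1) - Phi A Dm (Phi A Um 1) - Phi A Um (Phi A Dm 1)

/-- variational energy per site -/
noncomputable def eV : ℝ := -1401481 / 1000000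

/-- normalisation constant, a lower bound for `exp (4 * (2 - eV))` -/
noncomputable def R0 : ℝ := 810919

end Vale.Agent.P348
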