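import Vale.Agent.P348.Defs

/-! Basic algebra of `tens` and `st`. -/

namespace Vale.Agent.P348

open Matrix

variable {R : Type} [CommRing R] {L : ℕ}

theorem tens_mul (A B : Fin L → M3 R) : tens A * tens B = tens fun i => A i * B i := by
  ext s t
  simp only [tens, Matrix.mul_apply]
  rw [Finset.prod_univ_sum]
  simp only [Fintype.piFinset_univ, Finset.prod_mul_distrib]

theorem tens_one : (tens fun _ : Fin L => (1 : M3 R)) = 1 := by
  ext s t
  simp only [tens, Matrix.one_apply]
  by_cases h : s = t
  · simp [h]
  · obtain ⟨i, hi⟩ := Function.ne_iff.1 h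
    rw [if_neg h]
    exact Finset.prod_eq_zero (Finset.mem_univ i) (if_neg hi)

/-- `tens` as a monoid homomorphism -/
def tensHom (R : Type) [CommRing R] (L : ℕ) : (Fin L → M3 R) →* MC L R where
  toFun := tens
  map_one' := tens_one
  map_mul' A B := (tens_mul A B).symm

theorem tens_list_prod (l : List (Fin L → M3 R)) :
    (l.map tens).prod = tens fun i => (l.map fun A => A i).prod := by
  induction l with
  | nil => simp [tens_one]
  | cons A l ih => simp [ih, tens_mul]

theorem tens_smul (c : Fin L → R) (A : Fin L → M3 R) :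
    (tens fun i => c i • A i) = (∏ i, c i) • tens A := by
  ext s t
  simp [tens, Finset.prod_mul_distrib]

theorem tens_eq_zero (A : Fin L → M3 R) (j : Fin L) (h : A j = 0) : tens A = 0 := by
  ext s t
  exact Finset.prod_eq_zero (Finset.mem_univ j) (by simp [h])

theorem tens_transpose (A : Fin L → M3 R) : (tens A)ᵀ = tens fun i => (A i)ᵀ := by
  ext s t
  simp [tens]

theorem tens_conjTranspose [StarRing R] (A : Fin L → M3 R) :
    (tens A)ᴴ = tens fun i => (A i)ᴴ := by
  ext s t
  simp [tens]

theorem trace_tens (A : Fin L → M3 R) : trace (tens A) = ∏ i, trace (A i) := by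
  simp only [trace, diag, tens]
  rw [Finset.prod_univ_sum]
  simp

theorem tens_map {R' : Type} [CommRing R'] (f : R →+* R') (A : Fin L → M3 R) :
    (tens A).map f = tens fun i => (A i).map f := by
  ext s t
  simp [tens]

theorem tens_diagonal (d : Fin L → Fin 3 → R) :
    (tens fun i => diagonal (d i)) = diagonal fun s : Cfg L => ∏ i, d i (s i) := by
  ext s t
  simp only [tens, diagonal_apply]
  by_cases h : s = t
  · simp [h]
  · obtain ⟨i, hi⟩ := Function.ne_iff.1 h
    rw [if_neg h]
    exact Finset.prod_eq_zero (Finset.mem_univ i) (if_neg hi)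

theorem site_eq_st (j : Fin L) (A : M3 ℂ) : site j A = st j A := rfl

theorem st_apply (j : Fin L) (A : M3 R) (s t : Cfg L) :
    st j A s t = A (s j) (t j) * ∏ i ∈ Finset.univ.erase j, if s i = t i then 1 else 0 := by
  simp only [st, tens]
  rw [← Finset.mul_prod_erase _ _ (Finset.mem_univ j), if_pos rfl]
  congr 1
  refine Finset.prod_congr rfl fun i hi => ?_
  rw [if_neg (Finset.ne_of_mem_erase hi), Matrix.one_apply]

theorem st_one (j : Fin L) : st j (1 : M3 R) = 1 := by
  simp [st, tens_one]

theorem st_zero (j : Fin L) : st j (0 : M3 R) = 0 := by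
  ext s t; simp [st_apply]

theorem st_add (j : Fin L) (A B : M3 R) : st j (A + B) = st j A + st j B := by
  ext s t; simp [st_apply, add_mul]

theorem st_sub (j : Fin L) (A B : M3 R) : st j (A - B) = st j A - st j B := by
  ext s t; simp [st_apply, sub_mul]

theorem st_neg (j : Fin L) (A : M3 R) : st j (-A) = -st j A := by
  ext s t; simp [st_apply]

theorem st_smul (j : Fin L) (c : R) (A : M3 R) : st j (c • A) = c • st j A := by
  ext s t; simp [st_apply, mul_assoc]

theorem st_sum {α : Type*} (j : Fin L) (S : Finset α) (A : α → M3 R) :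
    st j (∑ a ∈ S, A a) = ∑ a ∈ S, st j (A a) := by
  ext s t; simp [st_apply, Matrix.sum_apply, Finset.sum_mul]

theorem st_mul (j : Fin L) (A B : M3 R) : st j A * st j B = st j (A * B) := by
  simp only [st, tens_mul]
  congr 1; funext i; split_ifs <;> simp

theorem st_comm {j k : Fin L} (h : j ≠ k) (A B : M3 R) :
    st j A * st k B = st k B * st j A := by
  simp only [st, tens_mul]
  congr 1; funext i
  by_cases h1 : i = j
  · subst h1; simp [h]
  · simp [h1]

theorem st_transpose (j : Fin L) (A : M3 R) : (st j A)ᵀ = st j Aᵀ := by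
  simp only [st, tens_transpose]
  congr 1; funext i; split_ifs <;> simp

theorem st_conjTranspose [StarRing R] (j : Fin L) (A : M3 R) : (st j A)ᴴ = st j Aᴴ := by
  simp only [st, tens_conjTranspose]
  congr 1; funext i; split_ifs <;> simp

theorem st_map {R' : Type} [CommRing R'] (f : R →+* R') (j : Fin L) (A : M3 R) :
    (st j A).map f = st j (A.map f) := by
  simp only [st, tens_map]
  congr 1; funext i; split_ifs <;> simp

/-- conjugating a one-site operator by a product of on-site matrices -/
theorem tens_st (V : Fin L → M3 R) (j : Fin L) (A B : M3 R) (h : V j * A = B * V j) :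
    tens V * st j A = st j B * tens V := by
  simp only [st, tens_mul]
  congr 1; funext i
  by_cases h1 : i = j
  · subst h1; simp [h]
  · simp [h1]

theorem finRotate_ne (hL : 2 ≤ L) (j : Fin L) : j ≠ finRotate L j := by
  obtain ⟨n, rfl⟩ : ∃ n, L = n + 2 := ⟨L - 2, by omega⟩
  intro h
  rw [finRotate_apply] at h
  have : (1 : Fin (n + 2)) = 0 := by simpa using h.symm
  simp at this

theorem finRotate_val (j : Fin L) :
    (finRotate L j).val = if j.val + 1 = L then 0 else j.val + 1 := by
  obtain ⟨n, rfl⟩ : ∃ n, L = n + 1 := ⟨L - 1, by have := j.2; omega⟩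
  rw [finRotate_apply, Fin.val_add_one]
  by_cases h : j = Fin.last n
  · simp [h]
  · have : j.val ≠ n := fun h' => h (Fin.ext h')
    simp [h, this]

end Vale.Agent.P348
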