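import Vale.Agent.P348.Chk
import Vale.Agent.P348.Tens
import Vale.Agent.P348.Spec

/-! Codes of configurations and the action of `yB` on them.
`yB_mulVec`: `(st j A * st k B) *ᵥ v` at `s` is `∑ a b, A (s j) a * B (s k) b * v (update (update s j a) k b)`
for `j ≠ k`; changing digit `j` of `dec L c` by `± 1` is `dec L (c ± 3 ^ j)` (via `enc`); split the sum over
`j : Fin L` into `j + 1 < L` and `j + 1 = L` (`finRotate_val`). -/

namespace Vale.Agent.P348

open Matrix

theorem enc_eq {L : ℕ} (s : Cfg L) : enc s = (finFunctionFinEquiv s : Fin (3 ^ L)).val :=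
  (finFunctionFinEquiv_apply s).symm

theorem dec_eq {L : ℕ} (c : Fin (3 ^ L)) : dec L c.val = finFunctionFinEquiv.symm c :=
  funext fun i => Fin.ext (finFunctionFinEquiv_symm_apply_val c i).symm

theorem enc_lt {L : ℕ} (s : Cfg L) : enc s < 3 ^ L := by
  rw [enc_eq]; exact Fin.is_lt _

theorem dec_enc {L : ℕ} (s : Cfg L) : dec L (enc s) = s := by
  rw [enc_eq, dec_eq, Equiv.symm_apply_apply]

theorem enc_dec {L c : ℕ} (hc : c < 3 ^ L) : enc (dec L c) = c := by
  rw [enc_eq, dec_eq ⟨c, hc⟩, Equiv.apply_symm_apply]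

theorem sum_cfg {M : Type} [AddCommMonoid M] (L : ℕ) (f : Cfg L → M) :
    ∑ s, f s = ∑ c ∈ Finset.range (3 ^ L), f (dec L c) := by
  rw [← Fin.sum_univ_eq_sum_range (fun c => f (dec L c)),
    ← Equiv.sum_comp (finFunctionFinEquiv (m := 3) (n := L)).symm]
  simp only [dec_eq]

theorem dg_succ (c j : ℕ) : dg c (j + 1) = dg (c / 3) j := by
  rw [dg, dg, pow_succ', Nat.div_div_eq_div_mul]

theorem dg_zero (c : ℕ) : dg c 0 = c % 3 := by simp [dg]

theorem dec_val (L c : ℕ) (i : Fin L) : (dec L c i).val = dg c i := (rfl)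

theorem ds_dec (L c : ℕ) : ds (dec L c) = dsC L c := by
  induction L generalizing c with
  | zero => rfl
  | succ n ih =>
    show _ = c % 3 + dsC n (c / 3)
    rw [← ih, ds, ds, Fin.sum_univ_succ]
    simp only [dec_val, Fin.val_succ, Fin.val_zero, dg_succ, dg_zero]

theorem flp_val {L : ℕ} (s : Cfg L) (i : Fin L) : (flp s i).val + (s i).val = 2 := by
  have := (s i).2
  simp only [flp, Fin.val_rev]
  omega

theorem enc_flp {L : ℕ} (s : Cfg L) : enc (flp s) + enc s + 1 = 3 ^ L := by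
  have h : ∀ n : ℕ, ∑ i : Fin n, 2 * 3 ^ i.val + 1 = 3 ^ n := by
    intro n
    induction n with
    | zero => rfl
    | succ n ih =>
      rw [Fin.sum_univ_castSucc]
      simp only [Fin.val_castSucc, Fin.val_last]
      omega
  rw [← h, enc, enc, ← Finset.sum_add_distrib]
  simp only [← add_mul, flp_val]

theorem flp_dec {L c : ℕ} (hc : c < 3 ^ L) : flp (dec L c) = dec L (flipC L c) := by
  have h := enc_flp (dec L c)
  rw [enc_dec hc] at h
  have e : flipC L c = enc (flp (dec L c)) := by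
    show 3 ^ L - 1 - c = _
    omega
  rw [e, dec_enc]

section
variable {R : Type} [CommRing R] {L : ℕ}

theorem st_mulVec (j : Fin L) (A : M3 R) (v : Cfg L → R) (s : Cfg L) :
    (st j A *ᵥ v) s = ∑ a, A (s j) a * v (Function.update s j a) := by
  have e : ∀ t, st j A s t = ∑ a, if t = Function.update s j a then A (s j) a else 0 := by
    intro t
    rw [Finset.sum_eq_single (t j), st_apply]
    · split_ifs with h
      · rw [Finset.prod_eq_one, mul_one]
        intro i hi
        rw [if_pos]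
        rw [h, Function.update_of_ne (Finset.ne_of_mem_erase hi)]
      · obtain ⟨i, hi⟩ := Function.ne_iff.1 h
        have hij : i ≠ j := by rintro rfl; simp at hi
        rw [Function.update_of_ne hij] at hi
        rw [Finset.prod_eq_zero (i := i) (by simp [hij]) (if_neg (Ne.symm hi)), mul_zero]
    · intro a _ ha
      rw [if_neg]
      rintro rfl
      simp at ha
    · simp
  simp only [mulVec, dotProduct, e, Finset.sum_mul]
  rw [Finset.sum_comm]
  simp

theorem enc_update (s : Cfg L) (j : Fin L) (a : Fin 3) :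
    enc (Function.update s j a) + (s j).val * 3 ^ j.val = enc s + a.val * 3 ^ j.val := by
  rw [enc, enc, ← Finset.add_sum_erase _ _ (Finset.mem_univ j),
    ← Finset.add_sum_erase _ _ (Finset.mem_univ j), Function.update_self,
    Finset.sum_congr rfl fun i hi => by
      rw [Function.update_of_ne (Finset.ne_of_mem_erase hi)]]
  ring

theorem enc_down {c : ℕ} (hc : c < 3 ^ L) (j : Fin L) (a : Fin 3) (h : a.val + 1 = dg c j) :
    enc (Function.update (dec L c) j a) = c - 3 ^ j.val := by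
  have := enc_update (dec L c) j a
  rw [enc_dec hc, dec_val, ← h, add_mul, one_mul] at this
  omega

theorem enc_up {c : ℕ} (hc : c < 3 ^ L) (j : Fin L) (a : Fin 3) (h : a.val = dg c j + 1) :
    enc (Function.update (dec L c) j a) = c + 3 ^ j.val := by
  have := enc_update (dec L c) j a
  rw [enc_dec hc, dec_val, h, add_mul, one_mul] at this
  omega

theorem dg_lt (c j : ℕ) : dg c j < 3 := Nat.mod_lt _ (by norm_num)

theorem down_spec {c : ℕ} (hc : c < 3 ^ L) {j k : Fin L} (hjk : j ≠ k) (h : 1 ≤ dg c j) :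
    c - 3 ^ j.val < 3 ^ L ∧ dg (c - 3 ^ j.val) k = dg c k := by
  have e := enc_down hc j ⟨dg c j - 1, by have := dg_lt c j; omega⟩ (by simp only; omega)
  refine ⟨(Nat.sub_le _ _).trans_lt hc, ?_⟩
  rw [← e, ← dec_val L, dec_enc, Function.update_of_ne hjk.symm, dec_val]

theorem up_spec {c : ℕ} (hc : c < 3 ^ L) {j k : Fin L} (hjk : j ≠ k) (h : dg c j ≤ 1) :
    c + 3 ^ j.val < 3 ^ L ∧ dg (c + 3 ^ j.val) k = dg c k := by
  have e := enc_up hc j ⟨dg c j + 1, by omega⟩ rfl
  refine ⟨e ▸ enc_lt _, ?_⟩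
  rw [← e, ← dec_val L, dec_enc, Function.update_of_ne hjk.symm, dec_val]

theorem Um_apply (a b : Fin 3) : (Um : M3 R) a b = if b.val + 1 = a.val then 1 else 0 := by
  fin_cases a <;> fin_cases b <;> simp [Um]

theorem Dm_apply (a b : Fin 3) : (Dm : M3 R) a b = if b.val = a.val + 1 then 1 else 0 := by
  fin_cases a <;> fin_cases b <;> simp [Dm]

theorem Zm_apply (a b : Fin 3) : (Zm : M3 R) a b = if b = a then (a.val : R) - 1 else 0 := by
  fin_cases a <;> fin_cases b <;> simp [Zm]
  norm_num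

theorem Um_dec {c : ℕ} (hc : c < 3 ^ L) (j : Fin L) (v : Cfg L → R) :
    (st j Um *ᵥ v) (dec L c) = if 1 ≤ dg c j then v (dec L (c - 3 ^ j.val)) else 0 := by
  have := dg_lt c j
  rw [st_mulVec]
  simp only [Um_apply, dec_val]
  split_ifs with h
  · rw [Finset.sum_eq_single ⟨dg c j - 1, by omega⟩, if_pos (by simp only; omega), one_mul,
      ← enc_down hc j ⟨dg c j - 1, by omega⟩ (by simp only; omega), dec_enc]
    · intro b _ hb
      rw [if_neg, zero_mul]
      exact fun e => hb (Fin.ext (by simp only; omega))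
    · simp
  · exact Finset.sum_eq_zero fun b _ => by rw [if_neg (by omega), zero_mul]

theorem Dm_dec {c : ℕ} (hc : c < 3 ^ L) (j : Fin L) (v : Cfg L → R) :
    (st j Dm *ᵥ v) (dec L c) = if dg c j ≤ 1 then v (dec L (c + 3 ^ j.val)) else 0 := by
  rw [st_mulVec]
  simp only [Dm_apply, dec_val]
  split_ifs with h
  · rw [Finset.sum_eq_single ⟨dg c j + 1, by omega⟩, if_pos rfl, one_mul,
      ← enc_up hc j ⟨dg c j + 1, by omega⟩ rfl, dec_enc]
    · intro b _ hb
      rw [if_neg, zero_mul]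
      exact fun e => hb (Fin.ext e)
    · simp
  · exact Finset.sum_eq_zero fun b _ => by rw [if_neg (by have := b.2; omega), zero_mul]

theorem Zm_mulVec (j : Fin L) (v : Cfg L → R) (s : Cfg L) :
    (st j Zm *ᵥ v) s = (((s j).val : R) - 1) * v s := by
  rw [st_mulVec]
  simp [Zm_apply]

theorem diag_dec (c : ℕ) (j k : Fin L) (v : Cfg L → R) :
    ((1 - st j Zm * st k Zm : MC L R) *ᵥ v) (dec L c) =
      (tt (dg c j) (dg c k) : ℕ) * v (dec L c) := by
  rw [sub_mulVec, one_mulVec, ← mulVec_mulVec, Pi.sub_apply, Zm_mulVec, Zm_mulVec, dec_val,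
    dec_val, tt, Nat.cast_sub]
  · push_cast; ring
  · have h1 := dg_lt c j
    have h2 := dg_lt c k
    generalize dg c j = a at *
    generalize dg c k = b at *
    interval_cases a <;> omega

theorem hop_dec {c : ℕ} (hc : c < 3 ^ L) {j k : Fin L} (hjk : j ≠ k) (v : Cfg L → R) :
    ((st j Um * st k Dm + st j Dm * st k Um : MC L R) *ᵥ v) (dec L c) =
      (if 1 ≤ dg c j ∧ dg c k ≤ 1 then v (dec L (c - 3 ^ j.val + 3 ^ k.val)) else 0) +
        if dg c j ≤ 1 ∧ 1 ≤ dg c k then v (dec L (c + 3 ^ j.val - 3 ^ k.val)) else 0 := by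
  rw [add_mulVec, ← mulVec_mulVec, ← mulVec_mulVec, Pi.add_apply, Um_dec hc, Dm_dec hc]
  congr 1
  · by_cases h : 1 ≤ dg c j
    · obtain ⟨h1, h2⟩ := down_spec hc hjk h
      rw [if_pos h, Dm_dec h1, h2]
      simp [h]
    · simp [h]
  · by_cases h : dg c j ≤ 1
    · obtain ⟨h1, h2⟩ := up_spec hc hjk h
      rw [if_pos h, Um_dec h1, h2]
      simp [h]
    · simp [h]

/-- the matrix changes the digit sum by `d` -/
def Deg (M : MC L R) (d : ℤ) : Prop := ∀ s t, M s t ≠ 0 → (ds s : ℤ) = ds t + d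

theorem Deg.mul {M N : MC L R} {d d' : ℤ} (h : Deg M d) (h' : Deg N d') : Deg (M * N) (d + d') := by
  intro s t hst
  rw [Matrix.mul_apply] at hst
  obtain ⟨u, -, hu⟩ := Finset.exists_ne_zero_of_sum_ne_zero hst
  have h1 := h s u (left_ne_zero_of_mul hu)
  have h2 := h' u t (right_ne_zero_of_mul hu)
  omega

theorem Deg.add {M N : MC L R} {d : ℤ} (h : Deg M d) (h' : Deg N d) : Deg (M + N) d := by
  intro s t hst
  by_cases h0 : M s t = 0
  · exact h' s t fun e => hst (by rw [Matrix.add_apply, h0, e, add_zero])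
  · exact h s t h0

theorem Deg.smul {M : MC L R} {d : ℤ} (h : Deg M d) (c : R) : Deg (c • M) d :=
  fun s t hst => h s t (right_ne_zero_of_mul hst)

theorem Deg.sub {M N : MC L R} {d : ℤ} (h : Deg M d) (h' : Deg N d) : Deg (M - N) d := by
  intro s t hst
  by_cases h0 : M s t = 0
  · exact h' s t fun e => hst (by rw [Matrix.sub_apply, h0, e, sub_zero])
  · exact h s t h0

theorem Deg.one : Deg (1 : MC L R) 0 := by
  intro s t hst
  by_cases h : s = t
  · simp [h]
  · exact absurd (one_apply_ne h) hst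

theorem Deg.st (j : Fin L) {A : M3 R} {d : ℤ}
    (h : ∀ a b, A a b ≠ 0 → (a.val : ℤ) = b.val + d) : Deg (st j A) d := by
  intro s t hst
  rw [st_apply] at hst
  have h1 := h _ _ (left_ne_zero_of_mul hst)
  have h2 : ∀ i ∈ Finset.univ.erase j, (s i).val = (t i).val := fun i hi => by
    by_contra hne
    exact right_ne_zero_of_mul hst
      (Finset.prod_eq_zero hi (if_neg fun e => hne (congrArg Fin.val e)))
  rw [ds, ds, ← Finset.add_sum_erase _ _ (Finset.mem_univ j),
    ← Finset.add_sum_erase _ _ (Finset.mem_univ j), Finset.sum_congr rfl h2]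
  push_cast
  omega

end

theorem yB_mulVec {R : Type} [CommRing R] (L : ℕ) (hL : 2 ≤ L) (e : R) (v : Cfg L → R) (c : ℕ)
    (hc : c < 3 ^ L) :
    (yB L e *ᵥ v) (dec L c) = Yc L (fun u => v (dec L u)) (fun u => e * v (dec L u)) c := by
  obtain ⟨n, rfl⟩ : ∃ n, L = n + 1 := ⟨L - 1, by omega⟩
  have h0 : (0 : Fin (n + 1)) ≠ Fin.last n := by
    intro h
    have := congrArg Fin.val h
    simp only [Fin.val_zero, Fin.val_last] at this
    omega
  have hr : ∀ j : Fin n, finRotate (n + 1) j.castSucc = j.succ := fun j => by simp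
  have hne : ∀ j : Fin n, j.castSucc ≠ j.succ := fun j => (Fin.castSucc_lt_succ).ne
  have hif : ∀ j : Fin n, (if j.castSucc.val + 1 = n + 1 then e else 1) = 1 := fun j =>
    if_neg (by have := j.2; simp only [Fin.val_castSucc]; omega)
  rw [yB, Matrix.sum_mulVec, Finset.sum_apply, Fin.sum_univ_castSucc]
  simp only [hr, hif, one_smul, finRotate_last, Fin.val_last, if_true]
  rw [← st_comm h0 Dm Um, ← st_comm h0 Um Dm, add_comm (st 0 Dm * _)]
  have hadd : ∀ (j k : Fin (n + 1)) (M : MC (n + 1) R),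
      (1 - st j Zm * st k Zm + M) *ᵥ v = (1 - st j Zm * st k Zm) *ᵥ v + M *ᵥ v :=
    fun _ _ _ => add_mulVec _ _ _
  simp only [hadd, Pi.add_apply, diag_dec, smul_mulVec, Pi.smul_apply,
    hop_dec hc (hne _), hop_dec hc h0, Fin.val_castSucc, Fin.val_succ, Fin.val_last, Fin.val_zero]
  rw [Yc, Nat.add_sub_cancel, Finset.sum_add_distrib, ← Finset.sum_mul,
    Fin.sum_univ_eq_sum_range (fun j => ((tt (dg c j) (dg c (j + 1)) : ℕ) : R)),
    Fin.sum_univ_eq_sum_range (fun j =>
      (if 1 ≤ dg c j ∧ dg c (j + 1) ≤ 1 then v (dec (n + 1) (c - 3 ^ j + 3 ^ (j + 1))) else 0) +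
        if dg c j ≤ 1 ∧ 1 ≤ dg c (j + 1) then v (dec (n + 1) (c + 3 ^ j - 3 ^ (j + 1))) else 0)]
  simp only [smul_eq_mul, mul_add, mul_ite, mul_zero, pow_zero]
  push_cast
  ring

theorem yB_ds {R : Type} [CommRing R] (L : ℕ) (hL : 2 ≤ L) (e : R) (s t : Cfg L)
    (h : yB L e s t ≠ 0) : ds s = ds t := by
  have hU : ∀ j : Fin L, Deg (st j (Um : M3 R)) 1 := fun j => Deg.st j fun a b h => by
    rw [Um_apply] at h
    have : b.val + 1 = a.val := by by_contra h'; exact h (if_neg h')
    omega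
  have hD : ∀ j : Fin L, Deg (st j (Dm : M3 R)) (-1) := fun j => Deg.st j fun a b h => by
    rw [Dm_apply] at h
    have : b.val = a.val + 1 := by by_contra h'; exact h (if_neg h')
    omega
  have hZ : ∀ j : Fin L, Deg (st j (Zm : M3 R)) 0 := fun j => Deg.st j fun a b h => by
    rw [Zm_apply] at h
    have : b = a := by by_contra h'; exact h (if_neg h')
    simp [this]
  rw [yB, Matrix.sum_apply] at h
  obtain ⟨j, -, hj⟩ := Finset.exists_ne_zero_of_sum_ne_zero h
  have := ((Deg.one.sub ((hZ j).mul (hZ _))).add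
    ((((hU j).mul (hD _)).add ((hD j).mul (hU _))).smul _)) s t hj
  omega

end Vale.Agent.P348
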