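import Vale.Agent.P348.Asm
import Vale.Agent.P348.C10x9
import Vale.Agent.P348.C10x8
import Vale.Agent.P348.C10x7
import Vale.Agent.P348.C10x6
import Vale.Agent.P348.C10x5
import Vale.Agent.P348.C10x4
import Vale.Agent.P348.C10x3
import Vale.Agent.P348.C10x2
import Vale.Agent.P348.C10x19
import Vale.Agent.P348.C10x18
import Vale.Agent.P348.C10x17
import Vale.Agent.P348.C10x16
import Vale.Agent.P348.C10x15
import Vale.Agent.P348.C10x14
import Vale.Agent.P348.C10x13
import Vale.Agent.P348.C10x12
import Vale.Agent.P348.C10x11
import Vale.Agent.P348.C10x10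
import Vale.Agent.P348.C10x1
import Vale.Agent.P348.C10x0
import Vale.Agent.P348.C10x30
import Vale.Agent.P348.C10x29
import Vale.Agent.P348.C10x28
import Vale.Agent.P348.C10x27
import Vale.Agent.P348.C10x26
import Vale.Agent.P348.C10x25
import Vale.Agent.P348.C10x24
import Vale.Agent.P348.C10x23
import Vale.Agent.P348.C10x22
import Vale.Agent.P348.C10x21
import Vale.Agent.P348.C10x20
import Vale.Agent.P348.C10x31
import Vale.Agent.P348.C10x32
import Vale.Agent.P348.C10x33
import Vale.Agent.P348.C10x38
import Vale.Agent.P348.C10x35
import Vale.Agent.P348.C10x34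
import Vale.Agent.P348.C10x37
import Vale.Agent.P348.C10x36
import Vale.Agent.P348.C10x39

/-! Generated: certificates at one length. -/

set_option maxRecDepth 100000

namespace Vale.Agent.P348

def reps10 : List (ℕ × ℕ) :=
  R10_0_0 ++ (R10_0_1 ++ (R10_0_2 ++ (R10_0_3 ++ (R10_0_4 ++ (R10_0_5 ++ (R10_0_6 ++ (R10_0_7 ++ (R10_0_8 ++ (R10_0_9 ++ (R10_0_10 ++ (R10_1_0 ++ (R10_1_1 ++ (R10_1_2 ++ (R10_1_3 ++ (R10_1_4 ++ (R10_1_5 ++ (R10_1_6 ++ (R10_1_7 ++ (R10_1_8 ++ (R10_1_9 ++ (R10_1_10 ++ (R10_1_11 ++ (R10_2_0 ++ (R10_2_1 ++ (R10_3_0 ++ (R10_4_0 ++ (R10_5_0 ++ (R10_6_0 ++ (R10_7_0 ++ (R10_8_0 ++ (R10_9_0 ++ (R10_10_0))))))))))))))))))))))))))))))))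
theorem orb10 : Orb 10 reps10 := orb_of_run (by norm_num) (by decide +kernel)
theorem k10A0 : pick 10 A0 reps10 = R10_0_0 ++ (R10_0_1 ++ (R10_0_2 ++ (R10_0_3 ++ (R10_0_4 ++ (R10_0_5 ++ (R10_0_6 ++ (R10_0_7 ++ (R10_0_8 ++ (R10_0_9 ++ (R10_0_10)))))))))) := by
  decide +kernel
theorem k10A1 : pick 10 A1 reps10 = R10_1_0 ++ (R10_1_1 ++ (R10_1_2 ++ (R10_1_3 ++ (R10_1_4 ++ (R10_1_5 ++ (R10_1_6 ++ (R10_1_7 ++ (R10_1_8 ++ (R10_1_9 ++ (R10_1_10 ++ (R10_1_11))))))))))) := by
  decide +kernel
theorem k10Ae : pick 10 Ae reps10 = R10_2_0 ++ (R10_2_1 ++ (R10_4_0 ++ (R10_6_0 ++ (R10_8_0 ++ (R10_10_0))))) := by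
  decide +kernel
theorem k10A2 : pick 10 A2 reps10 = R10_2_0 ++ (R10_2_1 ++ (R10_3_0 ++ (R10_4_0 ++ (R10_5_0 ++ (R10_6_0 ++ (R10_7_0 ++ (R10_8_0 ++ (R10_9_0 ++ (R10_10_0))))))))) := by
  decide +kernel
def r10aP : List ℤ :=
  List.zipWith Int.add p10a_0_0 (List.zipWith Int.add p10a_0_1 (List.zipWith Int.add p10a_0_2 (List.zipWith Int.add p10a_0_3 (List.zipWith Int.add p10a_0_4 (List.zipWith Int.add p10a_0_5 (List.zipWith Int.add p10a_0_6 (List.zipWith Int.add p10a_0_7 (List.zipWith Int.add p10a_0_8 (List.zipWith Int.add p10a_0_9 (p10a_0_10))))))))))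
theorem m10aP : ∀ k, k < r10aP.length → mom 10 1 A0 k = r10aP.getD k 0 :=
  mom_eq (by norm_num) (by norm_num) orb10 k10A0 ((run_sound c10a_0_0).1.app ((run_sound c10a_0_1).1.app ((run_sound c10a_0_2).1.app ((run_sound c10a_0_3).1.app ((run_sound c10a_0_4).1.app ((run_sound c10a_0_5).1.app ((run_sound c10a_0_6).1.app ((run_sound c10a_0_7).1.app ((run_sound c10a_0_8).1.app ((run_sound c10a_0_9).1.app ((run_sound c10a_0_10).1)))))))))))
def r10aF : List ℤ :=
  List.zipWith Int.add f10a_0_0 (List.zipWith Int.add f10a_0_1 (List.zipWith Int.add f10a_0_2 (List.zipWith Int.add f10a_0_3 (List.zipWith Int.add f10a_0_4 (List.zipWith Int.add f10a_0_5 (List.zipWith Int.add f10a_0_6 (List.zipWith Int.add f10a_0_7 (List.zipWith Int.add f10a_0_8 (List.zipWith Int.add f10a_0_9 (f10a_0_10))))))))))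
theorem m10aF : ∀ k, k < r10aF.length → momF 10 1 k = r10aF.getD k 0 :=
  momF_eq (by norm_num) (by norm_num) orb10 k10A0 ((run_sound c10a_0_0).2.app ((run_sound c10a_0_1).2.app ((run_sound c10a_0_2).2.app ((run_sound c10a_0_3).2.app ((run_sound c10a_0_4).2.app ((run_sound c10a_0_5).2.app ((run_sound c10a_0_6).2.app ((run_sound c10a_0_7).2.app ((run_sound c10a_0_8).2.app ((run_sound c10a_0_9).2.app ((run_sound c10a_0_10).2)))))))))))
def r10bP : List ℤ :=
  List.zipWith Int.add p10b_0_0 (List.zipWith Int.add p10b_0_1 (List.zipWith Int.add p10b_0_2 (List.zipWith Int.add p10b_0_3 (List.zipWith Int.add p10b_0_4 (List.zipWith Int.add p10b_0_5 (List.zipWith Int.add p10b_0_6 (List.zipWith Int.add p10b_0_7 (List.zipWith Int.add p10b_0_8 (List.zipWith Int.add p10b_0_9 (p10b_0_10))))))))))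
theorem m10bP : ∀ k, k < r10bP.length → mom 10 (-1) A0 k = r10bP.getD k 0 :=
  mom_eq (by norm_num) (by norm_num) orb10 k10A0 ((run_sound c10b_0_0).1.app ((run_sound c10b_0_1).1.app ((run_sound c10b_0_2).1.app ((run_sound c10b_0_3).1.app ((run_sound c10b_0_4).1.app ((run_sound c10b_0_5).1.app ((run_sound c10b_0_6).1.app ((run_sound c10b_0_7).1.app ((run_sound c10b_0_8).1.app ((run_sound c10b_0_9).1.app ((run_sound c10b_0_10).1)))))))))))
def r10bF : List ℤ :=
  List.zipWith Int.add f10b_0_0 (List.zipWith Int.add f10b_0_1 (List.zipWith Int.add f10b_0_2 (List.zipWith Int.add f10b_0_3 (List.zipWith Int.add f10b_0_4 (List.zipWith Int.add f10b_0_5 (List.zipWith Int.add f10b_0_6 (List.zipWith Int.add f10b_0_7 (List.zipWith Int.add f10b_0_8 (List.zipWith Int.add f10b_0_9 (f10b_0_10))))))))))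
theorem m10bF : ∀ k, k < r10bF.length → momF 10 (-1) k = r10bF.getD k 0 :=
  momF_eq (by norm_num) (by norm_num) orb10 k10A0 ((run_sound c10b_0_0).2.app ((run_sound c10b_0_1).2.app ((run_sound c10b_0_2).2.app ((run_sound c10b_0_3).2.app ((run_sound c10b_0_4).2.app ((run_sound c10b_0_5).2.app ((run_sound c10b_0_6).2.app ((run_sound c10b_0_7).2.app ((run_sound c10b_0_8).2.app ((run_sound c10b_0_9).2.app ((run_sound c10b_0_10).2)))))))))))
def r10b1 : List ℤ :=
  List.zipWith Int.add p10b_1_0 (List.zipWith Int.add p10b_1_1 (List.zipWith Int.add p10b_1_2 (List.zipWith Int.add p10b_1_3 (List.zipWith Int.add p10b_1_4 (List.zipWith Int.add p10b_1_5 (List.zipWith Int.add p10b_1_6 (List.zipWith Int.add p10b_1_7 (List.zipWith Int.add p10b_1_8 (List.zipWith Int.add p10b_1_9 (List.zipWith Int.add p10b_1_10 (p10b_1_11)))))))))))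
theorem m10b1 : ∀ k, k < r10b1.length → mom 10 (-1) A1 k = r10b1.getD k 0 :=
  mom_eq (by norm_num) (by norm_num) orb10 k10A1 ((run_sound c10b_1_0).1.app ((run_sound c10b_1_1).1.app ((run_sound c10b_1_2).1.app ((run_sound c10b_1_3).1.app ((run_sound c10b_1_4).1.app ((run_sound c10b_1_5).1.app ((run_sound c10b_1_6).1.app ((run_sound c10b_1_7).1.app ((run_sound c10b_1_8).1.app ((run_sound c10b_1_9).1.app ((run_sound c10b_1_10).1.app ((run_sound c10b_1_11).1))))))))))))
def r10ae : List ℤ :=
  List.zipWith Int.add p10a_2_0 (List.zipWith Int.add p10a_2_1 (List.zipWith Int.add p10a_4_0 (List.zipWith Int.add p10a_6_0 (List.zipWith Int.add p10a_8_0 (p10a_10_0)))))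
theorem m10ae : ∀ k, k < r10ae.length → mom 10 1 Ae k = r10ae.getD k 0 :=
  mom_eq (by norm_num) (by norm_num) orb10 k10Ae ((run_sound c10a_2_0).1.app ((run_sound c10a_2_1).1.app ((run_sound c10a_4_0).1.app ((run_sound c10a_6_0).1.app ((run_sound c10a_8_0).1.app ((run_sound c10a_10_0).1))))))
def r10b2 : List ℤ :=
  List.zipWith Int.add p10b_2_0 (List.zipWith Int.add p10b_2_1 (List.zipWith Int.add p10b_3_0 (List.zipWith Int.add p10b_4_0 (List.zipWith Int.add p10b_5_0 (List.zipWith Int.add p10b_6_0 (List.zipWith Int.add p10b_7_0 (List.zipWith Int.add p10b_8_0 (List.zipWith Int.add p10b_9_0 (p10b_10_0)))))))))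
theorem m10b2 : ∀ k, k < r10b2.length → mom 10 (-1) A2 k = r10b2.getD k 0 :=
  mom_eq (by norm_num) (by norm_num) orb10 k10A2 ((run_sound c10b_2_0).1.app ((run_sound c10b_2_1).1.app ((run_sound c10b_3_0).1.app ((run_sound c10b_4_0).1.app ((run_sound c10b_5_0).1.app ((run_sound c10b_6_0).1.app ((run_sound c10b_7_0).1.app ((run_sound c10b_8_0).1.app ((run_sound c10b_9_0).1.app ((run_sound c10b_10_0).1))))))))))
theorem b10p0 : ((3769400850 : ℕ) : ℝ) / 10 ^ 9 ≤ PN 10 1 1 ∧ PN 10 1 1 ≤ ((3772568650 : ℕ) : ℝ) / 10 ^ 9 :=
  chkP_sound (by norm_num) (by norm_num) (by norm_num) m10aP m10aF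
    (s := 131072) (K := 546) (N := 8952) (lo := 28496521595100000000000000000000000000000000000000000000000000000000000000000000000000000000000000000000000000000000000)
    (hi := 28520470032500000000000000000000000000000000000000000000000000000000000000000000000000000000000000000000000000000000000) (Y := 35750292)
    (m := [8953, 92760, 1023250, 11982750, 149422350, 1989974570, 28299530530, 427978269050, 6834588767550, 
     114315009030150, 1987154089316850, 35667398793551830, 657672120728511330, 12409948096890158170, 
     238942832441502371410, 4684080155697927520550, 93328759837210967758270, 1887423768272886836550710, 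
     38698197118502432608103590, 803630480829673798857458430, 16888642035997380284707716410, 
     358897679058528202084117588070, 7706821015050166085686872989130, 167116195894353936073204091395710, 
     3656993432112658004897690812527330, 80709837040133552607327894358029470, 
     1795429813548539434198759304885370230, 40234730700453762889558445019235576890, 
     907786171762967808696955312781041651970, 20610263117032719913365038184194225887290, 
     470628451278869156217518220956162380167030, 10803264486817715433376011161069253118894430, 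
     249179754721807200710438313459872896642894270])
    (nl := [10502574, 11487711, 12665084, 14146275, 15831743, 17681914, 19755494, 21096148, 23514612, 25590942, 27580686, 
     29472603, 31283144, 32700911, 34083675, 35750042])
    (ne := [10495711, 11422050, 12548112, 13921480, 15497352, 17220849, 19053053, 20970296, 22906834, 24850452, 26752235, 
     28589239, 30336972, 31884211, 32989744, 34162110])
    (nu := [10495711, 11422050, 12548112, 13921480, 15497352, 17220849, 19053053, 20970296, 22906834, 24850452, 26752235, 
     28589239, 30336972, 31884211, 32989744, 34162110])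
    (by decide +kernel)
theorem b10m0 : ((56483921 : ℕ) : ℝ) / 10 ^ 9 ≤ PN 10 1 (-1) ∧ PN 10 1 (-1) ≤ ((56688725 : ℕ) : ℝ) / 10 ^ 9 :=
  chkP_sound (by norm_num) (by norm_num) (by norm_num) m10aP m10aF
    (s := 131072) (K := 538) (N := 8954) (lo := 427016212790000000000000000000000000000000000000000000000000000000000000000000000000000000000000000000000000000000000)
    (hi := 428564522495000000000000000000000000000000000000000000000000000000000000000000000000000000000000000000000000000000000) (Y := 35200019)
    (m := [8953, 92760, 1023210, 11981490, 149391950, 1989296270, 28284655890, 427649720270, 6827209660030, 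
     114146087196930, 1983212858849810, 35573649415544930, 655395616957975010, 12353425276356145350, 
     237507033470754162450, 4646814379551702575690, 92343732617194090359230, 1861029229662688666670570, 
     37984761486131966917103190, 784266356861437549693019810, 16362820692151778227641782330, 
     344651872173831324892368749810, 7322463685384385472337567300170, 156800929411967359523772329319130, 
     3381791959891083011421143582296930, 73412965609955432320661347386595770, 
     1603147705852456525599113815611489670, 35198230979949388849576366579454052030, 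
     776620187976419835224320633627003088770, 17212799166107524931320707308576302396910, 
     383073708139516081115591670357594829593110, 8557581798133339369254244098478229684101690, 
     191832704833949786037224729836699550119301310])
    (nl := [10898925, 11885080, 12946561, 14373678, 16027523, 17843107, 19930216, 21122282, 23527748, 25550130, 27532143, 
     29408024, 31090411, 32726345, 33920967, 35198675])
    (ne := [10894643, 11830535, 12814182, 14151259, 15702880, 17395694, 19193881, 20986850, 22983973, 24905458, 26796983, 
     28617125, 30287122, 31726112, 33041649, 33973510])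
    (nu := [10894643, 11830535, 12814182, 14151259, 15702880, 17395694, 19193881, 20986850, 22983973, 24905458, 26796983, 
     28617125, 30287122, 31726112, 33041649, 33973510])
    (by decide +kernel)
theorem b10p3 : ((63900509 : ℕ) : ℝ) / 10 ^ 9 ≤ PN 10 (-1) 1 ∧ PN 10 (-1) 1 ≤ ((64527906 : ℕ) : ℝ) / 10 ^ 9 :=
  chkP_sound (by norm_num) (by norm_num) (by norm_num) m10bP m10bF
    (s := 131072) (K := 538) (N := 8952) (lo := 483085331762000000000000000000000000000000000000000000000000000000000000000000000000000000000000000000000000000000000)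
    (hi := 487828420241000000000000000000000000000000000000000000000000000000000000000000000000000000000000000000000000000000000) (Y := 35216822)
    (m := [8953, 92760, 1023250, 11982750, 149422350, 1989974570, 28299530530, 427978269050, 6834588767550, 
     114315009030150, 1987148774040050, 35666690802413030, 657618554820143970, 12406914814822101930, 
     238799630711611504210, 4678118504788218603350, 93102423356615964425150, 1879413987334737767050630, 
     38429951082328964414465830, 795035859517950261237644430, 16623043541393252915863793850, 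
     350932004596765738340398013750, 7473841229425084949484390432330, 160445358304883957814695459208190, 
     3469428079952335022916037540358370, 75517875839602814335478510188550270, 
     1653647699739637247274290415660267030, 36408455233217209130057019196544991930, 
     805591332509419239579060054348496755650, 17905584323673824319516274577920892821370, 
     399622725479404409835801918534564390080150, 8952488284208042254034579448066626658934270, 
     201246675769450738256641879764899003600597950])
    (nl := [11112655, 11844154, 12969889, 14419968, 16074471, 17907282, 20069300, 21160731, 23606958, 25645848, 27640454, 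
     29529389, 31234282, 32839187, 34167300, 35212426])
    (ne := [11096023, 11784294, 12829897, 14199292, 15765799, 17475021, 19312115, 21006478, 23103905, 25052997, 26981436, 
     28836808, 30537660, 32119101, 33316623, 34267817])
    (nu := [11096023, 11784294, 12829897, 14199292, 15765799, 17475021, 19312115, 21006478, 23103905, 25052997, 26981436, 
     28836808, 30537660, 32119101, 33316623, 34267817])
    (by decide +kernel)
theorem b10m3 : ((1539115346 : ℕ) : ℝ) / 10 ^ 9 ≤ PN 10 (-1) (-1) ∧ PN 10 (-1) (-1) ≤ ((1540105852 : ℕ) : ℝ) / 10 ^ 9 :=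
  chkP_sound (by norm_num) (by norm_num) (by norm_num) m10bP m10bF
    (s := 131072) (K := 544) (N := 8954) (lo := 11635651250000000000000000000000000000000000000000000000000000000000000000000000000000000000000000000000000000000000000)
    (hi := 11643139426600000000000000000000000000000000000000000000000000000000000000000000000000000000000000000000000000000000000) (Y := 35632864)
    (m := [8953, 92760, 1023210, 11981490, 149391950, 1989296270, 28284655890, 427649720270, 6827209660030, 
     114146087196930, 1983214975355410, 35573963294486130, 655421450354823650, 12354989960025253910, 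
     237585047501658124050, 4650211119799283232890, 92477575401275971915710, 1865915209828463762188090, 
     38152722223483837422688470, 789767917152968224902144050, 16536046764871757142700968890, 
     349930504566056949301574106050, 7478959179173150000120766937290, 161333831297457710629234646979290, 
     3510502536281386306013621436860770, 77005620175872433242810142263322970, 
     1701950773958498635444275935723197350, 37880513285916994846368985507644684510, 
     848616659107299740639756576178618758210, 19126076278604056957305320703014226600590, 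
     433470757519373422922170097311269872892790, 9874692575227690410589625762445471831408890, 
     226014888469465905083652012183660078568343230])
    (nl := [11110967, 11836630, 12967410, 14407264, 16055757, 17878388, 19993552, 21137575, 23564102, 25618056, 27571419, 
     29422862, 31174715, 32610419, 33803923, 35632675])
    (ne := [11093577, 11774083, 12818963, 14175013, 15726125, 17409685, 19224505, 20992619, 23017610, 24945624, 26822628, 
     28636656, 30383961, 31895807, 32992509, 33896292])
    (nu := [11093577, 11774083, 12818963, 14175013, 15726125, 17409685, 19224505, 20992619, 23017610, 24945624, 26822628, 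
     28636656, 30383961, 31895807, 32992509, 33896292])
    (by decide +kernel)
theorem b10A1 : ((4384699 : ℕ) : ℝ) / 10 ^ 9 ≤ EN 10 (-1) A1 ∧ EN 10 (-1) A1 ≤ ((4934175 : ℕ) : ℝ) / 10 ^ 9 :=
  chkH_sound (by norm_num) (by norm_num) rfl m10b1
    (s := 131072) (K := 532) (lo := 33148158109000000000000000000000000000000000000000000000000000000000000000000000000000000000000000000000000000000000)
    (hi := 37302167923700000000000000000000000000000000000000000000000000000000000000000000000000000000000000000000000000000000) (Y := 34860394)
    (m := [8350, 88620, 1052620, 13597440, 187793300, 2741006320, 41924722660, 667637794600, 11012459389620, 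
     187360385170560, 3276471003151840, 58720510700159840, 1075799710177748540, 20103899555256814400, 
     382475825605070885620, 7395498863160405700720, 145116667769419865392180, 2885819865549574042481560, 
     58089623868783786507654220, 1182313245341397665782350640, 24307713496992910523558735840, 
     504367095644442553764811010080, 10553349320361725520923426834300, 222513997689454379992201871062600, 
     4724543363474802180641784585798060, 100957025768936967688591020024024720, 
     2169953266595304880258352872523990500, 46890643992136916939378278482341298480, 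
     1018236705663708147101818935731690835500, 22210626857433371845513963738850537299960, 
     486476106507093655541870695752280917190180])
    (nl := [11140230, 11938550, 13193296, 14759591, 16522852, 18457377, 20490091, 22582429, 24694953, 26786102, 28807673, 
     30701224, 32434279, 33732257, 34755401])
    (ne := [11123206, 11876584, 13059472, 14557513, 16254450, 18114878, 20079443, 22109375, 24167110, 26214402, 28205139, 
     30089680, 31791501, 33254843, 34518861])
    (nu := [11123206, 11876584, 13059472, 14557513, 16254450, 18114878, 20079443, 22109375, 24167110, 26214402, 28205139, 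
     30089680, 31791501, 33254843, 34518861])
    (by decide +kernel)
theorem b10Ae : ((0 : ℕ) : ℝ) / 10 ^ 9 ≤ EN 10 1 Ae ∧ EN 10 1 Ae ≤ ((60869 : ℕ) : ℝ) / 10 ^ 9 :=
  chkH_sound (by norm_num) (by norm_num) rfl m10ae
    (s := 131072) (K := 524) (lo := 0)
    (hi := 460162920827000000000000000000000000000000000000000000000000000000000000000000000000000000000000000000000000000000) (Y := 34303971)
    (m := [10286, 99630, 1097510, 13260510, 172242150, 2373649930, 34378146890, 519546999250, 8146957222470, 
     131950750653990, 2199038305040610, 37590246035007350, 657290494147154010, 11728942625196568250, 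
     213152806462440149810, 3937995430500864866110, 73845781692961509398150])
    (nl := [])
    (ne := [11102365, 13311531, 16106038, 19184744, 22433719, 25731725, 28960214, 31961369])
    (nu := [11102365, 13311531, 16106038, 19184744, 22433719, 25731725, 28960214, 31961369])
    (by decide +kernel)
theorem b10A2 : ((0 : ℕ) : ℝ) / 10 ^ 9 ≤ EN 10 (-1) A2 ∧ EN 10 (-1) A2 ≤ ((25117 : ℕ) : ℝ) / 10 ^ 9 :=
  chkH_sound (by norm_num) (by norm_num) rfl m10b2
    (s := 131072) (K := 522) (lo := 0)
    (hi := 189877832251000000000000000000000000000000000000000000000000000000000000000000000000000000000000000000000000000000) (Y := 34187946)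
    (m := [16698, 158630, 1717910, 20428070, 261312950, 3547889810, 50639227010, 754335924170, 11660964715350, 
     186210203334350, 3060042633382390, 51585242220762590, 889653355183631450, 15660269010784562090, 
     280787624377626104450, 5118974240872661463590, 94739495708027306101910])
    (nl := [])
    (ne := [11219097, 13388393, 16118807, 19173680, 22393005, 25673814, 28898993, 31917128])
    (nu := [11219097, 13388393, 16118807, 19173680, 22393005, 25673814, 28898993, 31917128])
    (by decide +kernel)
theorem box10 :
    ((10967760 : ℝ) / 10 ^ 7 ≤ (Zn 0 0 2 10 + 3 * Zn 0 3 2 10) / 4 ∧ (Zn 0 0 2 10 + 3 * Zn 0 3 2 10) / 4 ≤ (10983170 : ℝ) / 10 ^ 7) ∧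
    ((2905375 : ℝ) / 10 ^ 7 ≤ (Zn 0 0 2 10 - Zn 0 3 2 10) / 4 ∧ (Zn 0 0 2 10 - Zn 0 3 2 10) / 4 ≤ (2913867 : ℝ) / 10 ^ 7) ∧
    ((2942986 : ℝ) / 10 ^ 7 ≤ (Zn 3 0 2 10 + Zn 3 3 2 10 + 2 * Zn 1 3 2 10) / 4 ∧ (Zn 3 0 2 10 + Zn 3 3 2 10 + 2 * Zn 1 3 2 10) / 4 ≤ (2952293 : ℝ) / 10 ^ 7) ∧
    ((10319514 : ℝ) / 10 ^ 7 ≤ (Zn 3 0 2 10 + Zn 3 3 2 10 - 2 * Zn 1 3 2 10) / 4 ∧ (Zn 3 0 2 10 + Zn 3 3 2 10 - 2 * Zn 1 3 2 10) / 4 ≤ (10329729 : ℝ) / 10 ^ 7) ∧
    ((2645996 : ℝ) / 10 ^ 7 ≤ (Zn 3 0 2 10 - Zn 3 3 2 10) / 4 ∧ (Zn 3 0 2 10 - Zn 3 3 2 10) / 4 ≤ (2653735 : ℝ) / 10 ^ 7) := by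
  have h := boxes 10 (by norm_num) 1 (by norm_num) b10p0 (by simpa using b10m0) (by simpa using b10p3)
    (by simpa using b10m3) (by simpa using b10A1) (by simpa using b10Ae) (by simpa using b10A2.2)
  obtain ⟨⟨_, _⟩, ⟨_, _⟩, ⟨_, _⟩, ⟨_, _⟩, ⟨_, _⟩⟩ := h
  refine ⟨⟨?_, ?_⟩, ⟨?_, ?_⟩, ⟨?_, ?_⟩, ⟨?_, ?_⟩, ⟨?_, ?_⟩⟩ <;> linarith

end Vale.Agent.P348
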