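import Mathlib.Analysis.Matrix.Spectrum
import Mathlib.Logic.Equiv.Fin.Rotate

namespace Vale.Agent.P348

/-- The Levi-Civita symbol on three indices. -/
def eps (a b c : Fin 3) : ℤ := (b.val - a.val) * (c.val - b.val) * (c.val - a.val) / 2

/-- The operator on the tensor power of `ℂ ^ 3` over `L` sites (basis: maps from sites to `Fin 3`)
acting as `A` on the factor `j` and as the identity on the other factors. -/
def site {L : ℕ} (j : Fin L) (A : Matrix (Fin 3) (Fin 3) ℂ) :
    Matrix (Fin L → Fin 3) (Fin L → Fin 3) ℂ :=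
  fun s t => ∏ i, (if i = j then A else 1) (s i) (t i)

/-- The Heisenberg Hamiltonian on the periodic ring of `L` sites; `finRotate L j` is `j + 1` mod `L`. -/
def ham (S : Fin 3 → Matrix (Fin 3) (Fin 3) ℂ) (L : ℕ) :
    Matrix (Fin L → Fin 3) (Fin L → Fin 3) ℂ :=
  ∑ j : Fin L, ∑ a : Fin 3, site j (S a) * site (finRotate L j) (S a)

end Vale.Agent.P348
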