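import Mathlib
import Vale.Agent.P348.Stmt

/-! Internal definitions for the Haldane gap project (see notes/P348.md). -/

namespace Vale.Agent.P348

open Matrix

abbrev Cfg (L : ℕ) := Fin L → Fin 3
abbrev M3 (R : Type) := Matrix (Fin 3) (Fin 3) R
abbrev MC (L : ℕ) (R : Type) := Matrix (Cfg L) (Cfg L) R

section generic
variable {R : Type} [CommRing R] {L : ℕ}

/-- tensor product of on-site matrices -/
def tens (A : Fin L → M3 R) : MC L R := fun s t => ∏ i, A i (s i) (t i)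

/-- one-site operator -/
def st (j : Fin L) (A : M3 R) : MC L R := tens fun i => if i = j then A else 1

/-- character table of the Klein four group; `0` is the identity, `a.succ` the half turn about axis `a` -/
def chi (g a : Fin 4) : R := if g = 0 ∨ a = 0 ∨ g = a then 1 else -1

/-- real antisymmetric generators, `Lm a = i S a` -/
def Lm (a : Fin 3) : M3 R := fun b c => (eps a b c : R)

/-- sign carried by the label `a` on bond `j` (only the last bond is twisted) -/
def tw (h : Fin 4) (j : Fin L) (a : Fin 4) : R := if j.val + 1 = L then chi h a else 1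

/-- twisted Hamiltonian in the Cartesian basis -/
def Hr (h : Fin 4) (L : ℕ) : MC L R :=
  -∑ j : Fin L, ∑ a : Fin 3, (tw h j a.succ : R) • (st j (Lm a) * st (finRotate L j) (Lm a))

/-- on-site half turn -/
def gm (g : Fin 4) : M3 R := diagonal fun b => chi g b.succ

/-- global half turn -/
def Gr (g : Fin 4) (L : ℕ) : MC L R := tens fun _ => gm g

/-- `S ^ z` in the digit basis -/
def Zm : M3 R := !![-1, 0, 0; 0, 0, 0; 0, 0, 1]
/-- raising the digit -/
def Um : M3 R := !![0, 0, 0; 1, 0, 0; 0, 1, 0]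
/-- lowering the digit -/
def Dm : M3 R := !![0, 1, 0; 0, 0, 1; 0, 0, 0]

/-- `L - H` in the Marshall gauge of the `S ^ z` basis; `e` is the sign on the last bond -/
def yB (L : ℕ) (e : R) : MC L R :=
  ∑ j : Fin L, (1 - st j Zm * st (finRotate L j) Zm +
    (if j.val + 1 = L then e else 1) •
      (st j Um * st (finRotate L j) Dm + st j Dm * st (finRotate L j) Um))

/-- the half turns in the digit basis (only `g = 0, 1, 3` are used) -/
def gS (g : Fin 4) : M3 R :=
  if g = 0 then 1 else if g = 3 then !![-1, 0, 0; 0, 1, 0; 0, 0, -1]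
  else !![0, 0, -1; 0, -1, 0; -1, 0, 0]

end generic

/-- the standard spin-one matrices in the Cartesian basis -/
noncomputable def spin (a : Fin 3) : M3 ℂ := (-Complex.I) • Lm a

/-- twisted moments -/
noncomputable def tau (g h : Fin 4) (L k : ℕ) : ℝ := trace ((Hr h L : MC L ℝ) ^ k * Gr g L)

/-- exponential generating function of a moment sequence -/
noncomputable def ex (t : ℕ → ℝ) (b : ℝ) : ℝ := ∑' k, b ^ k / (k.factorial : ℝ) * t k

/-- twisted partition function `Tr (exp (-b H_h) G_g)` -/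
noncomputable def Zf (g h : Fin 4) (b : ℝ) (L : ℕ) : ℝ := ex (tau g h L) (-b)

/-- limits of power sums of finite real families -/
def LimPS (t : ℕ → ℝ) : Prop :=
  ∃ (ι : ℕ → Type) (_ : ∀ N, Fintype (ι N)) (x : ∀ N, ι N → ℝ),
    ∀ n, 2 ≤ n → Filter.Tendsto (fun N => ∑ i, x N i ^ n) Filter.atTop (nhds (t n))

/-- what survives of the largest modulus in the limit -/
structure Lead (t : ℕ → ℝ) (l : ℝ) : Prop where
  nonneg : 0 ≤ l
  le : ∀ n, 2 ≤ n → Even n → l ^ n ≤ t n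
  mono : ∀ n m, 2 ≤ n → Even n → Even m → t (n + m) - l ^ (n + m) ≤ l ^ m * (t n - l ^ n)
  pow : ∀ n k, 2 ≤ n → Even n → 1 ≤ k → t (n * k) - l ^ (n * k) ≤ (t n - l ^ n) ^ k
  filt : ∀ a b : ℝ, l ^ 6 * min ((l ^ 2 + a * l + b) ^ 2) ((l ^ 2 - a * l + b) ^ 2) ≤
    t 10 + 2 * a * t 9 + (a ^ 2 + 2 * b) * t 8 + 2 * a * b * t 7 + b ^ 2 * t 6

/-- Trotter step on one site between the labels of its two bonds -/
def Mm (d : ℝ) (a b : Fin 4) : M3 ℝ :=
  Fin.cases (Fin.cases 1 (fun b' => d • Lm b') b)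
    (fun a' => Fin.cases (d • Lm a') (fun _ => 0) b) a

/-- one Trotter step on the ring -/
def Gm (d : ℝ) (h : Fin 4) (L : ℕ) : MC L ℝ :=
  ∑ a : Fin L → Fin 4, (∏ j, (tw h j (a j) : ℝ)) •
    tens fun j => Mm d (a ((finRotate L).symm j)) (a j)

/-- spatial transfer matrix -/
def Km (d : ℝ) (N : ℕ) (g : Fin 4) : Matrix (Fin N → Fin 4) (Fin N → Fin 4) ℝ :=
  fun w w' => trace ((List.ofFn fun t => Mm d (w t) (w' t)).prod * gm g)

/-- action of a half turn on bond labels -/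
def Uw (h : Fin 4) {N : ℕ} (w : Fin N → Fin 4) : ℝ := ∏ t, chi h (w t)

/-- digit sum -/
def ds {L : ℕ} (s : Cfg L) : ℕ := ∑ i, (s i).val
/-- spin flip -/
def flp {L : ℕ} (s : Cfg L) : Cfg L := fun i => (s i).rev
/-- digit `j` of a code -/
def dg (c j : ℕ) : ℕ := c / 3 ^ j % 3
/-- configuration with a given code -/
def dec (L c : ℕ) : Cfg L := fun i => ⟨c / 3 ^ i.val % 3, Nat.mod_lt _ (by norm_num)⟩
/-- code of a configuration -/
def enc {L : ℕ} (s : Cfg L) : ℕ := ∑ i, (s i).val * 3 ^ i.val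

/-- diagonal entries of powers -/
def dgP (L : ℕ) (e : ℤ) (k c : ℕ) : ℤ := ((yB L e : MC L ℤ) ^ k) (dec L c) (dec L c)
/-- flipped diagonal entries of powers -/
def dgF (L : ℕ) (e : ℤ) (k c : ℕ) : ℤ := ((yB L e : MC L ℤ) ^ k) (flp (dec L c)) (dec L c)

/-- moments on a union of magnetisation sectors, selected by `|S ^ z|` -/
def mom (L : ℕ) (e : ℤ) (A : ℕ → Bool) (k : ℕ) : ℤ :=
  ∑ s : Cfg L, if A (Nat.dist (ds s) L) then ((yB L e : MC L ℤ) ^ k) s s else 0
/-- flipped moments -/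
def momF (L : ℕ) (e : ℤ) (k : ℕ) : ℤ :=
  ∑ s : Cfg L, if ds s = L then ((yB L e : MC L ℤ) ^ k) (flp s) s else 0

/-- `∑ c i * exp (8 * (η i + L))` for a moment sequence `∑ c i * η i ^ k` -/
noncomputable def exY (L : ℕ) (t : ℕ → ℤ) : ℝ := Real.exp (8 * L) * ex (fun k => (t k : ℝ)) 8

/-- bond weight on the diagonal -/
def tt (a b : ℕ) : ℕ := a + b - a * b

/-- action of `yB` on codes: `x` feeds the bulk, `y` the last bond -/
def Yc {R : Type} [CommSemiring R] (L : ℕ) (x y : ℕ → R) (c : ℕ) : R :=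
  ((∑ j ∈ Finset.range (L - 1), tt (dg c j) (dg c (j + 1))) + tt (dg c (L - 1)) (dg c 0) : ℕ) * x c
  + ∑ j ∈ Finset.range (L - 1),
      ((if 1 ≤ dg c j ∧ dg c (j + 1) ≤ 1 then x (c - 3 ^ j + 3 ^ (j + 1)) else 0)
      + (if dg c j ≤ 1 ∧ 1 ≤ dg c (j + 1) then x (c + 3 ^ j - 3 ^ (j + 1)) else 0))
  + ((if 1 ≤ dg c 0 ∧ dg c (L - 1) ≤ 1 then y (c - 1 + 3 ^ (L - 1)) else 0)
      + (if dg c 0 ≤ 1 ∧ 1 ≤ dg c (L - 1) then y (c + 1 - 3 ^ (L - 1)) else 0))

end Vale.Agent.P348
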