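import Vale.Agent.P348.Final
import Vale.Agent.P348.D6
import Vale.Agent.P348.D7
import Vale.Agent.P348.D8
import Vale.Agent.P348.D9
import Vale.Agent.P348.D10

/-! The polynomial filters: from lengths `6, …, 10` to lengths `30` and `120`. -/

namespace Vale.Agent.P348

theorem filt_use {t : ℕ → ℝ} (h : LimPS t) (r1 r2 xb T m a b : ℝ)
    (h1 : |r1| ≤ xb) (h2 : |r2| ≤ xb)
    (hT : t 10 - 2 * (r1 + r2) * t 9 + ((r1 + r2) ^ 2 + 2 * (r1 * r2)) * t 8
      - 2 * (r1 + r2) * (r1 * r2) * t 7 + (r1 * r2) ^ 2 * t 6 ≤ T)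
    (hp : T < xb ^ 6 * ((xb - r1) * (xb - r2)) ^ 2) (hn : T < xb ^ 6 * ((xb + r1) * (xb + r2)) ^ 2)
    (hm : t 10 ≤ m) (hs : xb ^ 10 ≤ m) (hs2 : m ≤ 2 * xb ^ 10)
    (ha : (xb ^ 10) ^ 3 + (m - xb ^ 10) ^ 3 ≤ a) (hb : (xb ^ 10) ^ 12 + (m - xb ^ 10) ^ 12 ≤ b) :
    t 30 ≤ a ∧ t 120 ≤ b := by
  obtain ⟨l, hl⟩ := h.lead
  exact ⟨(hl.filter r1 r2 xb T m h1 h2 hT hp hn hm hs hs2 3 (by norm_num)).trans ha,
    (hl.filter r1 r2 xb T m h1 h2 hT hp hn hm hs hs2 12 (by norm_num)).trans hb⟩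

theorem data : Data := by
  have e01 : ∀ n L, Zn 0 1 n L = Zn 0 3 n L := fun n L => (Zn_class 0 1 n L).trans (by simp)
  have e02 : ∀ n L, Zn 0 2 n L = Zn 0 3 n L := fun n L => (Zn_class 0 2 n L).trans (by simp)
  have e31 : ∀ n L, Zn 3 1 n L = Zn 1 3 n L := fun n L => (Zn_class 3 1 n L).trans (by simp)
  have e32 : ∀ n L, Zn 3 2 n L = Zn 1 3 n L := fun n L => (Zn_class 3 2 n L).trans (by simp)
  have c0 : ∀ g, (chi 0 g : ℝ) = 1 := fun g => by simp [chi]
  have c30 : (chi 3 0 : ℝ) = 1 := by simp [chi]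
  have c31 : (chi 3 1 : ℝ) = -1 := by simp [chi]
  have c32 : (chi 3 2 : ℝ) = -1 := by simp [chi]
  have c33 : (chi 3 3 : ℝ) = 1 := by simp [chi]
  have c10 : (chi 1 0 : ℝ) = 1 := by simp [chi]
  have c11 : (chi 1 1 : ℝ) = 1 := by simp [chi]
  have c12 : (chi 1 2 : ℝ) = -1 := by simp [chi]
  have c13 : (chi 1 3 : ℝ) = -1 := by simp [chi]
  have hA := filt_use (t := fun L => (Zn 0 0 2 L + 3 * Zn 0 3 2 L) / 4)
    ((Zn_space 0 0 2).congr fun L _ => by simp only [Fin.sum_univ_four, c0, e01, e02]; ring)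
    (-3787 / 10000) (1301 / 2500) (50293 / 50000) (1169637 / 2500000) (1098317 / 1000000) (1195 / 1000) (204 / 100)
    (by rw [abs_le]; norm_num) (by rw [abs_le]; norm_num)
    (by
      obtain ⟨_, _⟩ := box6.1
      obtain ⟨_, _⟩ := box7.1
      obtain ⟨_, _⟩ := box8.1
      obtain ⟨_, _⟩ := box9.1
      obtain ⟨_, _⟩ := box10.1
      linarith)
    (by norm_num) (by norm_num) (by have := box10.1.2; linarith)
    (by norm_num) (by norm_num) (by norm_num) (by norm_num)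
  have hB := filt_use (t := fun L => (Zn 0 0 2 L - Zn 0 3 2 L) / 4)
    ((Zn_space 0 3 2).congr fun L _ => by simp only [Fin.sum_univ_four, c30, c31, c32, c33, e01, e02]; ring)
    (-261 / 500) (261 / 500) (86389 / 100000) (186639 / 2000000) (2913867 / 10000000) (13 / 1000) (1 / 10000)
    (by rw [abs_le]; norm_num) (by rw [abs_le]; norm_num)
    (by
      obtain ⟨_, _⟩ := box6.2.1
      obtain ⟨_, _⟩ := box7.2.1
      obtain ⟨_, _⟩ := box8.2.1
      obtain ⟨_, _⟩ := box9.2.1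
      obtain ⟨_, _⟩ := box10.2.1
      linarith)
    (by norm_num) (by norm_num) (by have := box10.2.1.2; linarith)
    (by norm_num) (by norm_num) (by norm_num) (by norm_num)
  have hP := filt_use (t := fun L => (Zn 3 0 2 L + Zn 3 3 2 L + 2 * Zn 1 3 2 L) / 4)
    ((Zn_space 3 0 2).congr fun L _ => by simp only [Fin.sum_univ_four, c0, e31, e32]; ring)
    (-2617 / 5000) (2617 / 5000) (86493 / 100000) (235317 / 2500000) (2952293 / 10000000) (133 / 10000) (1 / 10000)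
    (by rw [abs_le]; norm_num) (by rw [abs_le]; norm_num)
    (by
      obtain ⟨_, _⟩ := box6.2.2.1
      obtain ⟨_, _⟩ := box7.2.2.1
      obtain ⟨_, _⟩ := box8.2.2.1
      obtain ⟨_, _⟩ := box9.2.2.1
      obtain ⟨_, _⟩ := box10.2.2.1
      linarith)
    (by norm_num) (by norm_num) (by have := box10.2.2.1.2; linarith)
    (by norm_num) (by norm_num) (by norm_num) (by norm_num)
  have hQ := filt_use (t := fun L => (Zn 3 0 2 L + Zn 3 3 2 L - 2 * Zn 1 3 2 L) / 4)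
    ((Zn_space 3 3 2).congr fun L _ => by simp only [Fin.sum_univ_four, c30, c31, c32, c33, e31, e32]; ring)
    (-1891 / 5000) (5157 / 10000) (49981 / 50000) (2217741 / 5000000) (10329729 / 10000000) (995 / 1000) (98 / 100)
    (by rw [abs_le]; norm_num) (by rw [abs_le]; norm_num)
    (by
      obtain ⟨_, _⟩ := box6.2.2.2.1
      obtain ⟨_, _⟩ := box7.2.2.2.1
      obtain ⟨_, _⟩ := box8.2.2.2.1
      obtain ⟨_, _⟩ := box9.2.2.2.1
      obtain ⟨_, _⟩ := box10.2.2.2.1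
      linarith)
    (by norm_num) (by norm_num) (by have := box10.2.2.2.1.2; linarith)
    (by norm_num) (by norm_num) (by norm_num) (by norm_num)
  have hX := filt_use (t := fun L => (Zn 3 0 2 L - Zn 3 3 2 L) / 4)
    ((Zn_space 3 1 2).congr fun L _ => by simp only [Fin.sum_univ_four, c10, c11, c12, c13, e31, e32]; ring)
    (-66 / 125) (66 / 125) (85191 / 100000) (190901 / 2500000) (530747 / 2000000) (85 / 10000) (1 / 10000)
    (by rw [abs_le]; norm_num) (by rw [abs_le]; norm_num)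
    (by
      obtain ⟨_, _⟩ := box6.2.2.2.2
      obtain ⟨_, _⟩ := box7.2.2.2.2
      obtain ⟨_, _⟩ := box8.2.2.2.2
      obtain ⟨_, _⟩ := box9.2.2.2.2
      obtain ⟨_, _⟩ := box10.2.2.2.2
      linarith)
    (by norm_num) (by norm_num) (by have := box10.2.2.2.2.2; linarith)
    (by norm_num) (by norm_num) (by norm_num) (by norm_num)
  exact ⟨hA.1, hB.1, hP.1, hQ.1, hX.1, hA.2, hB.2, hP.2, hQ.2, hX.2⟩

end Vale.Agent.P348
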