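import Vale.Agent.P348.Tens

/-! Uniqueness of the spin-one matrices up to unitary equivalence.
Trace identities give `det (S 2) = 0`, so there is a unit vector `z` with `S 2 z = 0`.
The vectors `(S 0 ± I • S 1) ^ 2 z` are eigenvectors of `S 2` for `± 2`, hence vanish, and then
`x = -I • S 1 z`, `y = I • S 0 z`, `z` is the required orthonormal basis. -/

namespace Vale.Agent.P348

open Matrix

namespace Uniq

open scoped ComplexOrder

theorem det_trace (Z : M3 ℂ) : 6 * Z.det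
    = trace Z ^ 3 - 3 * trace Z * trace (Z * Z) + 2 * trace (Z * Z * Z) := by
  simp only [det_fin_three, trace_fin_three, Matrix.mul_apply, Fin.sum_univ_three]
  ring

theorem det_zero {X Y Z : M3 ℂ} (hXY : X * Y - Y * X = Complex.I • Z)
    (hYZ : Y * Z - Z * Y = Complex.I • X) (hZX : Z * X - X * Z = Complex.I • Y)
    (hq : X * X + Y * Y + Z * Z = (2 : ℂ) • 1) : Z.det = 0 := by
  have h0 : Complex.I * trace Z = 0 := by
    have := congrArg trace hXY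
    rw [trace_sub, trace_mul_comm X Y, sub_self, trace_smul, smul_eq_mul] at this
    exact this.symm
  have h0' : trace Z = 0 := (mul_eq_zero.mp h0).resolve_left Complex.I_ne_zero
  have h1 := congrArg (fun A => trace (Z * Z * A)) hXY
  have h3 := congrArg (fun A => trace (A * Z * Y)) hZX
  have h4 := congrArg (fun A => trace (Z * X * A)) hYZ
  have h5 := congrArg (fun A => trace (Z * A)) hq
  simp only [Matrix.mul_sub, Matrix.sub_mul, Matrix.mul_add, Matrix.mul_smul, Matrix.smul_mul,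
    trace_sub, trace_add, trace_smul, smul_eq_mul, Matrix.mul_assoc, Matrix.mul_one]
    at h1 h3 h4 h5
  have h6 : trace (X * (Z * (Z * Y))) = trace (Z * (Z * (Y * X))) := by
    rw [trace_mul_comm]; simp only [Matrix.mul_assoc]
  have h7 : trace (Y * (Z * Y)) = trace (Z * (Y * Y)) := by
    rw [trace_mul_comm]; simp only [Matrix.mul_assoc]
  have h8 : trace (Z * (X * (Y * Z))) = trace (Z * (Z * (X * Y))) := by
    rw [← Matrix.mul_assoc X, ← Matrix.mul_assoc Z, trace_mul_comm]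
  have h9 : Complex.I * (2 * trace (Z * (Z * Z))) = 0 := by
    rw [h6, h7] at h3
    rw [h8] at h4
    linear_combination (-1 : ℂ) * h1 + h3 + h4 + Complex.I * h5 + 2 * h0
  have h10 := (mul_eq_zero.mp h9).resolve_left Complex.I_ne_zero
  have h11 := det_trace Z
  rw [h0', Matrix.mul_assoc] at h11
  linear_combination (1 / 6 : ℂ) * h11 + (1 / 6 : ℂ) * h10

theorem adj {A : M3 ℂ} (hA : A.IsHermitian) (u v : Fin 3 → ℂ) :
    star (A *ᵥ u) ⬝ᵥ v = star u ⬝ᵥ A *ᵥ v := by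
  rw [star_mulVec, hA.eq, ← dotProduct_mulVec]

theorem eig_two {X Y Z : M3 ℂ} (hX : X.IsHermitian) (hY : Y.IsHermitian)
    (hq : X * X + Y * Y + Z * Z = (2 : ℂ) • 1) {w : Fin 3 → ℂ} {c : ℂ} (hc : c * c = 4)
    (hw : Z *ᵥ w = c • w) : w = 0 := by
  have h1 := congrArg (fun A => star w ⬝ᵥ A *ᵥ w) hq
  simp only [add_mulVec, ← mulVec_mulVec, dotProduct_add, hw, mulVec_smul, smul_smul, hc,
    smul_mulVec, one_mulVec, dotProduct_smul, smul_eq_mul] at h1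
  rw [← adj hX, ← adj hY] at h1
  have h2 := dotProduct_star_self_nonneg (X *ᵥ w)
  have h3 := dotProduct_star_self_nonneg (Y *ᵥ w)
  have h4 := dotProduct_star_self_nonneg w
  have h5 : star w ⬝ᵥ w + (star w ⬝ᵥ w + (star (X *ᵥ w) ⬝ᵥ X *ᵥ w + star (Y *ᵥ w) ⬝ᵥ Y *ᵥ w))
      = 0 := by linear_combination h1
  have h6 := (add_eq_zero_iff_of_nonneg h4 (add_nonneg h4 (add_nonneg h2 h3))).mp h5
  exact dotProduct_star_self_eq_zero.mp h6.1

theorem exists_unit {Z : M3 ℂ} (h : Z.det = 0) :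
    ∃ z : Fin 3 → ℂ, star z ⬝ᵥ z = 1 ∧ Z *ᵥ z = 0 := by
  obtain ⟨v, hv, hZ⟩ := exists_mulVec_eq_zero_iff.mpr h
  have h1 : 0 < star v ⬝ᵥ v := dotProduct_star_self_pos_iff.mpr hv
  obtain ⟨r, hr, hr'⟩ : ∃ r : ℝ, 0 < r ∧ star v ⬝ᵥ v = r :=
    ⟨(star v ⬝ᵥ v).re, (Complex.pos_iff.mp h1).1,
      Complex.ext rfl (by rw [Complex.ofReal_im]; exact (Complex.pos_iff.mp h1).2.symm)⟩
  refine ⟨(((√r)⁻¹ : ℝ) : ℂ) • v, ?_, by rw [mulVec_smul, hZ, smul_zero]⟩
  rw [star_smul, smul_dotProduct, dotProduct_smul, hr', Complex.star_def, Complex.conj_ofReal,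
    smul_eq_mul, smul_eq_mul, ← Complex.ofReal_mul, ← Complex.ofReal_mul, ← mul_assoc,
    ← mul_inv, Real.mul_self_sqrt hr.le, inv_mul_cancel₀ hr.ne', Complex.ofReal_one]

theorem spin0 : spin 0 = !![0, 0, 0; 0, 0, -Complex.I; 0, Complex.I, 0] := by
  ext i j; fin_cases i <;> fin_cases j <;> simp [spin, Lm, eps]

theorem spin1 : spin 1 = !![0, 0, Complex.I; 0, 0, 0; -Complex.I, 0, 0] := by
  ext i j; fin_cases i <;> fin_cases j <;> simp [spin, Lm, eps]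

theorem spin2 : spin 2 = !![0, -Complex.I, 0; Complex.I, 0, 0; 0, 0, 0] := by
  ext i j; fin_cases i <;> fin_cases j <;> simp [spin, Lm, eps]

theorem core {X Y Z : M3 ℂ} (hX : X.IsHermitian) (hY : Y.IsHermitian) (hZ : Z.IsHermitian)
    (hXY : X * Y - Y * X = Complex.I • Z)
    (hYZ : Y * Z - Z * Y = Complex.I • X) (hZX : Z * X - X * Z = Complex.I • Y)
    (hq : X * X + Y * Y + Z * Z = (2 : ℂ) • 1) :
    ∃ V : M3 ℂ, Vᴴ * V = 1 ∧ V * spin 0 = X * V ∧ V * spin 1 = Y * V ∧ V * spin 2 = Z * V := by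
  obtain ⟨z, hz1, hz⟩ := exists_unit (det_zero hXY hYZ hZX hq)
  have cX : ∀ v, Z *ᵥ X *ᵥ v = X *ᵥ Z *ᵥ v + Complex.I • Y *ᵥ v := fun v => by
    rw [mulVec_mulVec, mulVec_mulVec, ← smul_mulVec, ← hZX, ← add_mulVec, add_sub_cancel]
  have cY : ∀ v, Z *ᵥ Y *ᵥ v = Y *ᵥ Z *ᵥ v - Complex.I • X *ᵥ v := fun v => by
    rw [mulVec_mulVec, mulVec_mulVec, ← smul_mulVec, ← hYZ, ← sub_mulVec, sub_sub_cancel]
  have zX : Z *ᵥ X *ᵥ z = Complex.I • Y *ᵥ z := by rw [cX, hz, mulVec_zero, zero_add]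
  have zY : Z *ᵥ Y *ᵥ z = -(Complex.I • X *ᵥ z) := by rw [cY, hz, mulVec_zero, zero_sub]
  have e1 : X *ᵥ Y *ᵥ z = Y *ᵥ X *ᵥ z := by
    rw [← sub_eq_zero, mulVec_mulVec, mulVec_mulVec, ← sub_mulVec, hXY, smul_mulVec, hz, smul_zero]
  have e2 : X *ᵥ X *ᵥ z + Y *ᵥ Y *ᵥ z = (2 : ℂ) • z := by
    have := congrArg (fun A => A *ᵥ z) hq
    simpa only [add_mulVec, ← mulVec_mulVec, hz, mulVec_zero, add_zero, smul_mulVec,
      one_mulVec] using this
  have hI : Complex.I * Complex.I = -1 := Complex.I_mul_I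
  have e3 : X *ᵥ X *ᵥ z - Y *ᵥ Y *ᵥ z + (2 * Complex.I) • Y *ᵥ X *ᵥ z = 0 := by
    refine eig_two hX hY hq (c := 2) (by norm_num) ?_
    simp only [mulVec_add, mulVec_sub, mulVec_smul, cX, cY, hz, mulVec_zero, zero_add, zero_sub,
      mulVec_neg, e1]
    funext i
    simp only [Pi.add_apply, Pi.sub_apply, Pi.neg_apply, Pi.smul_apply, smul_eq_mul]
    linear_combination (2 * ((Y *ᵥ Y *ᵥ z) i - (X *ᵥ X *ᵥ z) i)) * hI
  have e4 : X *ᵥ X *ᵥ z - Y *ᵥ Y *ᵥ z - (2 * Complex.I) • Y *ᵥ X *ᵥ z = 0 := by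
    refine eig_two hX hY hq (c := -2) (by norm_num) ?_
    simp only [mulVec_sub, mulVec_smul, cX, cY, hz, mulVec_zero, zero_add, zero_sub,
      mulVec_neg, e1]
    funext i
    simp only [Pi.add_apply, Pi.sub_apply, Pi.neg_apply, Pi.smul_apply, smul_eq_mul]
    linear_combination (-2 * ((Y *ᵥ Y *ᵥ z) i - (X *ᵥ X *ᵥ z) i)) * hI
  have xx : X *ᵥ X *ᵥ z = z := by
    funext i
    have h2 := congrFun e2 i
    have h3 := congrFun e3 i
    have h4 := congrFun e4 i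
    simp only [Pi.add_apply, Pi.sub_apply, Pi.smul_apply, smul_eq_mul, Pi.zero_apply] at h2 h3 h4
    linear_combination (1 / 2 : ℂ) * h2 + (1 / 4 : ℂ) * h3 + (1 / 4 : ℂ) * h4
  have yy : Y *ᵥ Y *ᵥ z = z := by
    funext i
    have h2 := congrFun e2 i
    rw [xx] at h2
    simp only [Pi.add_apply, Pi.smul_apply, smul_eq_mul] at h2
    linear_combination h2
  have yx : Y *ᵥ X *ᵥ z = 0 := by
    rw [xx, yy, sub_self, zero_add] at e3
    exact (smul_eq_zero.mp e3).resolve_left (mul_ne_zero two_ne_zero Complex.I_ne_zero)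
  have xy : X *ᵥ Y *ᵥ z = 0 := e1.trans yx
  have oy : star z ⬝ᵥ Y *ᵥ z = 0 := by
    have h1 := adj hZ z (X *ᵥ z)
    rw [hz, star_zero, zero_dotProduct, zX, dotProduct_smul] at h1
    exact (smul_eq_zero.mp h1.symm).resolve_left Complex.I_ne_zero
  have ox : star z ⬝ᵥ X *ᵥ z = 0 := by
    have h1 := adj hZ z (Y *ᵥ z)
    rw [hz, star_zero, zero_dotProduct, zY, dotProduct_neg, dotProduct_smul] at h1
    exact (smul_eq_zero.mp (neg_eq_zero.mp h1.symm)).resolve_left Complex.I_ne_zero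
  let v : Fin 3 → Fin 3 → ℂ := ![-(Complex.I • Y *ᵥ z), Complex.I • X *ᵥ z, z]
  have hV : ∀ A : M3 ℂ, ∀ i c, (A * (Matrix.of v)ᵀ) i c = (A *ᵥ v c) i := fun A i c => rfl
  refine ⟨(Matrix.of v)ᵀ, ?_, ?_, ?_, ?_⟩
  · ext c d
    have h1 : ((Matrix.of v)ᵀᴴ * (Matrix.of v)ᵀ) c d = star (v c) ⬝ᵥ v d := rfl
    rw [h1]
    fin_cases c <;> fin_cases d <;>
      simp [v, star_smul, adj hX, adj hY, xx, yy, xy, yx, ox, oy, hz1, -mulVec_mulVec]
  · ext i c
    rw [hV, spin0]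
    fin_cases c <;>
      simp [v, Matrix.mul_apply, Fin.sum_univ_three, mulVec_neg, mulVec_smul, xx, xy,
        -mulVec_mulVec, mul_comm _ Complex.I, ← mul_assoc]
  · ext i c
    rw [hV, spin1]
    fin_cases c <;>
      simp [v, Matrix.mul_apply, Fin.sum_univ_three, mulVec_neg, mulVec_smul, yy, yx,
        -mulVec_mulVec, mul_comm _ Complex.I, ← mul_assoc]
  · ext i c
    rw [hV, spin2]
    fin_cases c <;>
      simp [v, Matrix.mul_apply, Fin.sum_univ_three, mulVec_neg, mulVec_smul, zX, zY,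
        hz, -mulVec_mulVec, mul_comm _ Complex.I, ← mul_assoc]

end Uniq

theorem spin_unique (S : Fin 3 → M3 ℂ) (hS : ∀ a, (S a).IsHermitian)
    (hc : ∀ a b, S a * S b - S b * S a = Complex.I • ∑ c, (eps a b c : ℂ) • S c)
    (hq : ∑ a, S a * S a = (2 : ℂ) • 1) :
    ∃ V : M3 ℂ, V * Vᴴ = 1 ∧ Vᴴ * V = 1 ∧ ∀ a, V * spin a = S a * V := by
  rw [Fin.sum_univ_three] at hq
  obtain ⟨V, h1, h2, h3, h4⟩ := Uniq.core (hS 0) (hS 1) (hS 2)
    (by simpa [Fin.sum_univ_three, eps] using hc 0 1)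
    (by simpa [Fin.sum_univ_three, eps] using hc 1 2)
    (by simpa [Fin.sum_univ_three, eps] using hc 2 0) hq
  refine ⟨V, mul_eq_one_comm.mp h1, h1, fun a => ?_⟩
  fin_cases a
  · exact h2
  · exact h3
  · exact h4

end Vale.Agent.P348
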