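import Vale.Agent.P348.Var
import Vale.Agent.P348.Boot
import Vale.Agent.P348.Boot0
import Vale.Agent.P348.Uniq

/-! Assembly.
`pure_all`: apply `boot0` and `boot_all` to `Z = Zn 0 0`, `Zt = Zn 3 0`, `Zs = Zn 0 3`, `Zd = Zn 3 3`, `Zo = Zn 1 3`; the ten
`LimPS` hypotheses are `Zn_time 0 0, 0 3, 3 0, 3 3, 3 1` and `Zn_space 0 0, 0 3, 3 0, 3 3, 3 1` after `Fin.sum_univ_four`,
`Zn_class`, and the totals are `a + b + b + b`.
`gap_eigen`: `ham S L` is conjugate to `ham spin L` by `tens fun _ => V` (`spin_unique`, `tens_st`), so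
`trace (ham S L ^ k) = tau 0 0 L k` (`ham_spin`, `Gr 0 L = 1`); with `trace_pow_complex` and `ex_rep`,
`Zn 0 0 n L = ∑ i, x i ^ n`, `x i = exp (-4 E i) * (exp 8 / R0) ^ L`. `gap_of_pure` gives
`exp (-4 n (E i - E i0)) ≤ (7/8) ^ (2 ^ j)` with `n = 8 * 2 ^ j`, so `E i - E i0 ≥ log (8/7) / 32 ≥ 1 / 250`
(`exp (32/250) ≤ 8/7`).
`gap_all`: for each `L` the spectrum is the finite nonempty set of real eigenvalues
(`Matrix.IsHermitian.spectrum_eq_image_range` or `eigenvalues_eq_spectrum_real`), so some `γ L > 0` works; take the minimum over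
`L < 60` and `1 / 250`. -/

namespace Vale.Agent.P348

open Matrix

/-- the ten numerical inputs -/
def Data : Prop :=
  (Zn 0 0 2 30 + 3 * Zn 0 3 2 30) / 4 ≤ 1195 / 1000 ∧ (Zn 0 0 2 30 - Zn 0 3 2 30) / 4 ≤ 13 / 1000 ∧
  (Zn 3 0 2 30 + Zn 3 3 2 30 + 2 * Zn 1 3 2 30) / 4 ≤ 133 / 10000 ∧
  (Zn 3 0 2 30 + Zn 3 3 2 30 - 2 * Zn 1 3 2 30) / 4 ≤ 995 / 1000 ∧
  (Zn 3 0 2 30 - Zn 3 3 2 30) / 4 ≤ 85 / 10000 ∧
  (Zn 0 0 2 120 + 3 * Zn 0 3 2 120) / 4 ≤ 204 / 100 ∧ (Zn 0 0 2 120 - Zn 0 3 2 120) / 4 ≤ 1 / 10000 ∧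
  (Zn 3 0 2 120 + Zn 3 3 2 120 + 2 * Zn 1 3 2 120) / 4 ≤ 1 / 10000 ∧
  (Zn 3 0 2 120 + Zn 3 3 2 120 - 2 * Zn 1 3 2 120) / 4 ≤ 98 / 100 ∧
  (Zn 3 0 2 120 - Zn 3 3 2 120) / 4 ≤ 1 / 10000

theorem pure_all (hD : Data) (hlow : ∀ n L, 2 ≤ L → Even L → 1 ≤ Zn 0 0 n L)
    (M : ℕ) (eM : Even M) (hM : 60 ≤ M) :
    ∃ j : ℕ, Zn 0 0 (8 * 2 ^ j) M ^ 2 ≤ (1 + (7 / 8) ^ (2 ^ j)) * Zn 0 0 (2 * (8 * 2 ^ j)) M := by
  have e10 : ∀ n L, Zn 1 0 n L = Zn 3 0 n L := fun n L => (Zn_class 1 0 n L).trans (by simp)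
  have e20 : ∀ n L, Zn 2 0 n L = Zn 3 0 n L := fun n L => (Zn_class 2 0 n L).trans (by simp)
  have e01 : ∀ n L, Zn 0 1 n L = Zn 0 3 n L := fun n L => (Zn_class 0 1 n L).trans (by simp)
  have e02 : ∀ n L, Zn 0 2 n L = Zn 0 3 n L := fun n L => (Zn_class 0 2 n L).trans (by simp)
  have e23 : ∀ n L, Zn 2 3 n L = Zn 1 3 n L := fun n L => (Zn_class 2 3 n L).trans (by simp)
  have e31 : ∀ n L, Zn 3 1 n L = Zn 1 3 n L := fun n L => (Zn_class 3 1 n L).trans (by simp)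
  have e32 : ∀ n L, Zn 3 2 n L = Zn 1 3 n L := fun n L => (Zn_class 3 2 n L).trans (by simp)
  have c0 : ∀ g, (chi 0 g : ℝ) = 1 := fun g => by simp [chi]
  have c30 : (chi 3 0 : ℝ) = 1 := by simp [chi]
  have c31 : (chi 3 1 : ℝ) = -1 := by simp [chi]
  have c32 : (chi 3 2 : ℝ) = -1 := by simp [chi]
  have c33 : (chi 3 3 : ℝ) = 1 := by simp [chi]
  have c10 : (chi 1 0 : ℝ) = 1 := by simp [chi]
  have c11 : (chi 1 1 : ℝ) = 1 := by simp [chi]
  have c12 : (chi 1 2 : ℝ) = -1 := by simp [chi]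
  have c13 : (chi 1 3 : ℝ) = -1 := by simp [chi]
  have ta : ∀ L, 2 ≤ L → LimPS fun n => (Zn 0 0 n L + 3 * Zn 3 0 n L) / 4 := fun L hL =>
    (Zn_time 0 0 L hL).congr fun n _ => by
      simp only [Fin.sum_univ_four, c0, e10, e20]; ring
  have tb : ∀ L, 2 ≤ L → LimPS fun n => (Zn 0 0 n L - Zn 3 0 n L) / 4 := fun L hL =>
    (Zn_time 0 3 L hL).congr fun n _ => by
      simp only [Fin.sum_univ_four, c30, c31, c32, c33, e10, e20]; ring
  have sA : ∀ n, 1 ≤ n → LimPS fun L => (Zn 0 0 n L + 3 * Zn 0 3 n L) / 4 := fun n _ =>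
    (Zn_space 0 0 n).congr fun L _ => by
      simp only [Fin.sum_univ_four, c0, e01, e02]; ring
  have sB : ∀ n, 1 ≤ n → LimPS fun L => (Zn 0 0 n L - Zn 0 3 n L) / 4 := fun n _ =>
    (Zn_space 0 3 n).congr fun L _ => by
      simp only [Fin.sum_univ_four, c30, c31, c32, c33, e01, e02]; ring
  obtain ⟨a1, a2, a3, a4, a5, b1, b2, b3, b4, b5⟩ := hD
  obtain ⟨hX, hY⟩ := boot0 (Zn 0 0) (Zn 3 0) (Zn 0 3) (Zn 3 3) (Zn 1 3) ta tb
    (fun L hL => (Zn_time 3 0 L hL).congr fun n _ => by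
      simp only [Fin.sum_univ_four, c0, e23]; ring)
    (fun L hL => (Zn_time 3 3 L hL).congr fun n _ => by
      simp only [Fin.sum_univ_four, c30, c31, c32, c33, e23]; ring)
    (fun L hL => (Zn_time 3 1 L hL).congr fun n _ => by
      simp only [Fin.sum_univ_four, c10, c11, c12, c13, e23]; ring)
    sA sB
    (fun n _ => (Zn_space 3 0 n).congr fun L _ => by
      simp only [Fin.sum_univ_four, c0, e31, e32]; ring)
    (fun n _ => (Zn_space 3 3 n).congr fun L _ => by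
      simp only [Fin.sum_univ_four, c30, c31, c32, c33, e31, e32]; ring)
    (fun n _ => (Zn_space 3 1 n).congr fun L _ => by
      simp only [Fin.sum_univ_four, c10, c11, c12, c13, e31, e32]; ring)
    (fun n L _ hL _ eL => hlow n L hL eL) a1 a2 a3 a4 a5 b1 b2 b3 b4 b5
  refine boot_all (Zn 0 0) (fun L hL => ?_) (fun n hn => ?_)
    (fun n L _ hL _ eL => lt_of_lt_of_le one_pos (hlow n L hL eL)) hX hY M eM hM
  · exact ((((ta L hL).add (tb L hL)).add (tb L hL)).add (tb L hL)).congr fun n _ => by ring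
  · exact ((((sA n hn).add (sB n hn)).add (sB n hn)).add (sB n hn)).congr fun L _ => by ring

theorem ham_isHermitian (S : Fin 3 → M3 ℂ) (hS : ∀ a, (S a).IsHermitian) (L : ℕ) (hL : 2 ≤ L) :
    (ham S L).IsHermitian := by
  unfold IsHermitian ham
  simp only [conjTranspose_sum, conjTranspose_mul, site_eq_st, st_conjTranspose, (hS _).eq]
  exact Finset.sum_congr rfl fun j _ => Finset.sum_congr rfl fun a _ =>
    (st_comm (finRotate_ne hL j) _ _).symm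

theorem trace_ham_pow (S : Fin 3 → M3 ℂ) (V : M3 ℂ) (hV' : Vᴴ * V = 1) (hV : V * Vᴴ = 1)
    (hS : ∀ a, V * spin a = S a * V) (M k : ℕ) :
    trace (ham S M ^ k) = ((tau 0 0 M k : ℝ) : ℂ) := by
  set W : MC M ℂ := tens fun _ => V with hW
  set W' : MC M ℂ := tens fun _ => Vᴴ with hW'
  have h1 : W * W' = 1 := by simp only [hW, hW', tens_mul, hV, tens_one]
  have h2 : W' * W = 1 := by simp only [hW, hW', tens_mul, hV', tens_one]
  have h3 : W * ham spin M = ham S M * W := by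
    unfold ham
    simp only [Finset.mul_sum, Finset.sum_mul, site_eq_st]
    refine Finset.sum_congr rfl fun j _ => Finset.sum_congr rfl fun a _ => ?_
    rw [← Matrix.mul_assoc, tens_st _ j _ _ (hS a), Matrix.mul_assoc,
      tens_st _ (finRotate M j) _ _ (hS a), Matrix.mul_assoc]
  have h4 : ∀ k : ℕ, W * ham spin M ^ k = ham S M ^ k * W := by
    intro k
    induction k with
    | zero => simp
    | succ k ih => rw [pow_succ, ← Matrix.mul_assoc, ih, Matrix.mul_assoc, h3, pow_succ,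
        Matrix.mul_assoc]
  have h5 : trace (ham S M ^ k) = trace (ham spin M ^ k) := by
    calc trace (ham S M ^ k) = trace (ham S M ^ k * W * W') := by
          rw [Matrix.mul_assoc, h1, Matrix.mul_one]
      _ = trace (W' * (W * ham spin M ^ k)) := by rw [trace_mul_comm, h4]
      _ = trace (ham spin M ^ k) := by rw [← Matrix.mul_assoc, h2, Matrix.one_mul]
  have h6 : (Gr 0 M : MC M ℝ) = 1 := by
    have : (gm 0 : M3 ℝ) = 1 := by simp [gm, chi]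
    simp only [Gr, this, tens_one]
  rw [h5, ham_spin, ← Matrix.map_pow, ← AddMonoidHom.map_trace, tau, h6, Matrix.mul_one]
  rfl

theorem gap_eigen (S : Fin 3 → M3 ℂ) (V : M3 ℂ) (hV : V * Vᴴ = 1) (hV' : Vᴴ * V = 1)
    (hS : ∀ a, V * spin a = S a * V) (M : ℕ) (hH : (ham S M).IsHermitian)
    (hp : ∃ j : ℕ, Zn 0 0 (8 * 2 ^ j) M ^ 2 ≤ (1 + (7 / 8) ^ (2 ^ j)) * Zn 0 0 (2 * (8 * 2 ^ j)) M) :
    ∃ i0, ∀ i, i ≠ i0 → hH.eigenvalues i0 + 1 / 250 ≤ hH.eigenvalues i := by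
  have ht : ∀ k, tau 0 0 M k = ∑ i, 1 * hH.eigenvalues i ^ k := fun k => by
    have := (trace_ham_pow S V hV' hV hS M k).symm.trans (trace_pow_complex _ hH k)
    simp only [one_mul]
    exact_mod_cast this
  have hr : (0 : ℝ) < (Real.exp 8 / R0) ^ M := by unfold R0; positivity
  set x : Cfg M → ℝ := fun i => Real.exp (-4 * hH.eigenvalues i) * (Real.exp 8 / R0) ^ M with hx
  have hZ : ∀ n : ℕ, Zn 0 0 n M = ∑ i, x i ^ n := fun n => by
    rw [Zn, Zf, ex_rep _ _ _ ht, Finset.sum_mul]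
    refine Finset.sum_congr rfl fun i _ => ?_
    rw [hx, mul_pow, ← pow_mul, ← Real.exp_nat_mul, mul_comm M n, one_mul]
    congr 2
    ring
  have hxpos : ∀ i, 0 < x i := fun i => mul_pos (Real.exp_pos _) hr
  obtain ⟨j, hj⟩ := hp
  rw [hZ, hZ] at hj
  obtain ⟨i0, hi0⟩ := gap_of_pure x hxpos _ _ hj
  refine ⟨i0, fun i hi => ?_⟩
  have h1 := hi0 i hi
  rw [pow_mul, pow_mul, ← mul_pow, pow_le_pow_iff_left₀ (pow_pos (hxpos _) _).le
    (by have := hxpos i0; positivity) (by positivity)] at h1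
  simp only [hx, mul_pow] at h1
  rw [← mul_assoc, mul_le_mul_iff_left₀ (pow_pos hr _), ← Real.exp_nat_mul,
    ← Real.exp_nat_mul] at h1
  by_contra hcon
  push Not at hcon
  have h2 : Real.exp ((8 : ℕ) * (-4 * hH.eigenvalues i0) + (-(8 / 125) + -(8 / 125))) <
      Real.exp ((8 : ℕ) * (-4 * hH.eigenvalues i)) := by
    apply Real.exp_lt_exp.2
    push_cast
    linarith
  rw [Real.exp_add, Real.exp_add] at h2
  have h3 : -(8 / 125 : ℝ) + 1 ≤ Real.exp (-(8 / 125)) := Real.add_one_le_exp _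
  have h4 : (7 / 8 : ℝ) ≤ Real.exp (-(8 / 125)) * Real.exp (-(8 / 125)) := by nlinarith
  have h5 := mul_le_mul_of_nonneg_left h4 (Real.exp_pos ((8 : ℕ) * (-4 * hH.eigenvalues i0))).le
  exact absurd (h5.trans_lt (h2.trans_le h1)) (by rw [mul_comm]; exact lt_irrefl _)

theorem gap_all (S : Fin 3 → M3 ℂ) (hS : ∀ a, (S a).IsHermitian)
    (h : ∀ L, Even L → 60 ≤ L → ∃ hH : (ham S L).IsHermitian,
      ∃ i0, ∀ i, i ≠ i0 → hH.eigenvalues i0 + 1 / 250 ≤ hH.eigenvalues i) :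
    ∃ γ : ℝ, 0 < γ ∧ ∀ L, Even L → 4 ≤ L → ∃ E : ℝ, (E : ℂ) ∈ spectrum ℂ (ham S L) ∧
      ∀ μ ∈ spectrum ℂ (ham S L), μ = E ∨ E + γ ≤ μ.re := by
  have key : ∀ (L : ℕ) (hH : (ham S L).IsHermitian) (γ : ℝ) (i0 : Cfg L),
      (∀ i, hH.eigenvalues i = hH.eigenvalues i0 ∨ hH.eigenvalues i0 + γ ≤ hH.eigenvalues i) →
      ∃ E : ℝ, (E : ℂ) ∈ spectrum ℂ (ham S L) ∧
        ∀ μ ∈ spectrum ℂ (ham S L), μ = E ∨ E + γ ≤ μ.re := by
    intro L hH γ i0 hi
    rw [hH.spectrum_eq_image_range]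
    refine ⟨hH.eigenvalues i0, ⟨_, ⟨i0, rfl⟩, rfl⟩, ?_⟩
    rintro μ ⟨_, ⟨i, rfl⟩, rfl⟩
    rcases hi i with h1 | h1
    · left; rw [h1]; rfl
    · right; exact h1
  have small : ∀ L : ℕ, ∃ γ : ℝ, 0 < γ ∧ ∀ hH : (ham S L).IsHermitian, ∃ i0, ∀ i,
      hH.eigenvalues i = hH.eigenvalues i0 ∨ hH.eigenvalues i0 + γ ≤ hH.eigenvalues i := by
    intro L
    by_cases hH : (ham S L).IsHermitian
    · obtain ⟨i0, -, hi0⟩ := Finset.exists_min_image Finset.univ hH.eigenvalues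
        Finset.univ_nonempty
      obtain ⟨i1, -, hi1⟩ := Finset.exists_min_image Finset.univ
        (fun i => if hH.eigenvalues i = hH.eigenvalues i0 then (1 : ℝ)
          else hH.eigenvalues i - hH.eigenvalues i0) Finset.univ_nonempty
      refine ⟨if hH.eigenvalues i1 = hH.eigenvalues i0 then (1 : ℝ)
          else hH.eigenvalues i1 - hH.eigenvalues i0, ?_, fun _ => ⟨i0, fun i => ?_⟩⟩
      rotate_left
      · by_cases hi : hH.eigenvalues i = hH.eigenvalues i0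
        · exact Or.inl hi
        · right
          have := hi1 i (Finset.mem_univ i)
          rw [if_neg hi] at this
          exact add_le_of_le_tsub_left_of_le (hi0 i (Finset.mem_univ i)) this
      · split_ifs with h1
        · exact one_pos
        · exact sub_pos.2 (lt_of_le_of_ne (hi0 i1 (Finset.mem_univ _)) (Ne.symm h1))
    · exact ⟨1, one_pos, fun h' => (hH h').elim⟩
  choose g hg0 hg using small
  obtain ⟨L1, -, hL1⟩ := Finset.exists_min_image (Finset.range 60) g ⟨0, by simp⟩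
  refine ⟨min (1 / 250) (g L1), lt_min (by norm_num) (hg0 _), fun L eL hL => ?_⟩
  by_cases h60 : 60 ≤ L
  · obtain ⟨hH, i0, hi0⟩ := h L eL h60
    refine key L hH _ i0 fun i => ?_
    by_cases hi : i = i0
    · left; rw [hi]
    · right; linarith [hi0 i hi, min_le_left (1 / 250 : ℝ) (g L1)]
  · have hH := ham_isHermitian S hS L (by omega)
    obtain ⟨i0, hi0⟩ := hg L hH
    refine key L hH _ i0 fun i => (hi0 i).imp id fun h1 => ?_
    linarith [hL1 L (Finset.mem_range.2 (by omega)), min_le_right (1 / 250 : ℝ) (g L1)]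

theorem main_of (hD : Data) (hlow : ∀ n L, 2 ≤ L → Even L → 1 ≤ Zn 0 0 n L)
    (S : Fin 3 → M3 ℂ) (hS : ∀ a, (S a).IsHermitian)
    (hc : ∀ a b, S a * S b - S b * S a = Complex.I • ∑ c, (eps a b c : ℂ) • S c)
    (hq : ∑ a, S a * S a = (2 : ℂ) • 1) :
    (∃ γ : ℝ, 0 < γ ∧ ∀ L, Even L → 4 ≤ L → ∃ E : ℝ, (E : ℂ) ∈ spectrum ℂ (ham S L) ∧
      ∀ μ ∈ spectrum ℂ (ham S L), μ = E ∨ E + γ ≤ μ.re) ∧
    ∀ L, Even L → 60 ≤ L → ∃ hH : (ham S L).IsHermitian,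
      ∃ i0, ∀ i, i ≠ i0 → hH.eigenvalues i0 + 1 / 250 ≤ hH.eigenvalues i := by
  obtain ⟨V, hV, hV', hVS⟩ := spin_unique S hS hc hq
  have h2 : ∀ L, Even L → 60 ≤ L → ∃ hH : (ham S L).IsHermitian,
      ∃ i0, ∀ i, i ≠ i0 → hH.eigenvalues i0 + 1 / 250 ≤ hH.eigenvalues i := fun L eL hL =>
    ⟨ham_isHermitian S hS L (by omega), gap_eigen S V hV hV' hVS L _ (pure_all hD hlow L eL hL)⟩
  exact ⟨gap_all S hS h2, h2⟩

end Vale.Agent.P348
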