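import Vale.Agent.P348.Chk

/-! Soundness of the moment checkers. Throughout `u i = 8 s (η i + L) ≥ 0` and
`exp (8 (η + L)) = exp (u / s)`.
`evalL (cf s K 1 [t]) u = s ^ K * K ! * (∑ k < K, (u/s) ^ k / k !) + t * u ^ K` and its head is `s ^ K * K !`
for `K ≥ 1` (induction on the generalised state of `cf`). `evalL l u = hd (sdiv a l) + (u - a) * evalL (tl (sdiv a l)) u`.
If `m.getD k 0 = ∑ c i * η i ^ k` for `k < m.length` then `msh B (B L - a) m` has the same property for the weights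
`c i * (u i - a)` (signed weights allowed) and length one less. Hence (induction on the nodes, generalising
weights, `l`, `m`) `∑ c i * evalL l (u i) = newton .. + ∑ c i * (∏ a ∈ nodes, (u i - a)) * evalL r (u i)` for some list `r`,
provided `nodes.length ≤ m.length`; `evalL r u ≥ 0`. For `dbl nodes []` the product is a square; for `dbl nodes [Y]` it is
`≤ 0` when `u ≤ Y`. Exponential bounds: `Real.sum_le_exp_of_nonneg`, and `Complex.exp_bound'` (or a direct
geometric tail estimate) for `exp x ≤ ∑ k < K, x ^ k / k ! + 2 x ^ K / K !` when `x / (K + 1) ≤ 1 / 2`. -/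

namespace Vale.Agent.P348

variable {κ : Type} [Fintype κ]

namespace GaussAux

theorem evalL_nil (u : ℝ) : evalL [] u = 0 := rfl
theorem evalL_cons (c : ℕ) (l : List ℕ) (u : ℝ) : evalL (c :: l) u = c + u * evalL l u := rfl

theorem evalL_nonneg (l : List ℕ) (u : ℝ) (hu : 0 ≤ u) : 0 ≤ evalL l u := by
  induction l with
  | nil => exact le_rfl
  | cons c l ih => rw [evalL_cons]; positivity

theorem cf_zero (s cur : ℕ) (l : List ℕ) : cf s 0 cur l = l := rfl
theorem cf_succ (s k cur : ℕ) (l : List ℕ) :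
    cf s (k + 1) cur l = cf s k (cur * (s * (k + 1))) (cur * (s * (k + 1)) :: l) := rfl

theorem evalL_cf (s : ℕ) (hs : 0 < s) (u : ℝ) (k : ℕ) : ∀ (cur : ℕ) (l : List ℕ),
    evalL (cf s k cur l) u = cur * ((s : ℝ) ^ k * k.factorial) *
      (∑ j ∈ Finset.range k, (u / s) ^ j / j.factorial) + u ^ k * evalL l u := by
  have hs' : (s : ℝ) ≠ 0 := by positivity
  induction k with
  | zero => intro cur l; simp [cf_zero]
  | succ k ih =>
    intro cur l
    have hk : (k.factorial : ℝ) ≠ 0 := by positivity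
    rw [cf_succ, ih, evalL_cons, Finset.sum_range_succ, Nat.factorial_succ, div_pow]
    push_cast
    field_simp
    ring

theorem hd_cons (x : ℕ) (l : List ℕ) : hd (x :: l) = x := rfl

theorem hd_cf (s k : ℕ) : ∀ (cur : ℕ) (l : List ℕ),
    hd (cf s (k + 1) cur l) = cur * (s ^ (k + 1) * (k + 1).factorial) := by
  induction k with
  | zero => intro cur l; rw [cf_succ, cf_zero, hd_cons]; simp
  | succ k ih =>
    intro cur l
    rw [cf_succ, ih, Nat.factorial_succ (k + 1)]
    ring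

theorem evalL_hd_tl (r : List ℕ) (u : ℝ) : evalL r u = hd r + u * evalL (tl r) u := by
  cases r with
  | nil => change (0 : ℝ) = ((0 : ℕ) : ℝ) + u * 0; simp
  | cons c r => rfl

theorem sdiv_cons (a c : ℕ) (t : List ℕ) :
    sdiv a (c :: t) = (c + a * hd (sdiv a t)) :: sdiv a t := rfl

theorem evalL_sdiv (a : ℕ) (l : List ℕ) (u : ℝ) :
    evalL l u = hd (sdiv a l) + (u - a) * evalL (tl (sdiv a l)) u := by
  induction l with
  | nil => change (0 : ℝ) = ((0 : ℕ) : ℝ) + (u - a) * 0; simp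
  | cons c t ih =>
    rw [sdiv_cons, hd_cons, evalL_cons]
    change _ = _ + (u - a) * evalL (sdiv a t) u
    rw [evalL_hd_tl (sdiv a t), ih]
    push_cast
    ring

theorem msh_cons2 (B c x y : ℤ) (t : List ℤ) :
    msh B c (x :: y :: t) = (B * y + c * x) :: msh B c (y :: t) := rfl

theorem msh_length (B c : ℤ) : ∀ m : List ℤ, (msh B c m).length = m.length - 1
  | [] => rfl
  | [_] => rfl
  | x :: y :: t => by
    rw [msh_cons2, List.length_cons, msh_length B c (y :: t)]
    simp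

theorem msh_getD (B c : ℤ) : ∀ (m : List ℤ) (k : ℕ), k + 1 < m.length →
    (msh B c m).getD k 0 = B * m.getD (k + 1) 0 + c * m.getD k 0
  | [], k, h => by simp at h
  | [_], k, h => by simp at h
  | x :: y :: t, 0, _ => by rw [msh_cons2]; simp
  | x :: y :: t, k + 1, h => by
    rw [msh_cons2, List.getD_cons_succ, msh_getD B c (y :: t) k (by simpa using h)]
    simp

/-- `m` lists the moments of the signed measure with weights `c` -/
def Mom (c η : κ → ℝ) (m : List ℤ) : Prop :=
  ∀ k, k < m.length → ((m.getD k 0 : ℤ) : ℝ) = ∑ i, c i * η i ^ k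

theorem Mom.shift {c η : κ → ℝ} {m : List ℤ} (h : Mom c η m) (B L a : ℕ) :
    Mom (fun i => c i * (B * (η i + L) - a)) η
      (msh (Int.ofNat B) (Int.subNatNat (Nat.mul B L) a) m) := by
  intro k hk
  rw [msh_length] at hk
  rw [msh_getD _ _ _ _ (by omega), Int.subNatNat_eq_coe]
  push_cast
  rw [h (k + 1) (by omega), h k (by omega), Finset.mul_sum, Finset.mul_sum,
    ← Finset.sum_add_distrib]
  refine Finset.sum_congr rfl fun i _ => ?_
  simp only [Int.ofNat_eq_natCast, Int.cast_natCast, Nat.mul_eq, Nat.cast_mul]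
  ring

theorem Mom.hdZ {c η : κ → ℝ} {m : List ℤ} (h : Mom c η m) (hl : 0 < m.length) :
    ((hdZ m : ℤ) : ℝ) = ∑ i, c i := by
  have := h 0 hl
  cases m with
  | nil => simp at hl
  | cons x t =>
    simp only [List.getD_cons_zero, pow_zero, mul_one] at this
    exact this

theorem newton_cons (B L a : ℕ) (nodes l : List ℕ) (m : List ℤ) :
    newton B L (a :: nodes) l m = (hd (sdiv a l) : ℤ) * hdZ m +
      newton B L nodes (tl (sdiv a l)) (msh (Int.ofNat B) (Int.subNatNat (Nat.mul B L) a) m) := rfl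

theorem newton_eq (η : κ → ℝ) (B L : ℕ) (nodes : List ℕ) : ∀ (l : List ℕ) (m : List ℤ) (c : κ → ℝ),
    nodes.length ≤ m.length → Mom c η m → ∃ r : List ℕ,
      ∑ i, c i * evalL l (B * (η i + L)) = (newton B L nodes l m : ℝ) +
        ∑ i, c i * (nodes.map fun a : ℕ => (B * (η i + L) - a : ℝ)).prod *
          evalL r (B * (η i + L)) := by
  induction nodes with
  | nil =>
    intro l m c _ _
    refine ⟨l, ?_⟩
    change _ = ((0 : ℤ) : ℝ) + _
    simp
  | cons a nodes ih =>
    intro l m c hl hm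
    rw [List.length_cons] at hl
    obtain ⟨r, hr⟩ := ih (tl (sdiv a l)) _ _ (by rw [msh_length]; omega) (hm.shift B L a)
    refine ⟨r, ?_⟩
    rw [newton_cons]
    push_cast
    rw [hm.hdZ (by omega)]
    have e1 : ∑ i, c i * evalL l (B * (η i + L)) = (hd (sdiv a l) : ℝ) * ∑ i, c i +
        ∑ i, c i * (B * (η i + L) - a) * evalL (tl (sdiv a l)) (B * (η i + L)) := by
      rw [Finset.mul_sum, ← Finset.sum_add_distrib]
      refine Finset.sum_congr rfl fun i _ => ?_
      rw [evalL_sdiv a l]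
      ring
    rw [e1, hr, add_assoc]
    congr 2
    refine Finset.sum_congr rfl fun i _ => ?_
    rw [List.map_cons, List.prod_cons]
    ring

theorem nodeInt_eq (η : κ → ℝ) (B L : ℕ) (nodes : List ℕ) : ∀ (m : List ℤ) (c : κ → ℝ),
    nodes.length + 1 ≤ m.length → Mom c η m →
      (nodeInt B L nodes m : ℝ) =
        ∑ i, c i * (nodes.map fun a : ℕ => (B * (η i + L) - a : ℝ)).prod := by
  induction nodes with
  | nil =>
    intro m c hl hm
    change ((hdZ m : ℤ) : ℝ) = _
    rw [hm.hdZ (by omega)]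
    simp
  | cons a nodes ih =>
    intro m c hl hm
    rw [List.length_cons] at hl
    have := ih _ _ (by rw [msh_length]; omega) (hm.shift B L a)
    change ((nodeInt B L nodes (msh (Int.ofNat B) (Int.subNatNat (Nat.mul B L) a) m) : ℤ) : ℝ) = _
    rw [this]
    refine Finset.sum_congr rfl fun i _ => ?_
    rw [List.map_cons, List.prod_cons]
    ring

theorem dbl_cons (a : ℕ) (nodes e : List ℕ) : dbl (a :: nodes) e = a :: a :: dbl nodes e := rfl

theorem dbl_length (nodes e : List ℕ) : (dbl nodes e).length = 2 * nodes.length + e.length := by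
  induction nodes with
  | nil => change e.length = _; simp
  | cons a nodes ih => rw [dbl_cons]; simp only [List.length_cons, ih]; ring

theorem dbl_prod (f : ℕ → ℝ) (nodes e : List ℕ) :
    ((dbl nodes e).map f).prod = (nodes.map f).prod ^ 2 * (e.map f).prod := by
  induction nodes with
  | nil => change (e.map f).prod = _; simp
  | cons a nodes ih => rw [dbl_cons]; simp only [List.map_cons, List.prod_cons, ih]; ring

theorem exp_le_taylor (x : ℝ) (hx : 0 ≤ x) (K : ℕ) (h : 2 * x ≤ K + 1) :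
    Real.exp x ≤ (∑ j ∈ Finset.range K, x ^ j / j.factorial) + x ^ K / K.factorial * 2 := by
  have hn : ‖(x : ℂ)‖ = x := by rw [Complex.norm_real, Real.norm_of_nonneg hx]
  have h1 := Complex.exp_bound' (x := (x : ℂ)) (n := K) (by
    rw [hn, div_le_iff₀ (by positivity)]
    push_cast
    linarith)
  rw [hn] at h1
  have h2 : Complex.exp (x : ℂ) - ∑ m ∈ Finset.range K, (x : ℂ) ^ m / (m.factorial : ℂ) =
      ((Real.exp x - ∑ j ∈ Finset.range K, x ^ j / j.factorial : ℝ) : ℂ) := by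
    push_cast
    rfl
  rw [h2, Complex.norm_real, Real.norm_eq_abs] at h1
  linarith [le_abs_self (Real.exp x - ∑ j ∈ Finset.range K, x ^ j / j.factorial)]

theorem prod_sq_le (u : ℝ) (Y : ℕ) (hu : (Y : ℝ) ≤ u) : ∀ nodes : List ℕ, (∀ a ∈ nodes, a ≤ Y) →
    (((nodes.map fun a => (Y - a) ^ 2).prod : ℕ) : ℝ) ≤
      (nodes.map fun a : ℕ => (u - a : ℝ)).prod ^ 2
  | [], _ => by simp
  | a :: t, h => by
    have ha : a ≤ Y := h a (by simp)
    have ih := prod_sq_le u Y hu t fun b hb => h b (by simp [hb])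
    simp only [List.map_cons, List.prod_cons, Nat.cast_mul, Nat.cast_pow, Nat.cast_sub ha, mul_pow]
    have h0 : (0 : ℝ) ≤ Y - a := by
      have : (a : ℝ) ≤ Y := by exact_mod_cast ha
      linarith
    exact mul_le_mul (pow_le_pow_left₀ h0 (by linarith) 2) ih (by positivity) (by positivity)

end GaussAux

open GaussAux

theorem lowChk_sound (c η : κ → ℝ) (s K L : ℕ) (hs : 0 < s) (hK : 0 < K) (m : List ℤ)
    (nodes : List ℕ) (lo : ℕ) (hc : ∀ i, 0 ≤ c i) (hη : ∀ i, 0 ≤ η i + L)
    (hm : ∀ k, k < m.length → ((m.getD k 0 : ℤ) : ℝ) = ∑ i, c i * η i ^ k)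
    (h : lowChk s K L m nodes lo = true) :
    (lo : ℝ) ≤ ∑ i, c i * Real.exp (8 * (η i + L)) := by
  obtain ⟨K, rfl⟩ : ∃ K', K = K' + 1 := ⟨K - 1, by omega⟩
  unfold lowChk at h
  rw [Bool.and_eq_true, decide_eq_true_eq, decide_eq_true_eq, hd_cf] at h
  obtain ⟨h1, h2⟩ := h
  obtain ⟨r, hr⟩ := newton_eq η (8 * s) L (dbl nodes []) (cf s (K + 1) 1 [1]) m c
    (by rw [dbl_length]; simpa using h1) hm
  have hs' : (0 : ℝ) < s := by exact_mod_cast hs
  set H : ℝ := (s : ℝ) ^ (K + 1) * (K + 1).factorial with hH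
  have hHpos : 0 < H := by positivity
  have h3 : (lo : ℝ) * H ≤ (newton (8 * s) L (dbl nodes []) (cf s (K + 1) 1 [1]) m : ℝ) := by
    have : ((Int.ofNat (Nat.mul lo (1 * (s ^ (K + 1) * (K + 1).factorial))) : ℤ) : ℝ) ≤
      (newton (8 * s) L (dbl nodes []) (cf s (K + 1) 1 [1]) m : ℝ) := by exact_mod_cast h2
    simpa [hH] using this
  have hu : ∀ i, (0 : ℝ) ≤ ((8 * s : ℕ) : ℝ) * (η i + L) := fun i =>
    mul_nonneg (Nat.cast_nonneg _) (hη i)
  have h4 : 0 ≤ ∑ i, c i * ((dbl nodes []).map fun a : ℕ =>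
      (((8 * s : ℕ) : ℝ) * (η i + L) - a : ℝ)).prod * evalL r (((8 * s : ℕ) : ℝ) * (η i + L)) := by
    refine Finset.sum_nonneg fun i _ => mul_nonneg (mul_nonneg (hc i) ?_) (evalL_nonneg _ _ (hu i))
    rw [dbl_prod]
    simp only [List.map_nil, List.prod_nil, mul_one]
    positivity
  have h5 : ∑ i, c i * evalL (cf s (K + 1) 1 [1]) (((8 * s : ℕ) : ℝ) * (η i + L)) ≤
      (∑ i, c i * Real.exp (8 * (η i + L))) * H := by
    rw [Finset.sum_mul]
    refine Finset.sum_le_sum fun i _ => ?_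
    rw [mul_assoc]
    refine mul_le_mul_of_nonneg_left ?_ (hc i)
    rw [evalL_cf s hs]
    have e : ((8 * s : ℕ) : ℝ) * (η i + L) / s = 8 * (η i + L) := by
      push_cast; field_simp
    have e2 : ((8 * s : ℕ) : ℝ) * (η i + L) = s * (8 * (η i + L)) := by push_cast; ring
    rw [e, e2]
    have hx : 0 ≤ 8 * (η i + L) := by have := hη i; positivity
    have := Real.sum_le_exp_of_nonneg hx (K + 1 + 1)
    rw [Finset.sum_range_succ] at this
    have hk : (0 : ℝ) < (K + 1).factorial := by positivity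
    have e3 : (s * (8 * (η i + L))) ^ (K + 1) * evalL [1] (s * (8 * (η i + L))) =
        H * ((8 * (η i + L)) ^ (K + 1) / (K + 1).factorial) := by
      rw [evalL_cons, evalL_nil, hH, mul_pow]
      field_simp
      simp
    rw [e3, ← hH, Nat.cast_one, one_mul, ← mul_add, mul_comm]
    exact mul_le_mul_of_nonneg_right this hHpos.le
  have : (lo : ℝ) * H ≤ (∑ i, c i * Real.exp (8 * (η i + L))) * H := by linarith
  exact le_of_mul_le_mul_right this hHpos

theorem upChk_sound (c η : κ → ℝ) (s K L : ℕ) (hs : 0 < s) (hK : 0 < K) (m : List ℤ)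
    (nodes : List ℕ) (Y hi : ℕ) (hc : ∀ i, 0 ≤ c i) (hη : ∀ i, 0 ≤ η i + L)
    (hY : ∀ i, 8 * s * (η i + L) ≤ Y)
    (hm : ∀ k, k < m.length → ((m.getD k 0 : ℤ) : ℝ) = ∑ i, c i * η i ^ k)
    (h : upChk s K L m nodes Y hi = true) :
    ∑ i, c i * Real.exp (8 * (η i + L)) ≤ hi := by
  obtain ⟨K, rfl⟩ : ∃ K', K = K' + 1 := ⟨K - 1, by omega⟩
  unfold upChk at h
  rw [Bool.and_eq_true, Bool.and_eq_true, decide_eq_true_eq, decide_eq_true_eq, decide_eq_true_eq,
    hd_cf] at h
  obtain ⟨⟨h1, h0⟩, h2⟩ := h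
  obtain ⟨r, hr⟩ := newton_eq η (8 * s) L (dbl nodes [Y]) (cf s (K + 1) 1 [2]) m c
    (by rw [dbl_length]; simpa using h1) hm
  have hs' : (0 : ℝ) < s := by exact_mod_cast hs
  set H : ℝ := (s : ℝ) ^ (K + 1) * (K + 1).factorial with hH
  have hHpos : 0 < H := by positivity
  have h3 : (newton (8 * s) L (dbl nodes [Y]) (cf s (K + 1) 1 [2]) m : ℝ) ≤ (hi : ℝ) * H := by
    have : (newton (8 * s) L (dbl nodes [Y]) (cf s (K + 1) 1 [2]) m : ℝ) ≤
      ((Int.ofNat (Nat.mul hi (1 * (s ^ (K + 1) * (K + 1).factorial))) : ℤ) : ℝ) := by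
      exact_mod_cast h2
    simpa [hH] using this
  have hu : ∀ i, (0 : ℝ) ≤ ((8 * s : ℕ) : ℝ) * (η i + L) := fun i =>
    mul_nonneg (Nat.cast_nonneg _) (hη i)
  have h4 : ∑ i, c i * ((dbl nodes [Y]).map fun a : ℕ =>
      (((8 * s : ℕ) : ℝ) * (η i + L) - a : ℝ)).prod * evalL r (((8 * s : ℕ) : ℝ) * (η i + L)) ≤ 0 := by
    refine Finset.sum_nonpos fun i _ => mul_nonpos_of_nonpos_of_nonneg
      (mul_nonpos_of_nonneg_of_nonpos (hc i) ?_) (evalL_nonneg _ _ (hu i))
    rw [dbl_prod]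
    simp only [List.map_cons, List.map_nil, List.prod_cons, List.prod_nil, mul_one]
    refine mul_nonpos_of_nonneg_of_nonpos (by positivity) ?_
    have := hY i
    push_cast
    linarith
  have h5 : (∑ i, c i * Real.exp (8 * (η i + L))) * H ≤
      ∑ i, c i * evalL (cf s (K + 1) 1 [2]) (((8 * s : ℕ) : ℝ) * (η i + L)) := by
    rw [Finset.sum_mul]
    refine Finset.sum_le_sum fun i _ => ?_
    rw [mul_assoc]
    refine mul_le_mul_of_nonneg_left ?_ (hc i)
    rw [evalL_cf s hs]
    have e : ((8 * s : ℕ) : ℝ) * (η i + L) / s = 8 * (η i + L) := by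
      push_cast; field_simp
    have e2 : ((8 * s : ℕ) : ℝ) * (η i + L) = s * (8 * (η i + L)) := by push_cast; ring
    rw [e, e2]
    have hx : 0 ≤ 8 * (η i + L) := by have := hη i; positivity
    have hb : 2 * (8 * (η i + L)) ≤ ((K + 1 : ℕ) : ℝ) + 1 := by
      have h6 : ((2 * Y : ℕ) : ℝ) ≤ ((s * (K + 1 + 1) : ℕ) : ℝ) := by exact_mod_cast h0
      have h7 := hY i
      push_cast at h6 ⊢
      have : s * (2 * (8 * (η i + L))) ≤ s * ((K : ℝ) + 1 + 1) := by linarith
      exact le_of_mul_le_mul_left this hs'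
    have := exp_le_taylor _ hx (K + 1) hb
    have hk : (0 : ℝ) < (K + 1).factorial := by positivity
    have e3 : (s * (8 * (η i + L))) ^ (K + 1) * evalL [2] (s * (8 * (η i + L))) =
        H * ((8 * (η i + L)) ^ (K + 1) / (K + 1).factorial * 2) := by
      rw [evalL_cons, evalL_nil, hH, mul_pow]
      field_simp
      simp
    rw [e3, ← hH, Nat.cast_one, one_mul, ← mul_add, mul_comm]
    exact mul_le_mul_of_nonneg_left this hHpos.le
  have : (∑ i, c i * Real.exp (8 * (η i + L))) * H ≤ (hi : ℝ) * H := by linarith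
  exact le_of_mul_le_mul_right this hHpos

theorem edgeChk_sound (η : κ → ℝ) (s L : ℕ) (m : List ℤ) (nodes : List ℕ) (Y : ℕ)
    (hm : ∀ k, k < m.length → ((m.getD k 0 : ℤ) : ℝ) = ∑ i, η i ^ k)
    (h : edgeChk s L m nodes Y = true) (i : κ) : 8 * s * (η i + L) ≤ Y := by
  unfold edgeChk at h
  rw [Bool.and_eq_true, Bool.and_eq_true, decide_eq_true_eq, decide_eq_true_eq,
    List.all_eq_true] at h
  obtain ⟨⟨h1, h0⟩, h2⟩ := h
  have hm' : Mom (fun _ => 1) η m := fun k hk => by rw [hm k hk]; simp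
  have h3 := nodeInt_eq η (8 * s) L (dbl nodes []) m _ (by rw [dbl_length]; simpa using h1) hm'
  by_contra hc
  rw [not_le] at hc
  have h4 := prod_sq_le (((8 * s : ℕ) : ℝ) * (η i + L)) Y (by push_cast; linarith) nodes
    fun a ha => by simpa using h0 a ha
  have h5 : (nodeInt (8 * s) L (dbl nodes []) m : ℝ) <
      (((nodes.map fun a => (Y - a) ^ 2).prod : ℕ) : ℝ) := by
    have : ((nodeInt (8 * s) L (dbl nodes []) m : ℤ) : ℝ) <
      ((Int.ofNat ((nodes.map fun a => (Y - a) ^ 2).prod) : ℤ) : ℝ) := by exact_mod_cast h2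
    simpa only [Int.ofNat_eq_natCast, Int.cast_natCast] using this
  rw [h3] at h5
  simp only [dbl_prod, List.map_nil, List.prod_nil, mul_one, one_mul] at h5
  have h6 := Finset.single_le_sum (f := fun j => (nodes.map fun a : ℕ =>
    (((8 * s : ℕ) : ℝ) * (η j + L) - a : ℝ)).prod ^ 2) (fun j _ => by positivity)
    (Finset.mem_univ i)
  linarith

end Vale.Agent.P348
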