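import Vale.Agent.P348.Chk
import Vale.Agent.P348.Basis

/-! Variational bound from an isometric matrix product state.
`Psi s = (List.ofFn fun j => A (s j)).prod`. `fold_Phi`: induction on `n` (split off the last site with
`Fin.snocEquiv`/`Fin.insertNthEquiv`, or the first one and generalise `X`):
`∑ s t, tens O s t • ((Psi s)ᵀ * X * Psi t) = (List.ofFn O).foldl (fun Y o => Phi A o Y) X`.
For a bulk bond `j, j+1` the list is `replicate j 1 ++ [o1, o2] ++ replicate (M - j - 2) 1`; `Phi A 1 1 = 1`, so the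
bond contributes `(Phi A 1)^[M - j - 2] (hA A)`. `Phi A 1` is linear, unital and preserves positive
semidefiniteness, so `trace ((Phi A 1)^[r] (hA A)) ≤ e D + trace (Phi^[r] X) - trace (Phi^[r+1] X)`; the sum telescopes;
`|trace (Phi^[r] X)| ≤ c D` when `c • 1 ± X` are positive semidefinite (such `c` exists for symmetric `X`). The last bond
is at most `2` by `bond_psd`. With `v α β s = Psi s α β`: `∑ α β, v ⬝ᵥ B *ᵥ v = trace (∑ s t, B s t • (Psi s)ᵀ * Psi t)`
and `∑ α β, v ⬝ᵥ v = D > 0`, so some pair has `v ≠ 0` and the inequality. -/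

namespace Vale.Agent.P348

open Matrix

theorem fold_Phi {D : ℕ} (A : Fin 3 → Matrix (Fin D) (Fin D) ℝ) (n : ℕ) (O : Fin n → M3 ℝ)
    (X : Matrix (Fin D) (Fin D) ℝ) :
    ∑ s : Cfg n, ∑ t : Cfg n, tens O s t •
      (((List.ofFn fun j => A (s j)).prod)ᵀ * X * (List.ofFn fun j => A (t j)).prod) =
      (List.ofFn O).foldl (fun Y o => Phi A o Y) X := by
  induction n generalizing X with
  | zero => simp [tens]
  | succ n ih =>
    rw [List.ofFn_succ, List.foldl_cons, ← ih (fun i => O i.succ) (Phi A (O 0) X),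
      ← (Fin.consEquiv (fun _ : Fin (n + 1) => Fin 3)).sum_comp]
    simp only [← (Fin.consEquiv (fun _ : Fin (n + 1) => Fin 3)).sum_comp
      (fun t => tens O _ t • (_ * X * (List.ofFn fun j => A (t j)).prod)), Fintype.sum_prod_type]
    simp only [Fin.consEquiv_apply, tens, Fin.prod_univ_succ, List.ofFn_succ, List.prod_cons,
      Fin.cons_zero, Fin.cons_succ, Phi, Matrix.mul_sum, Matrix.sum_mul, Finset.smul_sum,
      Matrix.mul_smul, Matrix.smul_mul, smul_smul, Matrix.transpose_mul, Matrix.mul_assoc]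
    rw [Finset.sum_comm]
    refine Finset.sum_congr rfl (fun s _ => ?_)
    rw [Finset.sum_congr rfl (fun a _ => Finset.sum_comm), Finset.sum_comm]
    refine Finset.sum_congr rfl (fun t _ => Finset.sum_congr rfl (fun a _ =>
      Finset.sum_congr rfl (fun b _ => ?_)))
    rw [mul_comm]

namespace MPS

variable {D : ℕ} (A : Fin 3 → Matrix (Fin D) (Fin D) ℝ)

/-- iterated transfer maps along a sequence of on-site operators -/
def G (O : ℕ → M3 ℝ) (X : Matrix (Fin D) (Fin D) ℝ) : ℕ → Matrix (Fin D) (Fin D) ℝ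
  | 0 => X
  | n + 1 => Phi A (O n) (G O X n)

theorem foldl_eq (O : ℕ → M3 ℝ) (X : Matrix (Fin D) (Fin D) ℝ) (n : ℕ) :
    (List.ofFn fun i : Fin n => O i).foldl (fun Y o => Phi A o Y) X = G A O X n := by
  induction n with
  | zero => rfl
  | succ n ih =>
    rw [List.ofFn_succ', List.concat_eq_append, List.foldl_concat, G]
    simp only [Fin.val_castSucc, Fin.val_last, ih]

theorem Phi_one (Y : Matrix (Fin D) (Fin D) ℝ) : Phi A 1 Y = ∑ a, (A a)ᵀ * Y * A a := by
  simp [Phi, Matrix.one_apply]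

/-- the transfer map as a linear map -/
def PhiL : Matrix (Fin D) (Fin D) ℝ →ₗ[ℝ] Matrix (Fin D) (Fin D) ℝ where
  toFun := Phi A 1
  map_add' X Y := by
    simp only [Phi_one, Matrix.mul_add, Matrix.add_mul, Finset.sum_add_distrib]
  map_smul' c X := by
    simp only [Phi_one, Matrix.mul_smul, Matrix.smul_mul, Finset.smul_sum, RingHom.id_apply]

theorem PhiL_apply (Y : Matrix (Fin D) (Fin D) ℝ) : PhiL A Y = Phi A 1 Y := rfl

theorem PhiL_pow_succ (r : ℕ) (Y : Matrix (Fin D) (Fin D) ℝ) :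
    (PhiL A ^ (r + 1)) Y = Phi A 1 ((PhiL A ^ r) Y) := by
  rw [pow_succ']; rfl

theorem PhiL_pow_succ' (r : ℕ) (Y : Matrix (Fin D) (Fin D) ℝ) :
    (PhiL A ^ (r + 1)) Y = (PhiL A ^ r) (Phi A 1 Y) := by
  rw [pow_succ]; rfl

theorem pow_psd (r : ℕ) {Y : Matrix (Fin D) (Fin D) ℝ} (h : Y.PosSemidef) :
    ((PhiL A ^ r) Y).PosSemidef := by
  induction r with
  | zero => exact h
  | succ r ih =>
    rw [PhiL_pow_succ, Phi_one]
    exact posSemidef_sum _ (fun a _ => ih.conjTranspose_mul_mul_same (A a))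

variable {A}

theorem Phi_one_one (hiso : ∑ a, (A a)ᵀ * A a = 1) : Phi A 1 1 = 1 := by
  simp only [Phi_one, Matrix.mul_one, hiso]

theorem pow_one' (hiso : ∑ a, (A a)ᵀ * A a = 1) (r : ℕ) : (PhiL A ^ r) 1 = 1 := by
  induction r with
  | zero => rfl
  | succ r ih => rw [PhiL_pow_succ, ih, Phi_one_one hiso]

theorem G_bond (hiso : ∑ a, (A a)ᵀ * A a = 1) (j : ℕ) (o₁ o₂ : M3 ℝ) (r : ℕ) :
    G A (fun i => if i = j then o₁ else if i = j + 1 then o₂ else 1) 1 (j + 2 + r) =
      (PhiL A ^ r) (Phi A o₂ (Phi A o₁ 1)) := by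
  have h0 : ∀ n, n ≤ j → G A (fun i => if i = j then o₁ else if i = j + 1 then o₂ else 1) 1 n = 1 := by
    intro n hn
    induction n with
    | zero => rfl
    | succ n ih =>
      rw [G, ih (by omega)]
      simp only [if_neg (show n ≠ j by omega), if_neg (show n ≠ j + 1 by omega), Phi_one_one hiso]
  induction r with
  | zero =>
    show G A _ 1 (j + 1 + 1) = _
    rw [G, G, h0 j le_rfl]
    simp
  | succ r ih =>
    show G A _ 1 (j + 2 + r + 1) = _
    rw [G, ih, PhiL_pow_succ]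
    simp only [if_neg (show j + 2 + r ≠ j by omega), if_neg (show j + 2 + r ≠ j + 1 by omega)]

variable (A)

/-- product of the site matrices -/
def Psi {M : ℕ} (s : Cfg M) : Matrix (Fin D) (Fin D) ℝ := (List.ofFn fun j => A (s j)).prod

/-- expectation with values in the virtual space -/
def Ev (M : ℕ) : MC M ℝ →ₗ[ℝ] Matrix (Fin D) (Fin D) ℝ where
  toFun B := ∑ s, ∑ t, B s t • ((Psi A s)ᵀ * Psi A t)
  map_add' B C := by simp only [Matrix.add_apply, add_smul, Finset.sum_add_distrib]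
  map_smul' c B := by
    simp only [Matrix.smul_apply, smul_eq_mul, RingHom.id_apply, Finset.smul_sum, smul_smul]

theorem Ev_tens (M : ℕ) (O : ℕ → M3 ℝ) : Ev A M (tens fun i : Fin M => O i) = G A O 1 M := by
  rw [← foldl_eq, ← fold_Phi]
  simp only [Matrix.mul_one]
  rfl

theorem trace_Ev (M : ℕ) (B : MC M ℝ) : trace (Ev A M B) =
    ∑ p : Fin D × Fin D, (fun s => Psi A s p.1 p.2) ⬝ᵥ B *ᵥ (fun s => Psi A s p.1 p.2) := by
  show trace (∑ s, ∑ t, B s t • ((Psi A s)ᵀ * Psi A t)) = _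
  simp only [trace_sum, trace_smul, dotProduct, mulVec, Finset.mul_sum, Fintype.sum_prod_type]
  simp only [trace, diag, Matrix.mul_apply, transpose_apply, smul_eq_mul, Finset.mul_sum]
  symm
  rw [Finset.sum_comm]
  simp only [Finset.sum_comm (γ := Cfg M) (α := Fin D)]
  refine Finset.sum_congr rfl (fun _ _ => Finset.sum_congr rfl (fun _ _ =>
    Finset.sum_congr rfl (fun _ _ => Finset.sum_congr rfl (fun _ _ => by ring))))

theorem trace_Ev_nonneg (M : ℕ) {B : MC M ℝ} (h : B.PosSemidef) : 0 ≤ trace (Ev A M B) := by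
  rw [trace_Ev]
  exact Finset.sum_nonneg (fun p _ => by simpa using h.dotProduct_mulVec_nonneg _)

variable {A}

theorem Ev_one (hiso : ∑ a, (A a)ᵀ * A a = 1) (M : ℕ) : Ev A M 1 = 1 := by
  rw [← tens_one, Ev_tens A M (fun _ => 1)]
  induction M with
  | zero => rfl
  | succ M ih => rw [G, ih, Phi_one_one hiso]

theorem Ev_bond (hiso : ∑ a, (A a)ᵀ * A a = 1) {M : ℕ} (j : Fin M) (hj : j.val + 1 < M)
    (o₁ o₂ : M3 ℝ) : Ev A M (st j o₁ * st (finRotate M j) o₂) =
      (PhiL A ^ (M - j - 2)) (Phi A o₂ (Phi A o₁ 1)) := by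
  have hr : (finRotate M j).val = j.val + 1 := by rw [finRotate_val, if_neg hj.ne]
  have h : st j o₁ * st (finRotate M j) o₂ = tens fun i : Fin M =>
      (fun i : ℕ => if i = j.val then o₁ else if i = j.val + 1 then o₂ else 1) i := by
    simp only [st, tens_mul]
    congr 1; funext i
    simp only [Fin.ext_iff, hr]
    by_cases h1 : i.val = j.val
    · simp [h1]
    · simp [h1]
  rw [h, Ev_tens A M (fun i : ℕ => if i = j.val then o₁ else if i = j.val + 1 then o₂ else 1),
    ← G_bond hiso]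
  congr 1; omega

theorem exists_bound (X : Matrix (Fin D) (Fin D) ℝ) (hX : Xᵀ = X) :
    ∃ c : ℝ, 0 ≤ c ∧ (c • (1 : Matrix (Fin D) (Fin D) ℝ) + X).PosSemidef := by
  refine ⟨∑ i, ∑ j, |X i j|, by positivity, PosSemidef.of_dotProduct_mulVec_nonneg ?_ fun x => ?_⟩
  · simp only [IsHermitian, conjTranspose_eq_transpose_of_trivial, transpose_add, transpose_smul,
      transpose_one, hX]
  · have hsq : ∀ i, x i * x i ≤ x ⬝ᵥ x := fun i =>
      Finset.single_le_sum (f := fun i => x i * x i) (fun i _ => mul_self_nonneg _)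
        (Finset.mem_univ i)
    simp only [star_trivial, add_mulVec, smul_mulVec, one_mulVec, dotProduct_add,
      dotProduct_smul, smul_eq_mul, Finset.sum_mul]
    simp only [dotProduct, mulVec, Finset.mul_sum, ← Finset.sum_add_distrib] at hsq ⊢
    refine Finset.sum_nonneg (fun i _ => Finset.sum_nonneg (fun j _ => ?_))
    rw [← Finset.mul_sum]
    have h1 : |x i * x j| ≤ ∑ k, x k * x k := by
      rw [abs_le]; constructor <;> nlinarith [hsq i, hsq j, sq_nonneg (x i + x j),
        sq_nonneg (x i - x j)]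
    have h2 : |x i * (X i j * x j)| ≤ |X i j| * ∑ k, x k * x k := by
      rw [show x i * (X i j * x j) = X i j * (x i * x j) by ring, abs_mul]
      exact mul_le_mul_of_nonneg_left h1 (abs_nonneg _)
    linarith [neg_abs_le (x i * (X i j * x j))]

end MPS

theorem mps_bound {D : ℕ} (hD : 0 < D) (A : Fin 3 → Matrix (Fin D) (Fin D) ℝ)
    (hiso : ∑ a, (A a)ᵀ * A a = 1) (X : Matrix (Fin D) (Fin D) ℝ) (hX : Xᵀ = X) (e : ℝ)
    (hpsd : (e • (1 : Matrix (Fin D) (Fin D) ℝ) + X - Phi A 1 X - hA A).PosSemidef) :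
    ∃ C : ℝ, ∀ M : ℕ, 2 ≤ M → ∃ v : Cfg M → ℝ, v ≠ 0 ∧
      v ⬝ᵥ ((M : ℝ) • (1 : MC M ℝ) + (-1 : ℝ) • yB M 1) *ᵥ v ≤ (e * M + C) * (v ⬝ᵥ v) := by
  obtain ⟨c₁, -, hc₁⟩ := MPS.exists_bound X hX
  obtain ⟨c₂, -, hc₂⟩ := MPS.exists_bound (-X) (by rw [transpose_neg, hX])
  refine ⟨c₁ + c₂ + 2 - e, fun M hM => ?_⟩
  set τ : ℕ → ℝ := fun r => trace ((MPS.PhiL A ^ r) X) with hτ
  have htr : trace (1 : Matrix (Fin D) (Fin D) ℝ) = D := by simp
  have hlo : ∀ r, -(c₁ * D) ≤ τ r := fun r => by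
    have := (MPS.pow_psd A r hc₁).trace_nonneg
    rw [map_add, map_smul, MPS.pow_one' hiso, trace_add, trace_smul, htr, smul_eq_mul] at this
    simp only [hτ]; linarith
  have hhi : ∀ r, τ r ≤ c₂ * D := fun r => by
    have := (MPS.pow_psd A r hc₂).trace_nonneg
    rw [map_add, map_smul, map_neg, MPS.pow_one' hiso, trace_add, trace_smul, trace_neg, htr,
      smul_eq_mul] at this
    simp only [hτ]; linarith
  have hbulk : ∀ r, trace ((MPS.PhiL A ^ r) (hA A)) ≤ e * D + (τ r - τ (r + 1)) := fun r => by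
    have := (MPS.pow_psd A r hpsd).trace_nonneg
    rw [map_sub, map_sub, map_add, map_smul, MPS.pow_one' hiso, ← MPS.PhiL_pow_succ', trace_sub,
      trace_sub, trace_add, trace_smul, htr, smul_eq_mul] at this
    simp only [hτ]; linarith
  let h : Fin M → MC M ℝ := fun j => st j Zm * st (finRotate M j) Zm -
    (st j Um * st (finRotate M j) Dm + st j Dm * st (finRotate M j) Um)
  have hH : (M : ℝ) • (1 : MC M ℝ) + (-1 : ℝ) • yB M 1 = ∑ j, h j := by
    simp only [yB, ite_self, one_smul, neg_smul, h, Finset.sum_add_distrib, Finset.sum_sub_distrib,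
      Finset.sum_const, Finset.card_univ, Fintype.card_fin, ← Nat.cast_smul_eq_nsmul ℝ]
    abel
  have hb : ∀ j : Fin M, j.val + 1 < M →
      trace (MPS.Ev A M (h j)) ≤ e * D + (τ (M - (j + 1) - 1) - τ (M - j - 1)) := by
    intro j hj
    have e1 : MPS.Ev A M (h j) = (MPS.PhiL A ^ (M - j - 2)) (hA A) := by
      simp only [h, hA, map_sub, map_add, MPS.Ev_bond hiso j hj]
      abel
    have e2 : M - (j + 1) - 1 = M - j - 2 := by omega
    have e3 : M - j - 1 = M - j - 2 + 1 := by omega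
    rw [e1, e2, e3]
    exact hbulk _
  have hl : ∀ j : Fin M, trace (MPS.Ev A M (h j)) ≤ 2 * D := by
    intro j
    have := MPS.trace_Ev_nonneg A M (bond_psd (finRotate_ne hM j) 1 (by norm_num))
    have e1 : (2 : ℝ) • (1 : MC M ℝ) - st j Zm * st (finRotate M j) Zm +
      (1 : ℝ) • (st j Um * st (finRotate M j) Dm + st j Dm * st (finRotate M j) Um)
        = (2 : ℝ) • (1 : MC M ℝ) - h j := by
      simp only [h, one_smul]; abel
    rw [e1, map_sub, map_smul, MPS.Ev_one hiso, trace_sub, trace_smul, htr, smul_eq_mul] at this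
    linarith
  have htot : trace (MPS.Ev A M (∑ j, h j)) ≤ (e * M + (c₁ + c₂ + 2 - e)) * D := by
    obtain ⟨n, rfl⟩ : ∃ n, M = n + 1 := ⟨M - 1, by omega⟩
    rw [map_sum, trace_sum, Fin.sum_univ_castSucc]
    have h1 : ∑ j : Fin n, trace (MPS.Ev A (n + 1) (h j.castSucc)) ≤
        ∑ j : Fin n, (e * D + (τ (n + 1 - (j + 1) - 1) - τ (n + 1 - j - 1))) :=
      Finset.sum_le_sum (fun j _ => hb j.castSucc (by have := j.2; simp only [Fin.val_castSucc]; omega))
    rw [Finset.sum_add_distrib, Fin.sum_univ_eq_sum_range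
      (fun j => τ (n + 1 - (j + 1) - 1) - τ (n + 1 - j - 1)),
      Finset.sum_range_sub (fun j => τ (n + 1 - j - 1))] at h1
    simp only [Finset.sum_const, Finset.card_univ, Fintype.card_fin, nsmul_eq_mul] at h1
    have h2 := hl (Fin.last n)
    have h3 := hlo (n + 1 - 0 - 1)
    have h4 := hhi (n + 1 - n - 1)
    push_cast
    nlinarith
  have hone : ∑ p : Fin D × Fin D,
      (fun s : Cfg M => MPS.Psi A s p.1 p.2) ⬝ᵥ (fun s => MPS.Psi A s p.1 p.2) = D := by
    have := MPS.trace_Ev A M 1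
    rw [MPS.Ev_one hiso, htr] at this
    simpa only [one_mulVec] using this.symm
  rw [hH]
  rw [MPS.trace_Ev, ← hone, Finset.mul_sum] at htot
  by_contra hcon
  push Not at hcon
  refine absurd htot (not_le.2 (Finset.sum_lt_sum (fun p _ => ?_) ?_))
  · by_cases hv : (fun s : Cfg M => MPS.Psi A s p.1 p.2) = 0
    · rw [hv]; simp
    · exact (hcon _ hv).le
  · by_contra hn
    push Not at hn
    have : ∀ p : Fin D × Fin D, (fun s : Cfg M => MPS.Psi A s p.1 p.2) = 0 := fun p => by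
      by_contra hv
      exact absurd (hcon _ hv) (not_lt.2 (hn p (Finset.mem_univ p)))
    simp only [this, dotProduct_zero, Finset.sum_const_zero] at hone
    have : (0 : ℝ) < D := by exact_mod_cast hD
    linarith

end Vale.Agent.P348
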