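import Mathlib.Data.Nat.Notation
import Mathlib.Data.List.Defs

/-! Generated: orbit representatives with orbit sizes. -/

set_option maxRecDepth 100000

namespace Vale.Agent.P348

def R7_0_0 : List (ℕ × ℕ) :=
  [(53, 14), (71, 28), (125, 14), (131, 28), (133, 14), (143, 28), (149, 28), (151, 14), (155, 14), (185, 28), 
   (197, 14), (203, 14), (293, 14), (311, 14), (365, 14), (367, 14), (371, 14), (373, 14), (383, 14), (385, 28), 
   (421, 14), (425, 14), (1093, 1)]
def R7_1_0 : List (ℕ × ℕ) :=
  [(80, 14), (134, 28), (152, 28), (158, 28), (160, 14), (188, 28), (206, 28), (212, 14), (224, 14), (296, 28), 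
   (314, 28), (350, 14), (368, 28), (374, 28), (376, 28), (386, 28), (392, 28), (394, 28), (398, 28), (400, 14), 
   (422, 28), (428, 28), (430, 28), (440, 14), (446, 28), (448, 14), (452, 28), (470, 14), (548, 14), (554, 14), 
   (608, 14), (1094, 14)]
def R7_2_0 : List (ℕ × ℕ) :=
  [(161, 28), (215, 28), (233, 14), (323, 14), (377, 28), (395, 28), (401, 28), (403, 28), (431, 28), (449, 28), 
   (455, 28), (457, 28), (467, 28), (473, 28), (479, 28), (557, 28), (611, 28), (617, 28), (629, 14), 
   (1097, 14), (1103, 14), (1121, 14)]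
def R7_3_0 : List (ℕ × ℕ) :=
  [(242, 14), (404, 28), (458, 28), (476, 28), (482, 28), (484, 14), (566, 14), (620, 28), (638, 28), (644, 14), 
   (674, 14), (692, 14), (1106, 14), (1124, 28), (1178, 14), (1184, 14)]
def R7_4_0 : List (ℕ × ℕ) :=
  [(485, 28), (647, 28), (701, 28), (1133, 14), (1187, 28), (1205, 14), (1367, 14)]
def R7_5_0 : List (ℕ × ℕ) :=
  [(728, 14), (1214, 14), (1376, 14), (1430, 14)]
def R7_6_0 : List (ℕ × ℕ) :=
  [(1457, 14)]
def R7_7_0 : List (ℕ × ℕ) :=
  [(2186, 2)]

end Vale.Agent.P348
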