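import Mathlib.Data.Nat.Notation
import Mathlib.Data.List.Defs

/-! Generated: orbit representatives with orbit sizes. -/

set_option maxRecDepth 100000

namespace Vale.Agent.P348

def R8_0_0 : List (ℕ × ℕ) :=
  [(80, 8), (134, 16), (152, 32), (158, 32), (160, 8), (188, 16), (206, 32), (212, 16), (224, 16), (314, 16), 
   (320, 16), (368, 16), (374, 32), (376, 16), (386, 32), (392, 32), (394, 32), (398, 16), (400, 8), (422, 16), 
   (428, 32), (430, 32), (440, 32), (446, 32), (448, 16), (452, 32), (464, 16), (536, 32), (548, 16), (554, 32), 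
   (560, 8), (590, 32), (602, 16), (608, 16), (656, 4), (860, 16), (878, 32), (880, 8), (914, 16), (932, 16), 
   (1040, 8), (1094, 16), (1096, 16), (1100, 16), (1102, 16), (1112, 16), (1114, 32), (1120, 8), (1148, 8), 
   (1150, 32), (1154, 16), (1156, 16), (1168, 16), (1262, 16), (1276, 16), (1280, 8), (1312, 4), (1640, 2), 
   (3280, 1)]
def R8_1_0 : List (ℕ × ℕ) :=
  [(161, 32), (215, 32), (233, 16), (323, 32), (377, 32), (395, 32), (401, 32), (403, 32), (431, 32), (449, 32), 
   (455, 32), (457, 32), (467, 32), (473, 32), (479, 32), (539, 32), (557, 32), (563, 32), (593, 32), (611, 32), 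
   (617, 32), (629, 32), (665, 32), (863, 32), (881, 32), (887, 32), (889, 16), (917, 32), (935, 32), (941, 16), 
   (953, 16), (1025, 32), (1043, 32), (1079, 16), (1097, 32), (1103, 32), (1105, 32), (1115, 32), (1121, 32), 
   (1123, 32), (1127, 32), (1129, 32), (1151, 32), (1157, 32), (1159, 32), (1169, 32), (1175, 32), (1177, 32), 
   (1181, 32), (1183, 16), (1193, 32), (1195, 32), (1199, 32), (1265, 32), (1267, 32), (1277, 32), (1283, 32), 
   (1285, 32), (1289, 32), (1313, 32), (1319, 16), (1337, 32), (1339, 16), (1343, 32), (1361, 16), (1397, 32), 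
   (1643, 16), (1661, 16), (1823, 16), (3281, 16)]
def R8_2_0 : List (ℕ × ℕ) :=
  [(242, 16), (404, 32), (458, 32), (476, 32), (482, 32), (484, 16), (566, 32), (620, 32), (638, 32), (644, 16), 
   (674, 32), (692, 16), (890, 32), (944, 32), (962, 16), (1052, 16), (1106, 32), (1124, 32), (1130, 32), 
   (1132, 32), (1160, 32), (1178, 32), (1184, 32), (1186, 32), (1196, 32), (1202, 32), (1204, 32), (1208, 32), 
   (1210, 16), (1268, 32), (1286, 32), (1292, 32), (1294, 32), (1322, 16), (1340, 32), (1346, 32), (1348, 32), 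
   (1358, 32), (1364, 32), (1366, 16), (1370, 32), (1394, 16), (1400, 32), (1402, 16), (1412, 16), (1418, 32), 
   (1424, 32), (1442, 16), (1646, 16), (1664, 32), (1670, 16), (1682, 16), (1826, 32), (1832, 32), (1844, 16), 
   (1850, 16), (1886, 8), (3284, 16), (3290, 16), (3308, 16), (3362, 8)]
def R8_3_0 : List (ℕ × ℕ) :=
  [(485, 32), (647, 32), (701, 32), (971, 16), (1133, 32), (1187, 32), (1205, 32), (1211, 32), (1213, 32), 
   (1295, 32), (1349, 32), (1367, 32), (1373, 32), (1375, 32), (1403, 32), (1421, 32), (1427, 32), (1429, 16), 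
   (1439, 32), (1445, 32), (1451, 32), (1673, 32), (1691, 16), (1835, 32), (1853, 32), (1859, 32), (1889, 16), 
   (1907, 32), (1913, 16), (1925, 32), (2069, 16), (3293, 16), (3311, 32), (3365, 32), (3371, 16), (3533, 16)]
def R8_4_0 : List (ℕ × ℕ) :=
  [(728, 16), (1214, 32), (1376, 32), (1430, 32), (1448, 32), (1454, 32), (1456, 16), (1700, 16), (1862, 32), 
   (1916, 32), (1934, 32), (1940, 16), (2024, 16), (2078, 32), (2096, 16), (2132, 8), (3320, 16), (3374, 32), 
   (3392, 16), (3536, 16), (3554, 32), (3560, 16), (3608, 8), (4100, 4)]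
def R8_5_0 : List (ℕ × ℕ) :=
  [(1457, 32), (1943, 32), (2105, 32), (2159, 16), (3401, 16), (3563, 32), (3617, 32), (4103, 16), (4121, 16)]
def R8_6_0 : List (ℕ × ℕ) :=
  [(2186, 16), (3644, 16), (4130, 16), (4292, 16), (4346, 8)]
def R8_7_0 : List (ℕ × ℕ) :=
  [(4373, 16)]
def R8_8_0 : List (ℕ × ℕ) :=
  [(6560, 2)]

end Vale.Agent.P348
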