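import Vale.Agent.P348.Tree
import Vale.Agent.P348.Inv

/-! Kernel computation of diagonal entries of powers of `yB`, several columns packed in one number. -/

namespace Vale.Agent.P348

open Finset Matrix

theorem half_val (q s : ℕ) (x y : Tr) (c : ℕ) (hc : c < 3 ^ (q + 6)) (hs : dsC (q + 6) c = s) :
    val (q + 1) (half q s x y) c = Yc (q + 6) (val (q + 1) x) (val (q + 1) y) c := by
  obtain ⟨d, u, hd, rfl⟩ := split3 c
  have hu : u < 3 ^ (q + 5) := by
    rw [show q + 6 = q + 5 + 1 by ring, pow_succ'] at hc; omega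
  rw [show q + 6 = q + 5 + 1 by ring, dsC_succ _ _ _ hd] at hs
  have e0 : Yc (q + 6) (val (q + 1) x) (val (q + 1) y) (d + 3 * u) =
      (dia (q + 4 + 1) (d + 3 * u) + tt (dg (d + 3 * u) (q + 4 + 1)) (dg (d + 3 * u) 0)) *
        val (q + 1) x (d + 3 * u) + hops (q + 4 + 1) (val (q + 1) x) (d + 3 * u) +
      ((if 1 ≤ dg (d + 3 * u) 0 ∧ dg (d + 3 * u) (q + 4 + 1) ≤ 1 then
          val (q + 1) y (d + 3 * u - 1 + 3 ^ (q + 4 + 1)) else 0) +
        (if dg (d + 3 * u) 0 ≤ 1 ∧ 1 ≤ dg (d + 3 * u) (q + 4 + 1) then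
          val (q + 1) y (d + 3 * u + 1 - 3 ^ (q + 4 + 1)) else 0)) := rfl
  have e1 : (if 1 ≤ d ∧ dg u (q + 4) ≤ 1 then val (q + 1) y (d + 3 * u - 1 + 3 ^ (q + 4 + 1)) else 0) =
      if 1 ≤ d ∧ dg u (q + 4) ≤ 1 then val (q + 1) y (d - 1 + 3 * (u + 3 ^ (q + 4))) else 0 := by
    refine if_ctx_congr Iff.rfl (fun h => ?_) fun _ => rfl
    rw [pow_succ']
    congr 1; omega
  have e2 : (if d ≤ 1 ∧ 1 ≤ dg u (q + 4) then val (q + 1) y (d + 3 * u + 1 - 3 ^ (q + 4 + 1)) else 0) =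
      if d ≤ 1 ∧ 1 ≤ dg u (q + 4) then val (q + 1) y (d + 1 + 3 * (u - 3 ^ (q + 4))) else 0 := by
    refine if_ctx_congr Iff.rfl (fun h => ?_) fun _ => rfl
    have := le_of_dg h.2
    rw [pow_succ']
    congr 1; omega
  rw [e0, dia_succ _ _ _ hd, hops_succ _ _ _ _ hd, dgk_succ _ _ _ hd, dgk_zero _ _ hd, e1, e2]
  simp only [val_succ _ _ _ _ hd]
  have v0 := fun t w => val_succ q t 0 w (by norm_num)
  have v1 := fun t w => val_succ q t 1 w (by norm_num)
  have v2 := fun t w => val_succ q t 2 w (by norm_num)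
  interval_cases d
  · refine (go_val q (ch0 x) Tr.nil (ch1 x) Tr.nil (ch1 y) [] s 0 0 0 u hu (by omega)).trans ?_
    simp only [show 0 + 1 = 1 by rfl, v1, val_nil, ite_self, List.map_nil, List.sum_nil,
      show ¬ (1 ≤ 0) by norm_num, show (0 ≤ 1) by norm_num, false_and, true_and, if_false]
    show _ = _ * val q (ch0 x) u + (hops _ (val q (ch0 x)) u + (0 + ite _ (val q (ch1 x) _) _)) +
      (0 + ite _ (val q (ch1 y) _) _)
    ring
  · refine (go_val q (ch1 x) (ch0 x) (ch2 x) (ch0 y) (ch2 y) [] (s - 1) 0 1 1 u hu (by omega)).trans ?_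
    simp only [show 1 + 1 = 2 by rfl, show 1 - 1 = 0 by rfl, v0, v2, List.map_nil, List.sum_nil,
      le_refl, true_and]
    show _ = _ * val q (ch1 x) u + (hops _ (val q (ch1 x)) u +
      (ite _ (val q (ch0 x) _) _ + ite _ (val q (ch2 x) _) _)) +
      (ite _ (val q (ch0 y) _) _ + ite _ (val q (ch2 y) _) _)
    ring
  · refine (go_val q (ch2 x) (ch1 x) Tr.nil (ch1 y) Tr.nil [] (s - 2) 0 2 2 u hu (by omega)).trans ?_
    simp only [show 2 - 1 = 1 by rfl, v1, val_nil, ite_self, List.map_nil, List.sum_nil,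
      show ¬ (2 ≤ 1) by norm_num, show (1 ≤ 2) by norm_num, false_and, true_and, if_false]
    show _ = _ * val q (ch2 x) u + (hops _ (val q (ch2 x)) u + (ite _ (val q (ch1 x) _) _ + 0)) +
      (ite _ (val q (ch1 y) _) _ + 0)
    ring

theorem ins_val (p : ℕ) : ∀ (t : Tr) (a v c : ℕ), a < 3 ^ (p + 5) → c < 3 ^ (p + 5) →
    dsC (p + 5) c = dsC (p + 5) a → val p (ins p t a v) c = val p t c + if c = a then v else 0 := by
  induction p with
  | zero =>
    intro t a v c ha hc hs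
    show getB (mkB fun j => opt (Nat.beq j (rk a)) (getB (blkOf t) j) v) (rk c) = getB (blkOf t) (rk c) + _
    rw [getB_mkB _ _ (tab c hc).2.2.1, opt_eq]
    congr 1
    refine if_congr ⟨fun h => ?_, fun h => by rw [h]; exact Nat.beq_refl _⟩ rfl rfl
    have h1 := (tab c hc).2.2.2
    have h2 := (tab a ha).2.2.2
    rw [Nat.eq_of_beq_eq_true h, show dsC 5 c = dsC 5 a from hs, h2] at h1
    exact h1.symm
  | succ p ih =>
    intro t a v c ha hc hs
    obtain ⟨d, u, hd, rfl⟩ := split3 c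
    obtain ⟨d', u', hd', rfl⟩ := split3 a
    rw [show p + 1 + 5 = p + 5 + 1 by ring] at ha hc hs
    rw [pow_succ'] at ha hc
    rw [dsC_succ _ _ _ hd, dsC_succ _ _ _ hd'] at hs
    have e : ins (p + 1) t (d' + 3 * u') v = Nat.rec (motive := fun _ => Tr)
        (Tr.node (ins p (ch0 t) u' v) (ch1 t) (ch2 t))
        (fun e _ => Nat.rec (motive := fun _ => Tr) (Tr.node (ch0 t) (ins p (ch1 t) u' v) (ch2 t))
          (fun _ _ => Tr.node (ch0 t) (ch1 t) (ins p (ch2 t) u' v)) e) d' := by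
      show Nat.rec (motive := fun _ => Tr)
        (Tr.node (ins p (ch0 t) ((d' + 3 * u') / 3) v) (ch1 t) (ch2 t))
        (fun e _ => Nat.rec (motive := fun _ => Tr)
          (Tr.node (ch0 t) (ins p (ch1 t) ((d' + 3 * u') / 3) v) (ch2 t))
          (fun _ _ => Tr.node (ch0 t) (ch1 t) (ins p (ch2 t) ((d' + 3 * u') / 3) v)) e)
          ((d' + 3 * u') % 3) = _
      rw [show (d' + 3 * u') % 3 = d' by omega, show (d' + 3 * u') / 3 = u' by omega]
    rw [e, val_succ _ _ _ _ hd, val_succ _ _ _ _ hd]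
    by_cases hdd : d = d'
    · subst hdd
      have h := fun t => ih t u' v u (by omega) (by omega) (by omega)
      have e2 : (if d + 3 * u = d + 3 * u' then v else 0) = if u = u' then v else 0 :=
        if_congr (by omega) rfl rfl
      rw [e2]
      interval_cases d <;> exact h _
    · rw [if_neg (by omega)]
      interval_cases d <;> interval_cases d' <;> first | rfl | exact absurd rfl hdd

theorem neg_val (M p : ℕ) : ∀ (t : Tr) (c : ℕ), c < 3 ^ (p + 5) →
    val p (neg M t) c = M - val p t c ∨ (val p (neg M t) c = 0 ∧ val p t c = 0) := by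
  induction p with
  | zero =>
    intro t c hc
    cases t with
    | nil => exact Or.inr ⟨getB_zero _, getB_zero _⟩
    | leaf b =>
      left
      show getB (negB M b) (rk c) = M - getB b (rk c)
      rw [negB_eq, getB_mkB _ _ (tab c hc).2.2.1]
      rfl
    | node _ _ _ => exact Or.inr ⟨getB_zero _, getB_zero _⟩
  | succ p ih =>
    intro t c hc
    obtain ⟨d, u, hd, rfl⟩ := split3 c
    rw [show p + 1 + 5 = p + 5 + 1 by ring, pow_succ'] at hc
    rw [val_succ _ _ _ _ hd, val_succ _ _ _ _ hd]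
    have e : chd (neg M t) d = neg M (chd t d) := by
      cases t <;> interval_cases d <;> rfl
    rw [e]
    exact ih _ u (by omega)

theorem dgk_lt (c j : ℕ) : dg c j < 3 := Nat.mod_lt _ (by norm_num)

theorem up_sec (j : ℕ) : ∀ L c : ℕ, j < L → c < 3 ^ L → dg c j ≤ 1 →
    c + 3 ^ j < 3 ^ L ∧ dsC L (c + 3 ^ j) = dsC L c + 1 ∧ ∀ i, i ≠ j → dg (c + 3 ^ j) i = dg c i := by
  induction j with
  | zero =>
    intro L c hL hc h
    obtain ⟨d, u, hd, rfl⟩ := split3 c
    obtain ⟨L, rfl⟩ : ∃ n, L = n + 1 := ⟨L - 1, by omega⟩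
    rw [dgk_zero _ _ hd] at h
    rw [pow_succ'] at hc ⊢
    rw [show d + 3 * u + 3 ^ 0 = d + 1 + 3 * u by ring, dsC_succ _ _ _ hd, dsC_succ _ _ _ (by omega)]
    refine ⟨by omega, by omega, fun i hi => ?_⟩
    obtain ⟨i, rfl⟩ : ∃ n, i = n + 1 := ⟨i - 1, by omega⟩
    rw [dgk_succ _ _ _ hd, dgk_succ _ _ _ (by omega)]
  | succ j ih =>
    intro L c hL hc h
    obtain ⟨d, u, hd, rfl⟩ := split3 c
    obtain ⟨L, rfl⟩ : ∃ n, L = n + 1 := ⟨L - 1, by omega⟩
    rw [dgk_succ _ _ _ hd] at h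
    rw [pow_succ'] at hc
    obtain ⟨h1, h2, h3⟩ := ih L u (by omega) (by omega) h
    rw [show d + 3 * u + 3 ^ (j + 1) = d + 3 * (u + 3 ^ j) by ring, dsC_succ _ _ _ hd,
      dsC_succ _ _ _ hd, pow_succ']
    refine ⟨by omega, by omega, fun i hi => ?_⟩
    rcases i with _ | i
    · rw [dgk_zero _ _ hd, dgk_zero _ _ hd]
    · rw [dgk_succ _ _ _ hd, dgk_succ _ _ _ hd, h3 i (by omega)]

theorem dn_sec (j : ℕ) : ∀ L c : ℕ, j < L → c < 3 ^ L → 1 ≤ dg c j →
    c - 3 ^ j < 3 ^ L ∧ dsC L (c - 3 ^ j) + 1 = dsC L c ∧ ∀ i, i ≠ j → dg (c - 3 ^ j) i = dg c i := by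
  induction j with
  | zero =>
    intro L c hL hc h
    obtain ⟨d, u, hd, rfl⟩ := split3 c
    obtain ⟨L, rfl⟩ : ∃ n, L = n + 1 := ⟨L - 1, by omega⟩
    rw [dgk_zero _ _ hd] at h
    rw [show d + 3 * u - 3 ^ 0 = d - 1 + 3 * u by omega, dsC_succ _ _ _ hd, dsC_succ _ _ _ (by omega)]
    refine ⟨by omega, by omega, fun i hi => ?_⟩
    obtain ⟨i, rfl⟩ : ∃ n, i = n + 1 := ⟨i - 1, by omega⟩
    rw [dgk_succ _ _ _ hd, dgk_succ _ _ _ (by omega)]
  | succ j ih =>
    intro L c hL hc h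
    obtain ⟨d, u, hd, rfl⟩ := split3 c
    obtain ⟨L, rfl⟩ : ∃ n, L = n + 1 := ⟨L - 1, by omega⟩
    rw [dgk_succ _ _ _ hd] at h
    have h0 := le_of_dg h
    obtain ⟨h1, h2, h3⟩ := ih L u (by omega) (by rw [pow_succ'] at hc; omega) h
    rw [show d + 3 * u - 3 ^ (j + 1) = d + 3 * (u - 3 ^ j) by rw [pow_succ']; omega, dsC_succ _ _ _ hd,
      dsC_succ _ _ _ hd, pow_succ']
    refine ⟨by omega, by omega, fun i hi => ?_⟩
    rcases i with _ | i
    · rw [dgk_zero _ _ hd, dgk_zero _ _ hd]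
    · rw [dgk_succ _ _ _ hd, dgk_succ _ _ _ hd, h3 i (by omega)]

/-- a hop stays in the sector -/
theorem hop_sec {L c i j : ℕ} (hi : i < L) (hj : j < L) (hij : i ≠ j) (hc : c < 3 ^ L)
    (h1 : 1 ≤ dg c i) (h2 : dg c j ≤ 1) :
    c - 3 ^ i + 3 ^ j < 3 ^ L ∧ dsC L (c - 3 ^ i + 3 ^ j) = dsC L c ∧
      c + 3 ^ j - 3 ^ i = c - 3 ^ i + 3 ^ j := by
  obtain ⟨a1, a2, a3⟩ := dn_sec i L c hi hc h1
  obtain ⟨b1, b2, -⟩ := up_sec j L _ hj a1 (by rw [a3 j hij.symm]; exact h2)
  have := le_of_dg h1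
  exact ⟨b1, by omega, Nat.sub_add_comm this⟩

theorem Yc_congr {R : Type} [CommSemiring R] {L c : ℕ} (hL : 2 ≤ L) (hc : c < 3 ^ L)
    {x y x' y' : ℕ → R} (hx : ∀ u, u < 3 ^ L → dsC L u = dsC L c → x u = x' u)
    (hy : ∀ u, u < 3 ^ L → dsC L u = dsC L c → y u = y' u) : Yc L x y c = Yc L x' y' c := by
  unfold Yc
  rw [hx c hc rfl]
  congr 1
  · congr 1
    refine sum_congr rfl fun j hj => ?_
    have hj' := mem_range.1 hj
    congr 1
    · refine if_ctx_congr Iff.rfl (fun h => ?_) fun _ => rfl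
      obtain ⟨a, b, -⟩ := hop_sec (i := j) (j := j + 1) (by omega) (by omega) (by omega) hc h.1 h.2
      exact hx _ a b
    · refine if_ctx_congr Iff.rfl (fun h => ?_) fun _ => rfl
      obtain ⟨a, b, e⟩ := hop_sec (i := j + 1) (j := j) (by omega) (by omega) (by omega) hc h.2 h.1
      rw [e]
      exact hx _ a b
  · congr 1
    · refine if_ctx_congr Iff.rfl (fun h => ?_) fun _ => rfl
      obtain ⟨a, b, -⟩ := hop_sec (i := 0) (j := L - 1) (by omega) (by omega) (by omega) hc h.1 h.2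
      exact hy _ a b
    · refine if_ctx_congr Iff.rfl (fun h => ?_) fun _ => rfl
      obtain ⟨a, b, e⟩ := hop_sec (i := L - 1) (j := 0) (by omega) (by omega) (by omega) hc h.2 h.1
      rw [pow_zero] at a b e
      rw [e]
      exact hy _ a b

theorem Yc_map {R S : Type} [CommSemiring R] [CommSemiring S] (φ : R →+* S) (L : ℕ) (x y : ℕ → R)
    (c : ℕ) : φ (Yc L x y c) = Yc L (fun u => φ (x u)) (fun u => φ (y u)) c := by
  unfold Yc
  simp only [map_add, map_mul, map_natCast, map_sum, apply_ite φ, map_zero]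

theorem bond_le {a b : ℕ} (ha : a < 3) (hb : b < 3) {z u v M : ℤ} (hz : |z| ≤ M) (hu : |u| ≤ M)
    (hv : |v| ≤ M) :
    |(tt a b : ℤ) * z + ((if 1 ≤ a ∧ b ≤ 1 then u else 0) + (if a ≤ 1 ∧ 1 ≤ b then v else 0))| ≤ 3 * M := by
  rw [abs_le] at *
  interval_cases a <;> interval_cases b <;> constructor <;> simp [tt] <;> linarith

theorem Yc_abs {L : ℕ} (hL : 1 ≤ L) (c : ℕ) {x y : ℕ → ℤ} {M : ℤ} (hx : ∀ u, |x u| ≤ M)
    (hy : ∀ u, |y u| ≤ M) : |Yc L x y c| ≤ 3 * L * M := by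
  have e : Yc L x y c = ∑ j ∈ range (L - 1), ((tt (dg c j) (dg c (j + 1)) : ℤ) * x c +
      ((if 1 ≤ dg c j ∧ dg c (j + 1) ≤ 1 then x (c - 3 ^ j + 3 ^ (j + 1)) else 0)
      + (if dg c j ≤ 1 ∧ 1 ≤ dg c (j + 1) then x (c + 3 ^ j - 3 ^ (j + 1)) else 0))) +
      ((tt (dg c (L - 1)) (dg c 0) : ℤ) * x c +
      ((if 1 ≤ dg c (L - 1) ∧ dg c 0 ≤ 1 then y (c + 1 - 3 ^ (L - 1)) else 0) +
        (if dg c (L - 1) ≤ 1 ∧ 1 ≤ dg c 0 then y (c - 1 + 3 ^ (L - 1)) else 0))) := by
    unfold Yc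
    rw [sum_add_distrib (f := fun j => (tt (dg c j) (dg c (j + 1)) : ℤ) * x c), ← sum_mul]
    simp only [and_comm (a := dg c (L - 1) ≤ 1), and_comm (a := 1 ≤ dg c (L - 1))]
    push_cast
    ring
  rw [e]
  refine (abs_add_le _ _).trans ?_
  have h1 := (abs_sum_le_sum_abs _ _).trans (sum_le_sum (s := range (L - 1)) fun j _ =>
    bond_le (dgk_lt c j) (dgk_lt c (j + 1)) (hx c) (hx (c - 3 ^ j + 3 ^ (j + 1)))
      (hx (c + 3 ^ j - 3 ^ (j + 1))))
  have h2 := bond_le (dgk_lt c (L - 1)) (dgk_lt c 0) (hx c) (hy (c + 1 - 3 ^ (L - 1)))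
    (hy (c - 1 + 3 ^ (L - 1)))
  rw [sum_const, card_range, nsmul_eq_mul, Nat.cast_sub hL] at h1
  push_cast at h1
  linarith


/-! ### the packed iteration -/

noncomputable def init (p W : Nat) (cols : List (Nat × Nat)) : Nat → Tr :=
  List.rec (motive := fun _ => Nat → Tr) (fun _ => Tr.nil)
    (fun x _ r j => ins p (r (Nat.succ j)) x.1 (Nat.pow 2 (Nat.mul W j))) cols
noncomputable def offs (W n : Nat) : Nat :=
  Nat.rec (motive := fun _ => Nat) 0
    (fun j r => Nat.add r (Nat.mul (Nat.pow 2 (Nat.mul W j)) (Nat.pow 2 (Nat.sub W 1)))) n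
noncomputable def extr (p W off : Nat) (f : Nat → Nat) (t : Tr) (cols : List (Nat × Nat)) : Nat → Int :=
  List.rec (motive := fun _ => Nat → Int) (fun _ => 0)
    (fun x _ r j => Int.add (Int.mul (Int.ofNat x.2) (Int.subNatNat
      (Nat.mod (Nat.shiftRight (Nat.add (val p t (f x.1)) off) (Nat.mul W j)) (Nat.pow 2 W))
      (Nat.pow 2 (Nat.sub W 1)))) (r (Nat.succ j))) cols
noncomputable def tlZ (l : List Int) : List Int :=
  List.rec (motive := fun _ => List Int) [] (fun _ r _ => r) l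
noncomputable def chk (q s W off : Nat) (sg : Bool) (cols : List (Nat × Nat)) (rP : List Int) :
    List Int → Nat → Tr → Bool :=
  List.rec (motive := fun _ => List Int → Nat → Tr → Bool) (fun _ _ _ => true)
    (fun z _ r rF M x =>
      Bool.rec (motive := fun _ => Bool) false (Bool.rec (motive := fun _ => Bool) false
        (r (tlZ rF) (Nat.mul (Nat.mul 3 (Nat.add q 6)) M)
          (half q s x (Bool.rec (motive := fun _ => Tr) x (neg M x) sg)))
        (List.rec (motive := fun _ => Bool) true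
          (fun w _ _ => decide (extr (Nat.succ q) W off (flipC (Nat.add q 6)) x cols 0 = w)) rF))
        (decide (extr (Nat.succ q) W off (fun c => c) x cols 0 = z))) rP
/-- `L = q + 6`, sector `s`, sign `-1` on the last bond iff `sg` -/
noncomputable def run (q s W : Nat) (sg : Bool) (cols : List (Nat × Nat)) (rP rF : List Int) : Bool :=
  (cols.all fun x => Nat.ble (Nat.succ x.1) (Nat.pow 3 (Nat.add q 6)) && Nat.beq (dsC (Nat.add q 6) x.1) s) &&
  Nat.ble 1 W && Nat.ble rF.length rP.length && (rF.isEmpty || Nat.beq s (Nat.add q 6)) &&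
  Nat.ble (Nat.succ (Nat.pow (Nat.mul 3 (Nat.add q 6)) (Nat.sub rP.length 1))) (Nat.pow 2 (Nat.sub W 1)) &&
  chk q s W (offs W cols.length) sg cols rP rF (Nat.pow 2 (Nat.mul W cols.length))
    (init (Nat.succ q) W cols 0)

/-- weighted sums of a family of functions over representatives -/
def Sec (f : ℕ → ℕ → ℤ) (cols : List (ℕ × ℕ)) (r : List ℤ) : Prop :=
  ∀ k, k < r.length → (cols.map fun x => (x.2 : ℤ) * f k x.1).sum = r.getD k 0

theorem digit (P : ℕ) (hP : 0 < P) (j : ℕ) : ∀ (n T : ℕ) (b : ℕ → ℕ), (∀ i, b i < P) → j < n →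
    T ≡ ∑ i ∈ range n, P ^ i * b i [MOD P ^ n] → T / P ^ j % P = b j := by
  induction j with
  | zero =>
    intro n T b hb hj h
    obtain ⟨n, rfl⟩ : ∃ m, n = m + 1 := ⟨n - 1, by omega⟩
    have h1 := h.of_dvd (dvd_pow_self P n.succ_ne_zero)
    rw [sum_range_succ', pow_zero, one_mul] at h1
    simp only [pow_succ', mul_assoc, ← mul_sum] at h1
    rw [pow_zero, Nat.div_one, show T % P = _ from h1, Nat.mul_add_mod, Nat.mod_eq_of_lt (hb 0)]
  | succ j ih =>
    intro n T b hb hj h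
    obtain ⟨n, rfl⟩ : ∃ m, n = m + 1 := ⟨n - 1, by omega⟩
    rw [pow_succ', ← Nat.div_div_eq_div_mul]
    refine ih n (T / P) (fun i => b (i + 1)) (fun i => hb _) (by omega) ?_
    rw [sum_range_succ', pow_zero, one_mul] at h
    simp only [pow_succ', mul_assoc, ← mul_sum] at h
    have h2 : T % (P * P ^ n) / P = (P * ∑ i ∈ range n, P ^ i * b (i + 1) + b 0) % (P * P ^ n) / P :=
      congrArg (· / P) h
    rw [Nat.mod_mul_right_div_self, Nat.mod_mul_right_div_self, Nat.mul_add_div hP,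
      Nat.div_eq_of_lt (hb 0), add_zero] at h2
    exact h2

theorem offs_eq (W n : ℕ) : offs W n = ∑ i ∈ range n, (2 ^ W) ^ i * 2 ^ (W - 1) := by
  induction n with
  | zero => rfl
  | succ n ih => rw [sum_range_succ, ← ih, ← pow_mul]; rfl

theorem init_val (p W c : ℕ) (hc : c < 3 ^ (p + 5)) (cols : List (ℕ × ℕ))
    (h : ∀ x ∈ cols, x.1 < 3 ^ (p + 5) ∧ dsC (p + 5) x.1 = dsC (p + 5) c) (j : ℕ) :
    val p (init p W cols j) c =
      ∑ i ∈ range cols.length, if c = (cols.getD i (0, 0)).1 then (2 ^ W) ^ (j + i) else 0 := by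
  induction cols generalizing j with
  | nil => exact val_nil _ _
  | cons x l ih =>
    have hx := h x List.mem_cons_self
    show val p (ins p (init p W l (j + 1)) x.1 (2 ^ (W * j))) c = _
    rw [ins_val p _ _ _ _ hx.1 hc hx.2.symm, ih (fun y hy => h y (List.mem_cons_of_mem _ hy)),
      List.length_cons, sum_range_succ', pow_mul]
    simp only [List.getD_cons_succ, List.getD_cons_zero, add_zero, add_assoc, add_comm 1]

theorem extr_eq (p W off : ℕ) (f : ℕ → ℕ) (t : Tr) (g : ℕ → ℤ) (cols : List (ℕ × ℕ)) (j : ℕ)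
    (h : ∀ i, i < cols.length → (((val p t (f (cols.getD i (0, 0)).1) + off) / (2 ^ W) ^ (j + i) % 2 ^ W : ℕ) : ℤ)
      = g (cols.getD i (0, 0)).1 + 2 ^ (W - 1)) :
    extr p W off f t cols j = (cols.map fun x => (x.2 : ℤ) * g x.1).sum := by
  induction cols generalizing j with
  | nil => rfl
  | cons x l ih =>
    have h0 := h 0 (by simp)
    rw [List.getD_cons_zero, add_zero, ← pow_mul] at h0
    show (x.2 : ℤ) * Int.subNatNat ((val p t (f x.1) + off) >>> (W * j) % 2 ^ W) (2 ^ (W - 1)) +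
      extr p W off f t l (j + 1) = _
    rw [ih (j + 1) fun i hi => by
      have := h (i + 1) (by simpa using hi)
      rwa [List.getD_cons_succ, show j + (i + 1) = j + 1 + i by ring] at this,
      Int.subNatNat_eq_coe, Nat.shiftRight_eq_div_pow, h0]
    simp

theorem yB_pow_abs (L : ℕ) (hL : 2 ≤ L) (e : ℤ) (he : e * e = 1) (k : ℕ) (s t : Cfg L) :
    |((yB L e : MC L ℤ) ^ k) s t| ≤ (3 * L : ℤ) ^ k := by
  induction k generalizing s with
  | zero =>
    rw [pow_zero, pow_zero, Matrix.one_apply]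
    split_ifs <;> simp
  | succ k ih =>
    have h1 := yB_mulVec L hL e (fun u => ((yB L e : MC L ℤ) ^ k) u t) (enc s) (enc_lt s)
    rw [dec_enc] at h1
    have he' : |e| = 1 := by
      rcases Int.eq_one_or_neg_one_of_mul_eq_one he with h | h <;> simp [h]
    rw [pow_succ', pow_succ', Matrix.mul_apply]
    refine le_of_eq_of_le (congrArg abs h1) (Yc_abs (by omega) _ (fun u => ih _) fun u => ?_)
    rw [abs_mul, he', one_mul]
    exact ih _

/-- the packed exact vector -/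
def pk (L W : ℕ) (e : ℤ) (cols : List (ℕ × ℕ)) (k : ℕ) (s : Cfg L) : ℤ :=
  ∑ i ∈ range cols.length, (2 ^ W) ^ i * ((yB L e : MC L ℤ) ^ k) s (dec L (cols.getD i (0, 0)).1)

theorem pk_succ (L W : ℕ) (e : ℤ) (cols : List (ℕ × ℕ)) (k : ℕ) :
    pk L W e cols (k + 1) = yB L e *ᵥ pk L W e cols k := by
  funext s
  simp only [pk, Matrix.mulVec, dotProduct, pow_succ' (yB L e : MC L ℤ), Matrix.mul_apply, mul_sum]
  rw [sum_comm]
  exact sum_congr rfl fun _ _ => sum_congr rfl fun _ _ => by ring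

/-- loop invariant -/
def LInv (q s W : ℕ) (e : ℤ) (cols : List (ℕ × ℕ)) (k M : ℕ) (x : Tr) : Prop :=
  (2 ^ W) ^ cols.length ∣ M ∧ ∀ u, u < 3 ^ (q + 6) → dsC (q + 6) u = s → val (q + 1) x u ≤ M ∧
    ((val (q + 1) x u : ℕ) : ZMod ((2 ^ W) ^ cols.length)) =
      ((pk (q + 6) W e cols k (dec (q + 6) u) : ℤ) : ZMod ((2 ^ W) ^ cols.length))

theorem LInv.step {q s W : ℕ} {cols : List (ℕ × ℕ)} {k M : ℕ} {x : Tr} (sg : Bool)
    (h : LInv q s W (if sg then -1 else 1) cols k M x) :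
    LInv q s W (if sg then -1 else 1) cols (k + 1) (3 * (q + 6) * M)
      (half q s x (Bool.rec (motive := fun _ => Tr) x (neg M x) sg)) := by
  refine ⟨h.1.mul_left _, fun c hc hs => ?_⟩
  have hy : ∀ u, u < 3 ^ (q + 6) → dsC (q + 6) u = s →
      val (q + 1) (Bool.rec (motive := fun _ => Tr) x (neg M x) sg) u ≤ M ∧
      ((val (q + 1) (Bool.rec (motive := fun _ => Tr) x (neg M x) sg) u : ℕ) :
        ZMod ((2 ^ W) ^ cols.length)) = (((if sg then -1 else 1) *
        pk (q + 6) W (if sg then -1 else 1) cols k (dec (q + 6) u) : ℤ) : ZMod ((2 ^ W) ^ cols.length)) := by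
    intro u hu hus
    obtain ⟨h1, h2⟩ := h.2 u hu hus
    cases sg with
    | false => exact ⟨h1, by simpa using h2⟩
    | true =>
      show val (q + 1) (neg M x) u ≤ M ∧ ((val (q + 1) (neg M x) u : ℕ) : ZMod ((2 ^ W) ^ cols.length)) = _
      simp only [if_true, Int.cast_mul, Int.cast_neg, Int.cast_one] at h2 ⊢
      rw [← h2]
      rcases neg_val M (q + 1) x u hu with h3 | ⟨h3, h4⟩
      · rw [h3, Nat.cast_sub h1, (ZMod.natCast_eq_zero_iff _ _).2 h.1]
        exact ⟨Nat.sub_le _ _, by ring⟩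
      · rw [h3, h4]
        exact ⟨Nat.zero_le _, by simp⟩
  rw [half_val q s _ _ c hc hs]
  constructor
  · rw [Yc_congr (x' := fun u => min (val (q + 1) x u) M)
      (y' := fun u => min (val (q + 1) (Bool.rec (motive := fun _ => Tr) x (neg M x) sg) u) M)
      (by omega) hc (fun u hu hus => (min_eq_left (h.2 u hu (hus.trans hs)).1).symm)
      (fun u hu hus => (min_eq_left (hy u hu (hus.trans hs)).1).symm)]
    have h1 := Yc_abs (L := q + 6) (by omega) c (M := (M : ℤ))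
      (x := fun u => ((min (val (q + 1) x u) M : ℕ) : ℤ))
      (y := fun u => ((min (val (q + 1) (Bool.rec (motive := fun _ => Tr) x (neg M x) sg) u) M : ℕ) : ℤ))
      (fun u => by rw [Nat.abs_cast]; exact_mod_cast min_le_right _ _)
      (fun u => by rw [Nat.abs_cast]; exact_mod_cast min_le_right _ _)
    have h2 := Yc_map (Nat.castRingHom ℤ) (q + 6) (fun u => min (val (q + 1) x u) M)
      (fun u => min (val (q + 1) (Bool.rec (motive := fun _ => Tr) x (neg M x) sg) u) M) c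
    simp only [Nat.coe_castRingHom] at h2
    rw [← h2, Nat.abs_cast] at h1
    exact_mod_cast h1
  · have h2 := Yc_map (Nat.castRingHom (ZMod ((2 ^ W) ^ cols.length))) (q + 6) (val (q + 1) x)
      (val (q + 1) (Bool.rec (motive := fun _ => Tr) x (neg M x) sg)) c
    simp only [Nat.coe_castRingHom] at h2
    rw [h2, pk_succ, yB_mulVec _ (by omega) _ _ c hc]
    have h3 := Yc_map (Int.castRingHom (ZMod ((2 ^ W) ^ cols.length))) (q + 6)
      (fun u => pk (q + 6) W (if sg then -1 else 1) cols k (dec (q + 6) u))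
      (fun u => (if sg then -1 else 1) * pk (q + 6) W (if sg then -1 else 1) cols k (dec (q + 6) u)) c
    simp only [Int.coe_castRingHom] at h3
    rw [h3]
    exact Yc_congr (by omega) hc (fun u hu hus => (h.2 u hu (hus.trans hs)).2)
      (fun u hu hus => (hy u hu (hus.trans hs)).2)

theorem LInv.get {q s W : ℕ} {e : ℤ} (he : e * e = 1) {cols : List (ℕ × ℕ)} {k M : ℕ} {x : Tr}
    (h : LInv q s W e cols k M x) (hW : 1 ≤ W) (hk : (3 * (q + 6)) ^ k < 2 ^ (W - 1)) {u : ℕ}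
    (hu : u < 3 ^ (q + 6)) (hs : dsC (q + 6) u = s) {i : ℕ} (hi : i < cols.length) :
    (((val (q + 1) x u + offs W cols.length) / (2 ^ W) ^ (0 + i) % 2 ^ W : ℕ) : ℤ) =
      ((yB (q + 6) e : MC (q + 6) ℤ) ^ k) (dec (q + 6) u) (dec (q + 6) (cols.getD i (0, 0)).1) +
        2 ^ (W - 1) := by
  set a : ℕ → ℤ := fun i => ((yB (q + 6) e : MC (q + 6) ℤ) ^ k) (dec (q + 6) u)
    (dec (q + 6) (cols.getD i (0, 0)).1) with ha
  have hk' : ((3 : ℤ) * (q + 6 : ℕ)) ^ k < 2 ^ (W - 1) := by exact_mod_cast hk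
  have hb : ∀ i, |a i| < 2 ^ (W - 1) := fun i =>
    (yB_pow_abs (q + 6) (by omega) e he k _ _).trans_lt hk'
  have hc : ∀ i, (((a i + 2 ^ (W - 1)).toNat : ℕ) : ℤ) = a i + 2 ^ (W - 1) := fun i =>
    Int.toNat_of_nonneg (by have := abs_lt.1 (hb i); linarith)
  have h2W : (2 : ℤ) ^ W = 2 * 2 ^ (W - 1) := by
    rw [← pow_succ', Nat.sub_add_cancel hW]
  refine (congrArg Nat.cast ((congrArg (fun j => _ / (2 ^ W) ^ j % 2 ^ W) (zero_add i)).trans
    (digit (2 ^ W) (by positivity) i cols.length _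
    (fun i => (a i + 2 ^ (W - 1)).toNat) (fun i => ?_) hi ?_))).trans (hc i)
  · have := abs_lt.1 (hb i)
    have h3 : (((a i + 2 ^ (W - 1)).toNat : ℕ) : ℤ) < 2 ^ W := by rw [hc, h2W]; linarith
    exact_mod_cast h3
  · rw [← ZMod.natCast_eq_natCast_iff, Nat.cast_add, (h.2 u hu hs).2, offs_eq, pk]
    push_cast
    rw [← sum_add_distrib]
    refine sum_congr rfl fun i _ => ?_
    rw [← Int.cast_natCast (a i + 2 ^ (W - 1)).toNat, hc]
    push_cast
    ring

theorem chk_sound (q s W : ℕ) (sg : Bool) (cols : List (ℕ × ℕ)) (hW : 1 ≤ W)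
    (hcols : ∀ x ∈ cols, x.1 < 3 ^ (q + 6) ∧ dsC (q + 6) x.1 = s) (n : ℕ)
    (hn : (3 * (q + 6)) ^ (n - 1) < 2 ^ (W - 1)) (rP : List ℤ) :
    ∀ (rF : List ℤ) (k M : ℕ) (x : Tr), k + rP.length ≤ n →
      LInv q s W (if sg then -1 else 1) cols k M x →
      chk q s W (offs W cols.length) sg cols rP rF M x = true → ∀ i, i < rP.length →
      (cols.map fun c => (c.2 : ℤ) * dgP (q + 6) (if sg then -1 else 1) (k + i) c.1).sum = rP.getD i 0 ∧
      (s = q + 6 → i < rF.length →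
        (cols.map fun c => (c.2 : ℤ) * dgF (q + 6) (if sg then -1 else 1) (k + i) c.1).sum =
          rF.getD i 0) := by
  have he : (if sg then -1 else 1 : ℤ) * (if sg then -1 else 1) = 1 := by cases sg <;> simp
  have hmem : ∀ i, i < cols.length → cols.getD i (0, 0) ∈ cols := fun i hi => by
    rw [List.getD_eq_getElem _ _ hi]; exact List.getElem_mem hi
  induction rP with
  | nil => intro _ _ _ _ _ _ _ i hi; exact absurd hi (Nat.not_lt_zero _)
  | cons z l ih =>
    intro rF k M x hk hI h i hi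
    rw [List.length_cons] at hk hi
    have h' : (decide (extr (q + 1) W (offs W cols.length) (fun c => c) x cols 0 = z) &&
        ((List.rec (motive := fun _ => Bool) true (fun w _ _ =>
          decide (extr (q + 1) W (offs W cols.length) (flipC (q + 6)) x cols 0 = w)) rF) &&
        chk q s W (offs W cols.length) sg cols l (tlZ rF) (3 * (q + 6) * M)
          (half q s x (Bool.rec (motive := fun _ => Tr) x (neg M x) sg)))) = true := by
      refine Eq.trans ?_ h
      show _ = Bool.rec (motive := fun _ => Bool) false (Bool.rec (motive := fun _ => Bool) false _ _) _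
      generalize decide (extr (q + 1) W (offs W cols.length) (fun c => c) x cols 0 = z) = b1
      generalize (List.rec (motive := fun _ => Bool) true (fun w _ _ =>
          decide (extr (q + 1) W (offs W cols.length) (flipC (q + 6)) x cols 0 = w)) rF) = b2
      cases b1 <;> cases b2 <;> rfl
    simp only [Bool.and_eq_true, decide_eq_true_eq] at h'
    obtain ⟨h1, h2, h3⟩ := h'
    have hk' : (3 * (q + 6)) ^ k < 2 ^ (W - 1) :=
      (Nat.pow_le_pow_right (by omega) (by omega)).trans_lt hn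
    rcases i with _ | i
    · refine ⟨?_, fun hs hF => ?_⟩
      · rw [List.getD_cons_zero, ← h1]
        exact (extr_eq _ _ _ _ _ (dgP (q + 6) _ k) _ _ fun i hi =>
          hI.get he hW hk' (hcols _ (hmem i hi)).1 (hcols _ (hmem i hi)).2 hi).symm
      · obtain _ | ⟨w, rF⟩ := rF
        · exact absurd hF (Nat.not_lt_zero _)
        have h4 : extr (q + 1) W (offs W cols.length) (flipC (q + 6)) x cols 0 = w :=
          of_decide_eq_true h2
        rw [List.getD_cons_zero, ← h4]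
        refine (extr_eq _ _ _ _ _ (dgF (q + 6) _ k) _ _ fun i hi => ?_).symm
        have hc := hcols _ (hmem i hi)
        have h5 := (inv_flip (L := q + 6) (by omega) hc.1 1 0).2.2
        rw [hI.get he hW hk' (flipC_lt _ _) (by omega) hi, dgF, flp_dec hc.1]
    · have h4 := ih (tlZ rF) (k + 1) _ _ (by omega) (hI.step sg) h3 i (by omega)
      rw [show k + (i + 1) = k + 1 + i by ring, List.getD_cons_succ]
      refine ⟨h4.1, fun hs hF => ?_⟩
      obtain _ | ⟨w, rF⟩ := rF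
      · exact absurd hF (Nat.not_lt_zero _)
      rw [List.getD_cons_succ]
      exact h4.2 hs (Nat.lt_of_succ_lt_succ hF)

theorem run_sound {q s W : ℕ} {sg : Bool} {cols : List (ℕ × ℕ)} {rP rF : List ℤ}
    (h : run q s W sg cols rP rF = true) :
    Sec (dgP (q + 6) (if sg then -1 else 1)) cols rP ∧ Sec (dgF (q + 6) (if sg then -1 else 1)) cols rF := by
  unfold run at h
  simp only [Bool.and_eq_true, List.all_eq_true, Nat.ble_eq, Nat.beq_eq, Bool.or_eq_true,
    List.isEmpty_iff] at h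
  obtain ⟨⟨⟨⟨⟨h1, h2⟩, h3⟩, h4⟩, h5⟩, h6⟩ := h
  have hcols : ∀ x ∈ cols, x.1 < 3 ^ (q + 6) ∧ dsC (q + 6) x.1 = s := fun x hx => h1 x hx
  have hI : LInv q s W (if sg then -1 else 1) cols 0 (2 ^ (W * cols.length)) (init (q + 1) W cols 0) := by
    refine ⟨by rw [pow_mul], fun u hu hs => ?_⟩
    rw [init_val (q + 1) W u hu cols fun x hx => ⟨(hcols x hx).1, (hcols x hx).2.trans hs.symm⟩]
    constructor
    · rw [pow_mul]
      have h7 : ∀ n, ∑ i ∈ range n, (2 ^ W) ^ i ≤ (2 ^ W) ^ n := fun n =>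
        (Nat.geomSum_lt (Nat.one_lt_two_pow (by omega)) fun k hk => mem_range.1 hk).le
      refine le_trans (sum_le_sum fun i _ => ?_) (h7 _)
      rw [zero_add]
      split_ifs <;> simp
    · rw [← Int.cast_natCast, pk]
      congr 1
      push_cast
      refine sum_congr rfl fun i hi => ?_
      have hc := (hcols _ (by
        rw [List.getD_eq_getElem _ (0, 0) (mem_range.1 hi)]
        exact List.getElem_mem (mem_range.1 hi) : cols.getD i (0, 0) ∈ cols)).1
      rw [pow_zero, Matrix.one_apply, zero_add, mul_ite, mul_one, mul_zero]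
      refine if_congr ⟨fun h => by rw [h], fun h => ?_⟩ rfl rfl
      rw [← enc_dec hu, h, enc_dec hc]
  have h8 := chk_sound q s W sg cols h2 hcols rP.length h5 rP rF 0 _ _ (by omega) hI h6
  refine ⟨fun k hk => by simpa using (h8 k hk).1, fun k hk => ?_⟩
  rcases h4 with rfl | h4
  · exact absurd hk (Nat.not_lt_zero _)
  simpa using (h8 k (by omega)).2 h4 hk

end Vale.Agent.P348
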