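import Vale.Agent.P348.Basis
import Vale.Agent.P348.Code
import Vale.Agent.P348.Gauss
import Vale.Agent.P348.Sym

/-! From magnetisation sector moments to the partition functions at `b = 8`.
`sect_rep`, `sect_repF`: let `y = yB L (e : ℝ)` (`yB_map`), `Q s := A (dist (ds s) L)`, invariant by `yB_ds`;
`sector_trace` restricts to the subtype; `P = (L • 1 + y).submatrix ..` is positive semidefinite (`yB_psd`,
`PosSemidef.submatrix`), `y_Q = (-L) • 1 + 1 • P`, so `rep_real` gives `η i = -L + eigenvalue i`. For the flip use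
`G = (tens fun _ => J)` restricted to `Q` (`J` the antidiagonal matrix, `G t s = 1` iff `t = flp s`; note
`(y ^ k * G) s s = (y ^ k) s (flp s) = (y ^ k) (flp s) s` by symmetry of `y`); `1 ± G_Q` is positive semidefinite since
`G_Q` is a symmetric involution, `(1 ± G)ᵀ (1 ± G) = 2 (1 ± G)`.
`Zf_exY`: `tau_eq` and `rep_real` for the full `y` give `Zf g h 8 L = ∑ w i exp (-8 (L - η i)) =
exp (-16 L) * exp (8 L) * ex (fun k => trace (y ^ k * G)) 8`; then `trace (y ^ k * G)` is a signed sum of sector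
moments (`tens_diagonal` for `g = 3`: the sign is `(-1) ^ dist (ds s) L`; `pow_apply_eq_zero` with `yB_ds` for `g = 1`), and the
series are summable by `sect_rep` and `hasSum_ex`. -/

namespace Vale.Agent.P348

open Matrix

def A0 (m : ℕ) : Bool := m == 0
def A1 (m : ℕ) : Bool := m == 1
def Ae (m : ℕ) : Bool := decide (2 ≤ m) && m % 2 == 0
def Ao (m : ℕ) : Bool := decide (2 ≤ m) && m % 2 == 1
def A2 (m : ℕ) : Bool := decide (2 ≤ m)

namespace SectAux

theorem cast_pow_apply (L : ℕ) (e : ℤ) (k : ℕ) (s t : Cfg L) :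
    ((((yB L e : MC L ℤ) ^ k) s t : ℤ) : ℝ) = ((yB L (e : ℝ) : MC L ℝ) ^ k) s t := by
  have h := map_pow (Int.castRingHom ℝ).mapMatrix (yB L e : MC L ℤ) k
  rw [RingHom.mapMatrix_apply, RingHom.mapMatrix_apply, yB_map] at h
  rw [← h]
  rfl

theorem cast_sq {e : ℤ} (he : e * e = 1) : (e : ℝ) ^ 2 = 1 := by
  rw [sq]; exact_mod_cast he

theorem yB_herm (L : ℕ) (hL : 2 ≤ L) (e : ℝ) (he : e ^ 2 = 1) : (yB L e : MC L ℝ).IsHermitian := by
  have h1 := (yB_psd L hL e he).isHermitian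
  have h2 : ((L : ℝ) • (1 : MC L ℝ)).IsHermitian := by
    unfold Matrix.IsHermitian
    simp
  have h3 := h1.sub h2
  rwa [add_sub_cancel_left] at h3

theorem yB_pow_symm (L : ℕ) (hL : 2 ≤ L) (e : ℝ) (he : e ^ 2 = 1) (k : ℕ) (s t : Cfg L) :
    ((yB L e : MC L ℝ) ^ k) s t = ((yB L e : MC L ℝ) ^ k) t s := by
  have h := ((yB_herm L hL e he).pow k).apply s t
  rw [← h]
  rfl

/-- spectral representation inside an invariant sector -/
theorem sect_gen (L : ℕ) (hL : 2 ≤ L) (e : ℝ) (he : e ^ 2 = 1) (Q : Cfg L → Prop) [DecidablePred Q]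
    (hQ : ∀ s t, ds s = ds t → (Q s ↔ Q t)) :
    ∃ (η : {s // Q s} → ℝ) (w : MC L ℝ →ₗ[ℝ] ({s // Q s} → ℝ)), (∀ i, 0 ≤ η i + L) ∧
      (∀ i, w 1 i = 1) ∧ (∀ G : MC L ℝ, G.PosSemidef → ∀ i, 0 ≤ w G i) ∧
      ∀ (G : MC L ℝ) (k : ℕ), (∑ s, if Q s then ((yB L e : MC L ℝ) ^ k * G) s s else 0) =
        ∑ i, w G i * η i ^ k := by
  have hP := (yB_psd L hL e he).submatrix (Subtype.val : {s // Q s} → Cfg L)
  obtain ⟨w, hw1, hw2, hw3⟩ := rep_real _ hP.isHermitian
  have hone : (1 : MC L ℝ).submatrix (Subtype.val : {s // Q s} → Cfg L) Subtype.val = 1 :=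
    Matrix.submatrix_one _ Subtype.val_injective
  let R : MC L ℝ →ₗ[ℝ] Matrix {s // Q s} {s // Q s} ℝ :=
    { toFun := fun G => G.submatrix Subtype.val Subtype.val
      map_add' := fun _ _ => rfl
      map_smul' := fun _ _ => rfl }
  refine ⟨fun i => -(L : ℝ) + 1 * hP.isHermitian.eigenvalues i, w ∘ₗ R, fun i => ?_, fun i => ?_,
    fun G hG i => hw2 _ (hG.submatrix _) i, fun G k => ?_⟩
  · have := hP.eigenvalues_nonneg i
    linarith
  · change w ((1 : MC L ℝ).submatrix Subtype.val Subtype.val) i = 1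
    rw [hone, hw1]
  · rw [sector_trace _ G Q (fun s t h => hQ s t (yB_ds L hL e s t h)) k]
    have h1 := hw3 (G.submatrix Subtype.val Subtype.val) (-(L : ℝ)) 1 k
    have h2 : (-(L : ℝ)) • (1 : Matrix {s // Q s} {s // Q s} ℝ) + (1 : ℝ) •
        ((L : ℝ) • (1 : MC L ℝ) + yB L e).submatrix Subtype.val Subtype.val =
        (yB L e : MC L ℝ).submatrix (Subtype.val : {s // Q s} → Cfg L) Subtype.val := by
      rw [← hone]
      ext i j
      simp
    rw [h2] at h1
    exact h1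

/-- the global flip -/
def Fl (L : ℕ) : MC L ℝ := fun t s => if t = flp s then 1 else 0

theorem flp_flp {L : ℕ} (s : Cfg L) : flp (flp s) = s := by
  funext i; simp [flp]

theorem mul_Fl {L : ℕ} (M : MC L ℝ) (s t : Cfg L) : (M * Fl L) s t = M s (flp t) := by
  simp [Matrix.mul_apply, Fl]

theorem Fl_transpose (L : ℕ) : (Fl L)ᴴ = Fl L := by
  ext s t
  simp only [conjTranspose_apply, Fl, star_trivial]
  by_cases h : t = flp s
  · rw [if_pos h, if_pos (by rw [h, flp_flp])]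
  · rw [if_neg h, if_neg (fun h' => h (by rw [h', flp_flp]))]

theorem Fl_mul_Fl (L : ℕ) : Fl L * Fl L = 1 := by
  ext s t
  rw [mul_Fl, Fl, flp_flp, Matrix.one_apply]

theorem psd_Fl (L : ℕ) (c : ℝ) (hc : c * c = 1) : ((1 : MC L ℝ) + c • Fl L).PosSemidef := by
  have h := (Matrix.posSemidef_conjTranspose_mul_self ((1 : MC L ℝ) + c • Fl L)).smul
    (show (0 : ℝ) ≤ 1 / 2 by norm_num)
  have e : (1 / 2 : ℝ) • (((1 : MC L ℝ) + c • Fl L)ᴴ * ((1 : MC L ℝ) + c • Fl L)) =
      (1 : MC L ℝ) + c • Fl L := by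
    rw [conjTranspose_add, conjTranspose_one, conjTranspose_smul, Fl_transpose, star_trivial,
      add_mul, mul_add, mul_add, one_mul, one_mul, mul_one, smul_mul_assoc, mul_smul_comm,
      Fl_mul_Fl, smul_smul, hc]
    module
  rwa [e] at h

theorem ds_flp {L : ℕ} (s : Cfg L) : ds (flp s) + ds s = 2 * L := by
  unfold ds flp
  rw [← Finset.sum_add_distrib]
  have : ∀ i, ((s i).rev : ℕ) + (s i : ℕ) = 2 := fun i => by
    have := (s i).2
    rw [Fin.val_rev]; omega
  simp only [this]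
  simp [mul_comm]

theorem A0_dist (a L : ℕ) : A0 (Nat.dist a L) = true ↔ a = L := by
  unfold A0 Nat.dist
  rw [beq_iff_eq]
  omega

theorem mom_cast (L : ℕ) (e : ℤ) (A : ℕ → Bool) (k : ℕ) : (mom L e A k : ℝ) =
    ∑ s : Cfg L, if A (Nat.dist (ds s) L) then ((yB L (e : ℝ) : MC L ℝ) ^ k) s s else 0 := by
  unfold mom
  push_cast
  refine Finset.sum_congr rfl fun s _ => ?_
  rw [cast_pow_apply]

theorem momF_cast (L : ℕ) (e : ℤ) (k : ℕ) : (momF L e k : ℝ) =
    ∑ s : Cfg L, if ds s = L then ((yB L (e : ℝ) : MC L ℝ) ^ k) (flp s) s else 0 := by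
  unfold momF
  push_cast
  refine Finset.sum_congr rfl fun s _ => ?_
  rw [cast_pow_apply]

theorem exY_rep {κ : Type} [Fintype κ] (L : ℕ) (t : ℕ → ℤ) (c η : κ → ℝ)
    (h : ∀ k, (t k : ℝ) = ∑ i, c i * η i ^ k) :
    exY L t = ∑ i, c i * Real.exp (8 * (η i + L)) := by
  unfold exY
  rw [ex_rep _ c η h, Finset.mul_sum]
  refine Finset.sum_congr rfl fun i _ => ?_
  rw [mul_add, Real.exp_add]
  ring

theorem tens_gS0 (L : ℕ) : (tens fun _ : Fin L => (gS 0 : M3 ℝ)) = 1 := by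
  have : (gS 0 : M3 ℝ) = 1 := by simp [gS]
  rw [this, tens_one]

theorem tens_gS3 (L : ℕ) : (tens fun _ : Fin L => (gS 3 : M3 ℝ)) =
    diagonal fun s : Cfg L => (-1 : ℝ) ^ (ds s + L) := by
  have : (gS 3 : M3 ℝ) = diagonal fun a : Fin 3 => (-1 : ℝ) ^ (a.val + 1) := by
    have h1 : (gS 3 : M3 ℝ) = !![-1, 0, 0; 0, 1, 0; 0, 0, -1] := by
      unfold gS
      rw [if_neg (by decide), if_pos rfl]
    rw [h1]
    ext a b
    fin_cases a <;> fin_cases b <;> simp <;> norm_num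
  rw [this, tens_diagonal (fun _ a => (-1 : ℝ) ^ (a.val + 1))]
  congr 1
  funext s
  rw [Finset.prod_pow_eq_pow_sum, Finset.sum_add_distrib]
  simp [ds]

theorem tens_gS1 (L : ℕ) : (tens fun _ : Fin L => (gS 1 : M3 ℝ)) = (-1 : ℝ) ^ L • Fl L := by
  have : (gS 1 : M3 ℝ) = (-1 : ℝ) • (Matrix.of fun a b : Fin 3 => if a = b.rev then (1 : ℝ) else 0) := by
    have h1 : (gS 1 : M3 ℝ) = !![0, 0, -1; 0, -1, 0; -1, 0, 0] := by
      unfold gS
      rw [if_neg (by decide), if_neg (by decide)]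
    rw [h1]
    ext a b
    fin_cases a <;> fin_cases b <;> simp
  rw [this, tens_smul (fun _ => (-1 : ℝ))]
  simp only [Finset.prod_const, Finset.card_univ, Fintype.card_fin]
  congr 1
  ext t s
  simp only [tens, Fl, Matrix.of_apply]
  by_cases h : t = flp s
  · rw [if_pos h, h]
    simp [flp]
  · obtain ⟨i, hi⟩ := Function.ne_iff.1 h
    rw [if_neg h]
    exact Finset.prod_eq_zero (Finset.mem_univ i) (if_neg hi)

theorem neg_one_dist (a L : ℕ) : (-1 : ℝ) ^ (a + L) = (-1) ^ Nat.dist a L := by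
  have h : (a + L) % 2 = Nat.dist a L % 2 := by unfold Nat.dist; omega
  rw [neg_one_pow_eq_pow_mod_two, h, ← neg_one_pow_eq_pow_mod_two]

theorem split4 (m : ℕ) (x : ℝ) :
    x = (if A0 m then x else 0) + (if A1 m then x else 0) + (if Ae m then x else 0) +
      (if Ao m then x else 0) ∧
    x * (-1) ^ m = (if A0 m then x else 0) - (if A1 m then x else 0) + (if Ae m then x else 0) -
      (if Ao m then x else 0) ∧
    (if A2 m then x else 0) = (if Ae m then x else 0) + (if Ao m then x else 0) := by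
  rw [neg_one_pow_eq_pow_mod_two]
  rcases m with _ | _ | m
  · simp [A0, A1, Ae, Ao, A2]
  · simp [A0, A1, Ae, Ao, A2]
  · rcases Nat.mod_two_eq_zero_or_one m with h | h <;>
      simp [A0, A1, Ae, Ao, A2, Nat.add_assoc, h]

theorem Zf_eq (L : ℕ) (hL : 2 ≤ L) (g h : Fin 4) (hg : g ≠ 2) (hh : h = 0 ∨ h = 3) (e : ℝ)
    (he : e = (if h = 0 then 1 else -1) * (-1) ^ L) (he2 : e ^ 2 = 1) :
    Zf g h 8 L * Real.exp (16 * L) = Real.exp (8 * L) *
      ex (fun k => trace ((yB L e : MC L ℝ) ^ k * tens fun _ => gS g)) 8 := by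
  obtain ⟨w, -, -, hw⟩ := rep_real _ (yB_herm L hL e he2)
  unfold Zf
  rw [ex_rep (tau g h L) _ _ (fun k => by rw [tau_eq g h hg hh L hL k, ← he, hw]),
    ex_rep (fun k => trace ((yB L e : MC L ℝ) ^ k * tens fun _ => gS g)) _ _ (fun k => by
      have := hw (tens fun _ => gS g) 0 1 k
      rw [zero_smul, zero_add, one_smul] at this
      exact this), Finset.sum_mul, Finset.mul_sum]
  refine Finset.sum_congr rfl fun i _ => ?_
  rw [mul_assoc, mul_left_comm (Real.exp (8 * L)), ← Real.exp_add, ← Real.exp_add]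
  congr 2
  ring

end SectAux

open SectAux

theorem sect_rep (L : ℕ) (hL : 2 ≤ L) (e : ℤ) (he : e * e = 1) (A : ℕ → Bool) :
    ∃ (κ : Type) (_ : Fintype κ) (η : κ → ℝ), (∀ i, 0 ≤ η i + L) ∧
      ∀ k, (mom L e A k : ℝ) = ∑ i, η i ^ k := by
  obtain ⟨η, w, h1, h2, -, h4⟩ := sect_gen L hL e (cast_sq he)
    (fun s => A (Nat.dist (ds s) L) = true) (fun s t h => by rw [h])
  refine ⟨_, inferInstance, η, h1, fun k => ?_⟩
  have := h4 1 k
  simp only [mul_one, h2, one_mul] at this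
  rw [mom_cast, this]

theorem sect_repF (L : ℕ) (hL : 2 ≤ L) (e : ℤ) (he : e * e = 1) :
    ∃ (κ : Type) (_ : Fintype κ) (η φ : κ → ℝ), (∀ i, 0 ≤ η i + L) ∧ (∀ i, |φ i| ≤ 1) ∧
      (∀ k, (mom L e A0 k : ℝ) = ∑ i, η i ^ k) ∧ ∀ k, (momF L e k : ℝ) = ∑ i, φ i * η i ^ k := by
  obtain ⟨η, w, h1, h2, h3, h4⟩ := sect_gen L hL e (cast_sq he)
    (fun s => ds s = L) (fun s t h => by rw [h])
  refine ⟨_, inferInstance, η, w (Fl L), h1, fun i => ?_, fun k => ?_, fun k => ?_⟩
  · have a1 := h3 _ (psd_Fl L 1 (by norm_num)) i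
    have a2 := h3 _ (psd_Fl L (-1) (by norm_num)) i
    rw [map_add, map_smul, Pi.add_apply, Pi.smul_apply, h2, smul_eq_mul] at a1 a2
    rw [abs_le]
    constructor <;> linarith
  · have := h4 1 k
    simp only [mul_one, h2, one_mul] at this
    rw [mom_cast, ← this]
    refine Finset.sum_congr rfl fun s _ => ?_
    simp only [A0_dist]
  · rw [momF_cast, ← h4]
    refine Finset.sum_congr rfl fun s _ => ?_
    rw [mul_Fl, yB_pow_symm L hL e (cast_sq he) k s]

theorem hasSum_mom (L : ℕ) (hL : 2 ≤ L) (e : ℤ) (he : e * e = 1) (A : ℕ → Bool) :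
    HasSum (fun k : ℕ => (8 : ℝ) ^ k / (k.factorial : ℝ) * (mom L e A k : ℝ))
      (ex (fun k => (mom L e A k : ℝ)) 8) := by
  obtain ⟨κ, _, η, -, h⟩ := sect_rep L hL e he A
  exact (hasSum_ex (fun k => (mom L e A k : ℝ)) (fun _ => 1) η
    (fun k => by simpa using h k) 8).summable.hasSum

theorem Zf_exY (L : ℕ) (hL : 2 ≤ L) (h : Fin 4) (hh : h = 0 ∨ h = 3) (e : ℤ)
    (he : e = (if h = 0 then 1 else -1) * (-1) ^ L) :
    Zf 0 h 8 L * Real.exp (16 * L) =
      exY L (mom L e A0) + exY L (mom L e A1) + exY L (mom L e Ae) + exY L (mom L e Ao) ∧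
    Zf 3 h 8 L * Real.exp (16 * L) =
      exY L (mom L e A0) - exY L (mom L e A1) + exY L (mom L e Ae) - exY L (mom L e Ao) ∧
    Zf 1 h 8 L * Real.exp (16 * L) = (-1) ^ L * exY L (momF L e) ∧
    exY L (mom L e A2) = exY L (mom L e Ae) + exY L (mom L e Ao) := by
  have hee : e * e = 1 := by
    have h1 : ((-1 : ℤ) ^ L) * (-1) ^ L = 1 := by rw [← mul_pow]; simp
    rw [he]
    split_ifs
    · simpa using h1
    · simpa using h1
  have heR : (e : ℝ) = (if h = 0 then 1 else -1) * (-1) ^ L := by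
    rw [he]; push_cast; rfl
  have s0 := hasSum_mom L hL e hee A0
  have s1 := hasSum_mom L hL e hee A1
  have se := hasSum_mom L hL e hee Ae
  have so := hasSum_mom L hL e hee Ao
  refine ⟨?_, ?_, ?_, ?_⟩
  · rw [Zf_eq L hL 0 h (by decide) hh e heR (cast_sq hee)]
    unfold exY
    rw [← mul_add, ← mul_add, ← mul_add, ← (((s0.add s1).add se).add so).tsum_eq]
    congr 1
    unfold ex
    refine tsum_congr fun k => ?_
    rw [← mul_add, ← mul_add, ← mul_add]
    congr 1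
    simp only [mom_cast, tens_gS0, mul_one, trace, diag, ← Finset.sum_add_distrib]
    exact Finset.sum_congr rfl fun s _ => (split4 _ _).1
  · rw [Zf_eq L hL 3 h (by decide) hh e heR (cast_sq hee)]
    unfold exY
    rw [← mul_sub, ← mul_add, ← mul_sub, ← (((s0.sub s1).add se).sub so).tsum_eq]
    congr 1
    unfold ex
    refine tsum_congr fun k => ?_
    rw [← mul_sub, ← mul_add, ← mul_sub]
    congr 1
    simp only [mom_cast, tens_gS3, trace, diag, ← Finset.sum_add_distrib,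
      ← Finset.sum_sub_distrib, mul_diagonal, neg_one_dist]
    exact Finset.sum_congr rfl fun s _ => (split4 _ _).2.1
  · rw [Zf_eq L hL 1 h (by decide) hh e heR (cast_sq hee)]
    unfold exY
    rw [mul_left_comm]
    congr 1
    unfold ex
    rw [← tsum_mul_left]
    refine tsum_congr fun k => ?_
    rw [mul_left_comm]
    congr 1
    beta_reduce
    rw [tens_gS1, Matrix.mul_smul, trace_smul, smul_eq_mul, momF_cast]
    congr 1
    simp only [trace, diag]
    refine Finset.sum_congr rfl fun s _ => ?_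
    rw [mul_Fl, yB_pow_symm L hL e (cast_sq hee) k s]
    split_ifs with hs
    · rfl
    · refine pow_apply_eq_zero _ ds (yB_ds L hL _) k _ _ ?_
      have := ds_flp s
      omega
  · unfold exY
    rw [← mul_add, ← (se.add so).tsum_eq]
    congr 1
    unfold ex
    refine tsum_congr fun k => ?_
    rw [← mul_add]
    congr 1
    simp only [mom_cast, ← Finset.sum_add_distrib]
    exact Finset.sum_congr rfl fun s _ => (split4 _ _).2.2

theorem bnd_A (L : ℕ) (hL : 2 ≤ L) (e : ℤ) (he : e * e = 1) (A : ℕ → Bool) :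
    0 ≤ exY L (mom L e A) ∧ ∀ (s K : ℕ) (m : List ℤ), 0 < s → 0 < K →
      (∀ k, k < m.length → m.getD k 0 = mom L e A k) →
      (∀ nodes lo, lowChk s K L m nodes lo = true → (lo : ℝ) ≤ exY L (mom L e A)) ∧
      (∀ nodes Y nodes' hi, edgeChk s L m nodes Y = true → upChk s K L m nodes' Y hi = true →
        exY L (mom L e A) ≤ hi) := by
  obtain ⟨κ, _, η, h1, h2⟩ := sect_rep L hL e he A
  have h3 : ∀ k, (mom L e A k : ℝ) = ∑ i, (fun _ => (1 : ℝ)) i * η i ^ k := fun k => by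
    simpa using h2 k
  rw [exY_rep L _ _ η h3]
  refine ⟨Finset.sum_nonneg fun i _ => by positivity, fun s K m hs hK hm => ⟨?_, ?_⟩⟩
  · intro nodes lo h
    exact lowChk_sound _ η s K L hs hK m nodes lo (fun _ => zero_le_one) h1
      (fun k hk => by rw [hm k hk, h3]) h
  · intro nodes Y nodes' hi hE h
    exact upChk_sound _ η s K L hs hK m nodes' Y hi (fun _ => zero_le_one) h1
      (edgeChk_sound η s L m nodes Y (fun k hk => by rw [hm k hk, h2]) hE)
      (fun k hk => by rw [hm k hk, h3]) h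

theorem bnd_F (L : ℕ) (hL : 2 ≤ L) (e : ℤ) (he : e * e = 1) (σ : ℤ) (hσ : σ = 1 ∨ σ = -1)
    (s K : ℕ) (hs : 0 < s) (hK : 0 < K) (m0 m : List ℤ)
    (hm0 : ∀ k, k < m0.length → m0.getD k 0 = mom L e A0 k)
    (hm : ∀ k, k < m.length → m.getD k 0 = mom L e A0 k + σ * momF L e k) :
    (∀ nodes lo, lowChk s K L m nodes lo = true →
      (lo : ℝ) ≤ exY L (mom L e A0) + σ * exY L (momF L e)) ∧
    (∀ nodes Y nodes' hi, edgeChk s L m0 nodes Y = true → upChk s K L m nodes' Y hi = true →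
      exY L (mom L e A0) + σ * exY L (momF L e) ≤ hi) := by
  obtain ⟨κ, _, η, φ, h1, hφ, h2, hF⟩ := sect_repF L hL e he
  have h3 : ∀ k, (mom L e A0 k : ℝ) = ∑ i, (fun _ => (1 : ℝ)) i * η i ^ k := fun k => by
    simpa using h2 k
  have hE : exY L (mom L e A0) + σ * exY L (momF L e) =
      ∑ i, (1 + σ * φ i) * Real.exp (8 * (η i + L)) := by
    rw [exY_rep L _ _ η h3, exY_rep L _ _ η hF, Finset.mul_sum, ← Finset.sum_add_distrib]
    refine Finset.sum_congr rfl fun i _ => ?_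
    ring
  have hc : ∀ i, 0 ≤ 1 + σ * φ i := fun i => by
    have := abs_le.mp (hφ i)
    rcases hσ with rfl | rfl <;> push_cast <;> linarith [this.1, this.2]
  have hM : ∀ k, k < m.length → ((m.getD k 0 : ℤ) : ℝ) = ∑ i, (1 + σ * φ i) * η i ^ k := by
    intro k hk
    rw [hm k hk]
    push_cast
    rw [h2, hF, Finset.mul_sum, ← Finset.sum_add_distrib]
    refine Finset.sum_congr rfl fun i _ => ?_
    ring
  rw [hE]
  refine ⟨fun nodes lo h => lowChk_sound _ η s K L hs hK m nodes lo hc h1 hM h, ?_⟩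
  intro nodes Y nodes' hi hE' h
  exact upChk_sound _ η s K L hs hK m nodes' Y hi hc h1
    (edgeChk_sound η s L m0 nodes Y (fun k hk => by rw [hm0 k hk, h2]) hE') hM h

end Vale.Agent.P348
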