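import Vale.Agent.P348.Tens

/-! The spatial transfer matrix.
`trace_Gm`: expand `Gm ^ N` as a sum over `a : Fin N → Fin L → Fin 4` of ordered products
(`sum_pow_ofFn`), use `tens_list_prod`, `tens_smul`, `tens_mul`, `trace_tens` to get
`∑ a, (∏ t, ∏ j, tw h j (a t j)) * ∏ j, Km d N g (fun t => a t (j - 1)) (fun t => a t j)`, swap the
arguments of `a` (`Function.swap`, an equivalence) and compare with `trace_pow_cyc`; for `L = n + 1`
`∏ t, ∏ j, tw h j (a t j) = Uw h (fun t => a t (Fin.last n))`.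
`Km_block`: `gm h * Mm d a b * gm h = (chi h a * chi h b) • Mm d a b`, `gm h * gm h = 1`, and `gm h`
commutes with `gm g`; insert into the trace. -/

namespace Vale.Agent.P348

open Matrix

theorem sum_pow_ofFn {A α : Type} [Semiring A] [Fintype α] (X : α → A) (N : ℕ) :
    (∑ a, X a) ^ N = ∑ f : Fin N → α, (List.ofFn fun t => X (f t)).prod := by
  induction N with
  | zero => simp
  | succ N ih =>
    rw [pow_succ', ih, Finset.sum_mul_sum, ← Fintype.sum_prod_type',
      ← (Fin.consEquiv fun _ : Fin (N + 1) => α).sum_comp]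
    refine Finset.sum_congr rfl fun q _ => ?_
    simp [Fin.consEquiv, List.ofFn_succ]

theorem transfer_path {Ω : Type} [Fintype Ω] [DecidableEq Ω] (K : Matrix Ω Ω ℝ) (F : Ω → ℝ) (n : ℕ)
    (a : Ω) : ∑ b, (K ^ n) a b * F b = ∑ w : Fin n → Ω,
      F ((Fin.cons a w : Fin (n + 1) → Ω) (Fin.last n)) *
        ∏ j, K ((Fin.cons a w : Fin (n + 1) → Ω) j.castSucc) (w j) := by
  induction n generalizing a with
  | zero => simp [Matrix.one_apply]
  | succ n ih =>
    have h1 : ∑ b, (K ^ (n + 1)) a b * F b = ∑ c, K a c * ∑ b, (K ^ n) c b * F b := by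
      simp only [pow_succ', Matrix.mul_apply, Finset.sum_mul, Finset.mul_sum, mul_assoc]
      exact Finset.sum_comm
    simp only [h1, ih, Finset.mul_sum]
    rw [← Fintype.sum_prod_type', ← (Fin.consEquiv fun _ : Fin (n + 1) => Ω).sum_comp]
    refine Finset.sum_congr rfl fun q _ => ?_
    rw [Fin.prod_univ_succ, ← Fin.succ_last]
    simp only [Fin.consEquiv, Equiv.coe_fn_mk, Fin.cons_succ, Fin.castSucc_zero, Fin.cons_zero,
      ← Fin.succ_castSucc]
    ring

theorem trace_pow_cyc {Ω : Type} [Fintype Ω] [DecidableEq Ω] (K : Matrix Ω Ω ℝ) (u : Ω → ℝ) (n : ℕ) :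
    trace (K ^ (n + 1) * diagonal u) =
      ∑ w : Fin (n + 1) → Ω, u (w (Fin.last n)) * ∏ j, K (w ((finRotate (n + 1)).symm j)) (w j) := by
  have h1 : trace (K ^ (n + 1) * diagonal u) =
      ∑ a, ∑ b, (K ^ (n + 1)) a b * if b = a then u a else 0 := by
    simp [trace, mul_diagonal]
  simp only [h1, transfer_path]
  rw [Finset.sum_comm]
  refine Finset.sum_congr rfl fun w _ => ?_
  have h2 : ∀ a, (Fin.cons a w : Fin (n + 2) → Ω) (Fin.last (n + 1)) = w (Fin.last n) := fun a => by
    rw [← Fin.succ_last, Fin.cons_succ]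
  simp only [h2, ite_mul, zero_mul, Finset.sum_ite_eq, Finset.mem_univ, if_true]
  congr 1
  refine Finset.prod_congr rfl fun j _ => ?_
  congr 1
  refine Fin.cases ?_ (fun i => ?_) j
  · have h3 : (finRotate (n + 1)).symm 0 = Fin.last n := by
      rw [Equiv.symm_apply_eq, finRotate_last]
    rw [h3]; rfl
  · have h3 : (finRotate (n + 1)).symm i.succ = i.castSucc := by
      rw [Equiv.symm_apply_eq]
      apply Fin.ext
      rw [finRotate_val, if_neg (by have := i.2; simp only [Fin.val_castSucc]; omega)]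
      rfl
    rw [h3, ← Fin.succ_castSucc, Fin.cons_succ]

theorem transfer_prod_smul {A : Type} [Ring A] [Algebra ℝ A] (N : ℕ) (c : Fin N → ℝ)
    (X : Fin N → A) : (List.ofFn fun t => c t • X t).prod = (∏ t, c t) • (List.ofFn X).prod := by
  induction N with
  | zero => simp
  | succ N ih =>
    rw [List.ofFn_succ, List.ofFn_succ, List.prod_cons, List.prod_cons, ih, Fin.prod_univ_succ,
      smul_mul_smul_comm]

theorem trace_Gm (d : ℝ) (g h : Fin 4) (L N : ℕ) (hL : 1 ≤ L) :
    trace (Gm d h L ^ N * Gr g L) = trace (Km d N g ^ L * diagonal (Uw h)) := by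
  obtain ⟨n, rfl⟩ : ∃ n, L = n + 1 := ⟨L - 1, by omega⟩
  rw [trace_pow_cyc, Gm, sum_pow_ofFn, Finset.sum_mul, trace_sum]
  refine Fintype.sum_equiv (Equiv.piComm fun _ _ => Fin 4) _ _ fun a => ?_
  have h1 := tens_list_prod (List.ofFn fun t j => Mm d (a t ((finRotate (n + 1)).symm j)) (a t j))
  simp only [List.map_ofFn] at h1
  rw [transfer_prod_smul, Matrix.smul_mul, trace_smul, smul_eq_mul]
  congr 1
  · refine Finset.prod_congr rfl fun t _ => ?_
    rw [Finset.prod_eq_single (Fin.last n) (fun j _ hj => ?_) (by simp)]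
    · simp [tw, Function.swap]
    · rw [tw, if_neg fun e => hj (Fin.ext (by simpa using e))]
  · refine (congrArg (fun M => trace (M * Gr g (n + 1))) h1).trans ?_
    rw [Gr, tens_mul, trace_tens]
    rfl

theorem Mm_symm (d : ℝ) (a b : Fin 4) : Mm d a b = Mm d b a := by
  refine Fin.cases ?_ (fun a' => ?_) a <;> refine Fin.cases ?_ (fun b' => ?_) b <;> rfl

theorem Km_isHermitian (d : ℝ) (N : ℕ) (g : Fin 4) : (Km d N g).IsHermitian := by
  ext w w'
  simp only [conjTranspose_apply, star_trivial, Km, Mm_symm d (w' _)]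

theorem transfer_chi_sq (g a : Fin 4) : (chi g a : ℝ) * chi g a = 1 := by
  unfold chi; split_ifs <;> norm_num

theorem gm_mul_self (g : Fin 4) : (gm g : M3 ℝ) * gm g = 1 := by
  rw [gm, diagonal_mul_diagonal]
  simp only [transfer_chi_sq, diagonal_one]

theorem gm_conj (g h : Fin 4) : (gm h : M3 ℝ) * gm g * gm h = gm g := by
  rw [gm, gm, diagonal_mul_diagonal, diagonal_mul_diagonal]
  congr 1
  funext b
  rw [mul_right_comm, transfer_chi_sq, one_mul]

theorem transfer_gm_Lm (h : Fin 4) (a : Fin 3) :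
    (gm h : M3 ℝ) * Lm a = (chi h a.succ : ℝ) • (Lm a * gm h) := by
  ext b c
  simp only [gm, diagonal_mul, mul_diagonal, Matrix.smul_apply, smul_eq_mul, Lm]
  fin_cases h <;> fin_cases a <;> fin_cases b <;> fin_cases c <;> simp [chi, eps]

theorem transfer_gm_Mm (d : ℝ) (h a b : Fin 4) :
    gm h * Mm d a b = (chi h a * chi h b : ℝ) • (Mm d a b * gm h) := by
  have h0 : (chi h 0 : ℝ) = 1 := by simp [chi]
  refine Fin.cases ?_ (fun a' => ?_) a <;> refine Fin.cases ?_ (fun b' => ?_) b
  · simp [Mm, h0]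
  · simp [Mm, h0, transfer_gm_Lm, smul_comm d]
  · simp [Mm, h0, transfer_gm_Lm, smul_comm d]
  · simp [Mm]

theorem transfer_gm_prod (d : ℝ) (h : Fin 4) (N : ℕ) (w w' : Fin N → Fin 4) :
    gm h * (List.ofFn fun t => Mm d (w t) (w' t)).prod =
      (Uw h w * Uw h w') • ((List.ofFn fun t => Mm d (w t) (w' t)).prod * gm h) := by
  induction N with
  | zero => simp [Uw]
  | succ N ih =>
    rw [List.ofFn_succ, List.prod_cons, ← Matrix.mul_assoc, transfer_gm_Mm, Matrix.smul_mul,
      Matrix.mul_assoc, ih (fun t => w t.succ) (fun t => w' t.succ), Matrix.mul_smul, smul_smul,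
      Matrix.mul_assoc]
    simp only [Uw, Fin.prod_univ_succ]
    congr 1
    ring

theorem Km_block (d : ℝ) (N : ℕ) (g h : Fin 4) (w w' : Fin N → Fin 4) (hK : Km d N g w w' ≠ 0) :
    Uw h w = Uw h w' := by
  have h1 := transfer_gm_prod d h N w w'
  have h2 : Km d N g w w' = (Uw h w * Uw h w') * Km d N g w w' := by
    rw [Km]
    generalize (List.ofFn fun t => Mm d (w t) (w' t)).prod = P at *
    calc trace (P * gm g) = trace (gm h * (gm h * P * gm g)) := by
          rw [← Matrix.mul_assoc, ← Matrix.mul_assoc, gm_mul_self, Matrix.one_mul]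
      _ = (Uw h w * Uw h w') * trace (P * (gm h * gm g * gm h)) := by
          rw [trace_mul_comm, h1, Matrix.smul_mul, Matrix.smul_mul, trace_smul, smul_eq_mul]
          simp only [Matrix.mul_assoc]
      _ = _ := by rw [gm_conj]
  have h3 : Uw h w * Uw h w' = 1 := by
    have h4 : (Uw h w * Uw h w' - 1) * Km d N g w w' = 0 := by linarith
    linarith [(mul_eq_zero.1 h4).resolve_right hK]
  have h5 : Uw h w' * Uw h w' = 1 := by
    rw [Uw, ← Finset.prod_mul_distrib]
    exact Finset.prod_eq_one fun t _ => transfer_chi_sq h _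
  calc Uw h w = Uw h w * (Uw h w' * Uw h w') := by rw [h5, mul_one]
    _ = Uw h w' := by rw [← mul_assoc, h3, one_mul]

end Vale.Agent.P348
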