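import Vale.Agent.P348.Blk

/-! Sparse vectors on a magnetisation sector as ternary trees of blocks, and the action of `yB`. -/

namespace Vale.Agent.P348

open Finset

def tk (a b : Nat) : Nat := Nat.sub (Nat.add a b) (Nat.mul a b)
def coefv (cP prev first c : Nat) : Nat :=
  Nat.add (Nat.add (Nat.add (Nat.add (Nat.add (Nat.add cP (tk prev (dk c 0))) (tk (dk c 0) (dk c 1)))
    (tk (dk c 1) (dk c 2))) (tk (dk c 2) (dk c 3))) (tk (dk c 3) (dk c 4))) (tk (dk c 4) first)
noncomputable def coefB (s cP prev first : Nat) : B := mkB (fun i => coefv cP prev first (cfg s i))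

inductive Tr | nil | leaf (b : B) | node (a b c : Tr)

noncomputable def ch0 (t : Tr) : Tr :=
  Tr.rec (motive := fun _ => Tr) Tr.nil (fun _ => Tr.nil) (fun a _ _ _ _ _ => a) t
noncomputable def ch1 (t : Tr) : Tr :=
  Tr.rec (motive := fun _ => Tr) Tr.nil (fun _ => Tr.nil) (fun _ a _ _ _ _ => a) t
noncomputable def ch2 (t : Tr) : Tr :=
  Tr.rec (motive := fun _ => Tr) Tr.nil (fun _ => Tr.nil) (fun _ _ a _ _ _ => a) t
noncomputable def blkOf (t : Tr) : B :=
  Tr.rec (motive := fun _ => B) zeroB (fun b => b) (fun _ _ _ _ _ _ => zeroB) t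
noncomputable def app (f : B → B → B) (a : B) (t : Tr) : B :=
  Tr.rec (motive := fun _ => B) a (fun b => f a b) (fun _ _ _ _ _ _ => a) t
noncomputable def lmap (f : Tr → Tr) (l : List Tr) : List Tr :=
  List.rec (motive := fun _ => List Tr) [] (fun x _ r => f x :: r) l
noncomputable def foldB (a : B) (l : List Tr) : B :=
  List.rec (motive := fun _ => B) a (fun x _ r => app addB r x) l
noncomputable def go (q : Nat) : Tr → Tr → Tr → Tr → Tr → List Tr → Nat → Nat → Nat → Nat → Tr :=
  Nat.rec (motive := fun _ => Tr → Tr → Tr → Tr → Tr → List Tr → Nat → Nat → Nat → Nat → Tr)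
   (fun self lo hi blo bhi acc s cP prev first =>
      Tr.leaf (app (dnR s) (app (upR s) (app (dnL s) (app (upL s)
        (foldB (inn s (coefB s cP prev first) (blkOf self)) acc) lo) hi) blo) bhi))
   (fun _ r self lo hi blo bhi acc s cP prev first =>
      Tr.node
       (r (ch0 self) Tr.nil (ch1 self) (ch0 blo) (ch0 bhi) (ch1 lo :: lmap ch0 acc) s
         (Nat.add cP (tk prev 0)) 0 first)
       (r (ch1 self) (ch0 self) (ch2 self) (ch1 blo) (ch1 bhi) (ch2 lo :: ch0 hi :: lmap ch1 acc)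
         (Nat.sub s 1) (Nat.add cP (tk prev 1)) 1 first)
       (r (ch2 self) (ch1 self) Tr.nil (ch2 blo) (ch2 bhi) (ch1 hi :: lmap ch2 acc)
         (Nat.sub s 2) (Nat.add cP (tk prev 2)) 2 first)) q
noncomputable def half (q s : Nat) (x y : Tr) : Tr :=
  Tr.node (go q (ch0 x) Tr.nil (ch1 x) Tr.nil (ch1 y) [] s 0 0 0)
    (go q (ch1 x) (ch0 x) (ch2 x) (ch0 y) (ch2 y) [] (Nat.sub s 1) 0 1 1)
    (go q (ch2 x) (ch1 x) Tr.nil (ch1 y) Tr.nil [] (Nat.sub s 2) 0 2 2)
noncomputable def chd (t : Tr) (d : Nat) : Tr :=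
  Nat.rec (motive := fun _ => Tr) (ch0 t)
    (fun e _ => Nat.rec (motive := fun _ => Tr) (ch1 t) (fun _ _ => ch2 t) e) d
noncomputable def val (p : Nat) : Tr → Nat → Nat :=
  Nat.rec (motive := fun _ => Tr → Nat → Nat) (fun t c => getB (blkOf t) (rk c))
    (fun _ r t c => r (chd t (Nat.mod c 3)) (Nat.div c 3)) p
noncomputable def ins (p : Nat) : Tr → Nat → Nat → Tr :=
  Nat.rec (motive := fun _ => Tr → Nat → Nat → Tr)
    (fun t c v => Tr.leaf (mkB (fun j => opt (Nat.beq j (rk c)) (getB (blkOf t) j) v)))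
    (fun _ r t c v => Nat.rec (motive := fun _ => Tr)
      (Tr.node (r (ch0 t) (Nat.div c 3) v) (ch1 t) (ch2 t))
      (fun e _ => Nat.rec (motive := fun _ => Tr) (Tr.node (ch0 t) (r (ch1 t) (Nat.div c 3) v) (ch2 t))
        (fun _ _ => Tr.node (ch0 t) (ch1 t) (r (ch2 t) (Nat.div c 3) v)) e) (Nat.mod c 3)) p
noncomputable def neg (M : Nat) (t : Tr) : Tr :=
  Tr.rec (motive := fun _ => Tr) Tr.nil (fun b => Tr.leaf (negB M b))
    (fun _ _ _ a b c => Tr.node a b c) t

/-- hopping terms on the first `n` bonds -/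
def hops (n : ℕ) (x : ℕ → ℕ) (c : ℕ) : ℕ :=
  ∑ j ∈ range n, ((if 1 ≤ dg c j ∧ dg c (j + 1) ≤ 1 then x (c - 3 ^ j + 3 ^ (j + 1)) else 0)
      + (if dg c j ≤ 1 ∧ 1 ≤ dg c (j + 1) then x (c + 3 ^ j - 3 ^ (j + 1)) else 0))
/-- diagonal weight of the first `n` bonds -/
def dia (n c : ℕ) : ℕ := ∑ j ∈ range n, tt (dg c j) (dg c (j + 1))

theorem opt_eq (b : Bool) (e v : ℕ) : opt b e v = e + if b = true then v else 0 := by
  cases b <;> simp [opt]

theorem getB_zero (i : ℕ) : getB zeroB i = 0 := by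
  unfold getB zeroB
  simp only [Bool.rec_eq, ite_self]

theorem getB_cut (f : ℕ → ℕ) {c : ℕ} (hc : c < 243) :
    getB (mkB (cut (sz (dsC 5 c)) fun i => f (cfg (dsC 5 c) i))) (rk c) = f c := by
  obtain ⟨-, h2, h3, h4⟩ := tab c hc
  rw [getB_mkB _ _ h3]
  unfold cut
  rw [show Nat.ble (Nat.succ (rk c)) (sz (dsC 5 c)) = true from Nat.ble_eq_true_of_le h2]
  exact congrArg f h4

theorem hopS_eq (a : B) (c j e : ℕ) : hopS a c j e = e +
    ((if 1 ≤ dg c j ∧ dg c (j + 1) ≤ 1 then getB a (rk (c - 3 ^ j + 3 ^ (j + 1))) else 0)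
      + (if dg c j ≤ 1 ∧ 1 ≤ dg c (j + 1) then getB a (rk (c + 3 ^ j - 3 ^ (j + 1))) else 0)) := by
  unfold hopS
  simp only [opt_eq, Bool.and_eq_true, Nat.ble_eq, add_assoc]
  rfl

theorem get_inn (k a : B) {c : ℕ} (hc : c < 243) :
    getB (inn (dsC 5 c) k a) (rk c) =
      getB k (rk c) * getB a (rk c) + hops 4 (fun u => getB a (rk u)) c := by
  rw [inn_eq _ (tab c hc).1, getB_cut (fun u => innS k a u) hc]
  simp only [innS, hopS_eq, hops, sum_range_succ, range_zero, sum_empty, zero_add, add_assoc]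
  rfl

theorem get_coef (cP prev first : ℕ) {c : ℕ} (hc : c < 243) :
    getB (coefB (dsC 5 c) cP prev first) (rk c) =
      cP + tt prev (dg c 0) + dia 4 c + tt (dg c 4) first := by
  obtain ⟨-, -, h3, h4⟩ := tab c hc
  rw [coefB, getB_mkB _ _ h3, h4]
  simp only [dia, sum_range_succ, range_zero, sum_empty, zero_add, ← add_assoc]
  rfl

theorem get_app (f : B → B → B) (a : B) (t : Tr) (i j : ℕ) (P : Prop) [Decidable P]
    (h : ∀ b, getB (f a b) i = getB a i + if P then getB b j else 0) :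
    getB (app f a t) i = getB a i + if P then getB (blkOf t) j else 0 := by
  cases t with
  | nil => show getB a i = getB a i + if P then getB zeroB j else 0; simp [getB_zero]
  | leaf b => exact h b
  | node _ _ _ => show getB a i = getB a i + if P then getB zeroB j else 0; simp [getB_zero]

theorem get_fold (a : B) (l : List Tr) {i : ℕ} (hi : i < 51) :
    getB (foldB a l) i = getB a i + (l.map fun t => getB (blkOf t) i).sum := by
  induction l with
  | nil => rfl
  | cons x l ih =>
    show getB (app addB (foldB a l) x) i = _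
    rw [get_app addB _ x i i True (fun b => by rw [addB_eq, getB_mkB _ _ hi]; rfl), ih]
    simp only [if_true, List.map_cons, List.sum_cons]
    omega

theorem upS_eq (j : ℕ) (a b : B) (c : ℕ) :
    upS j a b c = getB a (rk c) + if dg c j ≤ 1 then getB b (rk (c + 3 ^ j)) else 0 := by
  unfold upS
  simp only [opt_eq, Nat.ble_eq]
  rfl

theorem dnS_eq (j : ℕ) (a b : B) (c : ℕ) :
    dnS j a b c = getB a (rk c) + if 1 ≤ dg c j then getB b (rk (c - 3 ^ j)) else 0 := by
  unfold dnS
  simp only [opt_eq, Nat.ble_eq]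
  rfl

theorem val_nil (p c : ℕ) : val p Tr.nil c = 0 := by
  induction p generalizing c with
  | zero => exact getB_zero _
  | succ p ih =>
    show val p (chd Tr.nil (c % 3)) (c / 3) = 0
    have : chd Tr.nil (c % 3) = Tr.nil := by
      rcases c % 3 with _ | _ | _ <;> rfl
    rw [this, ih]

theorem val_succ (p : ℕ) (t : Tr) (d u : ℕ) (hd : d < 3) :
    val (p + 1) t (d + 3 * u) = val p (chd t d) u := by
  show val p (chd t ((d + 3 * u) % 3)) ((d + 3 * u) / 3) = _
  rw [show (d + 3 * u) % 3 = d by omega, show (d + 3 * u) / 3 = u by omega]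

theorem dgk_zero (d u : ℕ) (hd : d < 3) : dg (d + 3 * u) 0 = d := by
  unfold dg; simp only [pow_zero, Nat.div_one]; omega

theorem dgk_succ (d u j : ℕ) (hd : d < 3) : dg (d + 3 * u) (j + 1) = dg u j := by
  unfold dg
  rw [pow_succ', ← Nat.div_div_eq_div_mul, show (d + 3 * u) / 3 = u by omega]

theorem le_of_dg {u j : ℕ} (h : 1 ≤ dg u j) : 3 ^ j ≤ u := by
  by_contra h'
  unfold dg at h
  rw [Nat.div_eq_of_lt (not_le.1 h')] at h
  omega

theorem dsC_succ (n d u : ℕ) (hd : d < 3) : dsC (n + 1) (d + 3 * u) = d + dsC n u := by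
  show (d + 3 * u) % 3 + dsC n ((d + 3 * u) / 3) = _
  rw [show (d + 3 * u) % 3 = d by omega, show (d + 3 * u) / 3 = u by omega]

theorem dia_succ (n d u : ℕ) (hd : d < 3) : dia (n + 1) (d + 3 * u) = tt d (dg u 0) + dia n u := by
  unfold dia
  rw [sum_range_succ', add_comm]
  simp only [dgk_succ _ _ _ hd, dgk_zero _ _ hd, zero_add]

theorem hops_succ (n : ℕ) (x : ℕ → ℕ) (d u : ℕ) (hd : d < 3) :
    hops (n + 1) x (d + 3 * u) = hops n (fun v => x (d + 3 * v)) u +
      ((if 1 ≤ d ∧ dg u 0 ≤ 1 then x (d - 1 + 3 * (u + 1)) else 0) +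
        (if d ≤ 1 ∧ 1 ≤ dg u 0 then x (d + 1 + 3 * (u - 1)) else 0)) := by
  unfold hops
  rw [sum_range_succ']
  simp only [dgk_succ _ _ _ hd, dgk_zero _ _ hd, zero_add]
  congr 1
  · refine sum_congr rfl fun j _ => ?_
    congr 1
    · refine if_ctx_congr Iff.rfl (fun h => congrArg x ?_) fun _ => rfl
      have := le_of_dg h.1
      rw [pow_succ' 3 (j + 1), pow_succ' 3 j]
      omega
    · refine if_ctx_congr Iff.rfl (fun h => congrArg x ?_) fun _ => rfl
      have := le_of_dg h.2
      rw [pow_succ' 3 (j + 1)]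
      rw [pow_succ' 3 j] at this ⊢
      omega
  · congr 1
    · exact if_ctx_congr Iff.rfl (fun h => congrArg x (by omega)) fun _ => rfl
    · refine if_ctx_congr Iff.rfl (fun h => congrArg x ?_) fun _ => rfl
      have := le_of_dg h.2
      omega

theorem lmap_eq (f : Tr → Tr) (l : List Tr) : lmap f l = l.map f := by
  induction l with
  | nil => rfl
  | cons x l ih => exact congrArg (f x :: ·) ih

theorem split3 (c : ℕ) : ∃ d u, d < 3 ∧ c = d + 3 * u := ⟨c % 3, c / 3, by omega, by omega⟩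

theorem go_val (q : ℕ) : ∀ (self lo hi blo bhi : Tr) (acc : List Tr) (s cP prev first c : ℕ),
    c < 3 ^ (q + 5) → dsC (q + 5) c = s →
    val q (go q self lo hi blo bhi acc s cP prev first) c =
      (cP + tt prev (dg c 0) + dia (q + 4) c + tt (dg c (q + 4)) first) * val q self c
      + hops (q + 4) (val q self) c + (acc.map fun t => val q t c).sum
      + (if dg c 0 ≤ 1 then val q lo (c + 1) else 0) + (if 1 ≤ dg c 0 then val q hi (c - 1) else 0)
      + (if dg c (q + 4) ≤ 1 then val q blo (c + 3 ^ (q + 4)) else 0)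
      + (if 1 ≤ dg c (q + 4) then val q bhi (c - 3 ^ (q + 4)) else 0) := by
  induction q with
  | zero =>
    intro self lo hi blo bhi acc s cP prev first c hc hs
    have hc' : c < 243 := hc
    have h10 := (tab c hc').1
    subst hs
    show getB (app (dnR _) (app (upR _) (app (dnL _) (app (upL _)
        (foldB (inn _ (coefB _ cP prev first) (blkOf self)) acc) lo) hi) blo) bhi) (rk c) = _
    rw [get_app _ _ bhi _ (rk (c - 3 ^ 4)) (1 ≤ dg c 4) fun b => by
        rw [dnR_eq _ h10, getB_cut (fun u => dnS 4 _ b u) hc', dnS_eq],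
      get_app _ _ blo _ (rk (c + 3 ^ 4)) (dg c 4 ≤ 1) fun b => by
        rw [upR_eq _ h10, getB_cut (fun u => upS 4 _ b u) hc', upS_eq],
      get_app _ _ hi _ (rk (c - 3 ^ 0)) (1 ≤ dg c 0) fun b => by
        rw [dnL_eq _ h10, getB_cut (fun u => dnS 0 _ b u) hc', dnS_eq],
      get_app _ _ lo _ (rk (c + 3 ^ 0)) (dg c 0 ≤ 1) fun b => by
        rw [upL_eq _ h10, getB_cut (fun u => upS 0 _ b u) hc', upS_eq],
      get_fold _ _ (tab c hc').2.2.1, get_inn _ _ hc', get_coef _ _ _ hc']
    rfl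
  | succ q ih =>
    intro self lo hi blo bhi acc s cP prev first c hc hs
    obtain ⟨d, u, hd, rfl⟩ := split3 c
    have hu : u < 3 ^ (q + 5) := by
      rw [show q + 1 + 5 = q + 5 + 1 by ring, pow_succ'] at hc; omega
    rw [show q + 1 + 5 = q + 5 + 1 by ring, dsC_succ _ _ _ hd] at hs
    have e1 : (if dg u (q + 4) ≤ 1 then val (q + 1) blo (d + 3 * u + 3 ^ (q + 4 + 1)) else 0) =
        if dg u (q + 4) ≤ 1 then val q (chd blo d) (u + 3 ^ (q + 4)) else 0 := by
      rw [← val_succ _ _ _ _ hd, pow_succ']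
      congr 2; ring
    have e2 : (if 1 ≤ dg u (q + 4) then val (q + 1) bhi (d + 3 * u - 3 ^ (q + 4 + 1)) else 0) =
        if 1 ≤ dg u (q + 4) then val q (chd bhi d) (u - 3 ^ (q + 4)) else 0 := by
      refine if_ctx_congr Iff.rfl (fun h => ?_) fun _ => rfl
      have := le_of_dg h
      rw [← val_succ _ _ _ _ hd, pow_succ']
      congr 1; omega
    rw [show q + 1 + 4 = q + 4 + 1 by ring, dia_succ _ _ _ hd, hops_succ _ _ _ _ hd, dgk_succ _ _ _ hd,
      dgk_zero _ _ hd, e1, e2]
    simp only [val_succ _ _ _ _ hd]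
    interval_cases d
    · have h := ih (ch0 self) Tr.nil (ch1 self) (ch0 blo) (ch0 bhi) (ch1 lo :: lmap ch0 acc) s
         (cP + tt prev 0) 0 first u hu (by omega)
      refine h.trans ?_
      have a1 := val_succ q lo 1 u (by norm_num)
      have a2 := val_succ q self 1 (u - 1) (by norm_num)
      rw [show 0 + 3 * u + 1 = 1 + 3 * u by ring, a1, show 0 + 1 + 3 * (u - 1) = 1 + 3 * (u - 1) by ring, a2]
      simp only [lmap_eq, List.map_cons, List.sum_cons, List.map_map, val_nil, ite_self]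
      simp only [show ¬ (1 ≤ 0) by norm_num, show (0 ≤ 1) by norm_num, false_and, true_and, if_true, if_false]
      show _ = _ * val q (ch0 self) u + (hops _ (val q (ch0 self)) u + (0 + ite _ (val q (ch1 self) _) _)) +
        (acc.map ((fun t => val q t u) ∘ ch0)).sum + val q (ch1 lo) u + 0 + ite _ (val q (ch0 blo) _) _ +
        ite _ (val q (ch0 bhi) _) _
      ring
    · have h := ih (ch1 self) (ch0 self) (ch2 self) (ch1 blo) (ch1 bhi)
         (ch2 lo :: ch0 hi :: lmap ch1 acc) (s - 1) (cP + tt prev 1) 1 first u hu (by omega)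
      refine h.trans ?_
      have a1 := val_succ q lo 2 u (by norm_num)
      have a2 := val_succ q self 2 (u - 1) (by norm_num)
      have a3 := val_succ q hi 0 u (by norm_num)
      have a4 := val_succ q self 0 (u + 1) (by norm_num)
      rw [show 1 + 3 * u + 1 = 2 + 3 * u by ring, a1, show 1 + 1 + 3 * (u - 1) = 2 + 3 * (u - 1) by ring, a2,
        show 1 + 3 * u - 1 = 0 + 3 * u by omega, a3, show 1 - 1 + 3 * (u + 1) = 0 + 3 * (u + 1) by omega, a4]
      simp only [lmap_eq, List.map_cons, List.sum_cons, List.map_map]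
      simp only [le_refl, true_and, if_true]
      show _ = _ * val q (ch1 self) u + (hops _ (val q (ch1 self)) u +
        (ite _ (val q (ch0 self) _) _ + ite _ (val q (ch2 self) _) _)) +
        (acc.map ((fun t => val q t u) ∘ ch1)).sum + val q (ch2 lo) u + val q (ch0 hi) u +
        ite _ (val q (ch1 blo) _) _ + ite _ (val q (ch1 bhi) _) _
      ring
    · have h := ih (ch2 self) (ch1 self) Tr.nil (ch2 blo) (ch2 bhi)
         (ch1 hi :: lmap ch2 acc) (s - 2) (cP + tt prev 2) 2 first u hu (by omega)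
      refine h.trans ?_
      have a3 := val_succ q hi 1 u (by norm_num)
      have a4 := val_succ q self 1 (u + 1) (by norm_num)
      rw [show 2 + 3 * u - 1 = 1 + 3 * u by omega, a3, show 2 - 1 + 3 * (u + 1) = 1 + 3 * (u + 1) by omega, a4]
      simp only [lmap_eq, List.map_cons, List.sum_cons, List.map_map, val_nil, ite_self]
      simp only [show ¬ (2 ≤ 1) by norm_num, show (1 ≤ 2) by norm_num, false_and, true_and, if_true, if_false]
      show _ = _ * val q (ch2 self) u + (hops _ (val q (ch2 self)) u + (ite _ (val q (ch1 self) _) _ + 0)) +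
        (acc.map ((fun t => val q t u) ∘ ch2)).sum + 0 + val q (ch1 hi) u + ite _ (val q (ch2 blo) _) _ +
        ite _ (val q (ch2 bhi) _) _
      ring

end Vale.Agent.P348
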